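import Crest.Agent.R191.MT

/-! Row 191: measurable sections (greedy disjoint tuples) and exact subsets of prescribed mass. -/

set_option autoImplicit false
set_option linter.unusedVariables false
set_option linter.unusedSectionVars false

namespace Crest.Agent.R191

open MeasureTheory Set
open scoped ENNReal

variable {Γ X J : Type} [Group Γ] [MulAction Γ X] [MeasurableSpace X]

/-- a measurable injection into `[0,1]` -/
theorem sec_exists_inj (X : Type) [MeasurableSpace X] [StandardBorelSpace X] :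
    ∃ f : X → ℝ, Measurable f ∧ Function.Injective f ∧ ∀ x, f x ∈ Icc (0 : ℝ) 1 :=
  ⟨fun x => Real.sigmoid (embeddingReal X x),
    continuous_sigmoid.measurable.comp (measurable_embeddingReal X),
    Real.sigmoid_injective.comp (measurableEmbedding_embeddingReal X).injective,
    fun x => ⟨Real.sigmoid_nonneg _, Real.sigmoid_le_one _⟩⟩

/-- a rational interval around `a` that misses finitely many other points -/
theorem sec_exists_rat {ι : Type} [Finite ι] (a : ℝ) (b : ι → ℝ) (P : ι → Prop)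
    (h : ∀ i, P i → b i ≠ a) :
    ∃ q₁ q₂ : ℚ, a ∈ Ioo (q₁ : ℝ) q₂ ∧ ∀ i, P i → b i ∉ Ioo (q₁ : ℝ) q₂ := by
  have hfin : (b '' {i | P i}).Finite := (toFinite _).image b
  have hop : IsOpen (b '' {i | P i})ᶜ := hfin.isClosed.isOpen_compl
  have ha : a ∈ (b '' {i | P i})ᶜ := by
    rintro ⟨i, hi, e⟩
    exact h i hi e
  obtain ⟨l, u, ⟨hl, hu⟩, hsub⟩ := mem_nhds_iff_exists_Ioo_subset.1 (hop.mem_nhds ha)
  obtain ⟨q₁, h1, h2⟩ := exists_rat_btwn hl
  obtain ⟨q₂, h3, h4⟩ := exists_rat_btwn hu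
  refine ⟨q₁, q₂, ⟨h2, h3⟩, fun i hi hb => ?_⟩
  exact hsub ⟨h1.trans hb.1, hb.2.trans h4⟩ ⟨i, hi, rfl⟩

/-- the tuple with pattern `p` at `x` -/
def secTup {d : ℕ} (p : Fin d → Γ × J) (x : X) (i : Fin d) : It X J := ⟨(p i).1 • x, (p i).2⟩

/-- the items covered before stage `n` -/
def secCov {d : ℕ} (p : ℕ → Fin d → Γ × J) (B : ℕ → Set X) : ℕ → Set (It X J)
  | 0 => ∅
  | n + 1 => secCov p B n ∪
      {ω | ∃ i x, (x ∈ B n ∧ ∀ i', secTup (p n) x i' ∉ secCov p B n) ∧ ω = secTup (p n) x i}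

/-- the points accepted at stage `n` -/
def secAcc {d : ℕ} (p : ℕ → Fin d → Γ × J) (B : ℕ → Set X) (n : ℕ) : Set X :=
  {x | x ∈ B n ∧ ∀ i', secTup (p n) x i' ∉ secCov p B n}

theorem mem_secCov {d : ℕ} {p : ℕ → Fin d → Γ × J} {B : ℕ → Set X} {n : ℕ} {ω : It X J} :
    ω ∈ secCov p B n ↔ ∃ m < n, ∃ i, ∃ x ∈ secAcc p B m, ω = secTup (p m) x i := by
  induction n with
  | zero => simp [secCov]
  | succ n ih =>
    constructor
    · rintro (h | ⟨i, x, hx, e⟩)
      · obtain ⟨m, hm, h⟩ := ih.1 h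
        exact ⟨m, by omega, h⟩
      · exact ⟨n, by omega, i, x, hx, e⟩
    · rintro ⟨m, hm, i, x, hx, e⟩
      rcases Nat.lt_succ_iff_lt_or_eq.1 hm with hm | rfl
      · exact Or.inl (ih.2 ⟨m, hm, i, x, hx, e⟩)
      · exact Or.inr ⟨i, x, hx, e⟩

section
variable (μ : Measure X) [h : FPA Γ μ]
include h

theorem sec_measurable_tup {d : ℕ} (p : Fin d → Γ × J) (i : Fin d) :
    Measurable fun x : X => secTup p x i :=
  (It.measurable_mk (p i).2).comp (measurable_gsmul μ (p i).1)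

theorem sec_measurableSet_img {d : ℕ} (p : Fin d → Γ × J) (i : Fin d) {A : Set X}
    (hA : MeasurableSet A) : MeasurableSet {ω : It X J | ∃ x ∈ A, ω = secTup p x i} := by
  have : {ω : It X J | ∃ x ∈ A, ω = secTup p x i} =
      {ω | ω.ix = (p i).2} ∩ {ω | ω.pt ∈ {y | (p i).1⁻¹ • y ∈ A}} := by
    ext ω
    simp only [mem_ofPred_eq, mem_inter_iff]
    constructor
    · rintro ⟨x, hx, rfl⟩
      simpa [secTup] using hx
    · rintro ⟨h1, h2⟩
      exact ⟨_, h2, It.ext (by simp [secTup]) h1⟩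
  rw [this]
  exact (It.measurableSet_ix (· = (p i).2)).inter
    (It.measurableSet_pt (measurable_gsmul μ (p i).1⁻¹ hA))

theorem sec_measurableSet_cov {d : ℕ} (p : ℕ → Fin d → Γ × J) {B : ℕ → Set X}
    (hB : ∀ n, MeasurableSet (B n)) (n : ℕ) :
    MeasurableSet (secCov p B n) ∧ MeasurableSet (secAcc p B n) := by
  have aux : ∀ n, MeasurableSet (secCov p B n) → MeasurableSet (secAcc p B n) := by
    intro n hn
    have : secAcc p B n = B n ∩ ⋂ i', (fun x : X => secTup (p n) x i') ⁻¹' (secCov p B n)ᶜ := by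
      ext x; simp [secAcc]
    rw [this]
    exact (hB n).inter (MeasurableSet.iInter fun i' => sec_measurable_tup μ (p n) i' hn.compl)
  have : MeasurableSet (secCov p B n) := by
    induction n with
    | zero => exact MeasurableSet.empty
    | succ n ih =>
      have e : secCov p B (n + 1) = secCov p B n ∪
          ⋃ i, {ω : It X J | ∃ x ∈ secAcc p B n, ω = secTup (p n) x i} := by
        ext ω
        simp only [secCov, secAcc, mem_union, mem_ofPred_eq, mem_iUnion]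
      rw [e]
      exact ih.union (MeasurableSet.iUnion fun i => sec_measurableSet_img μ (p n) i (aux n ih))
  exact ⟨this, aux n this⟩

end

variable [Countable Γ] [StandardBorelSpace X] [Countable J] (μ : Measure X) [FPA Γ μ]

theorem exists_section (d : ℕ) (hd : 0 < d) {R : It X J → It X J → Prop} (hR : OM Γ R)
    (hs : ∀ a b, R a b → R b a) (ht : ∀ a b c, R a b → R b c → R a c) {W : Set (It X J)}
    (hW : MeasurableSet W)
    (h : ∀ η ∈ W, ∃ s : Finset (It X J), s.card = d ∧ ∀ ζ ∈ s, ζ ∈ W ∧ R η ζ) :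
    ∃ Z ⊆ W, MeasurableSet Z ∧ (∀ η ∈ W, ∃ ζ ∈ Z, R η ζ) ∧
      (d : ℝ≥0∞) * nu μ J Z ≤ nu μ J W := by
  classical
  rcases isEmpty_or_nonempty J with hJ | hJ
  · exact ⟨∅, empty_subset _, MeasurableSet.empty, fun η _ => (hJ.false η.ix).elim, by simp⟩
  obtain ⟨f, hfm, hfi, -⟩ := sec_exists_inj X
  obtain ⟨e, he⟩ := exists_surjective_nat ((Fin d → Γ × J) × ℚ × ℚ)
  let p : ℕ → Fin d → Γ × J := fun n => (e n).1
  let I : ℕ → Set ℝ := fun n => Ioo ((e n).2.1 : ℝ) (e n).2.2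
  let B : ℕ → Set X := fun n => {x | Function.Injective (p n) ∧ f x ∈ I n ∧
    (∀ i i', (p n i).1 ≠ (p n i').1 → f (((p n i).1⁻¹ * (p n i').1) • x) ∉ I n) ∧
    (∀ i, secTup (p n) x i ∈ W) ∧ ∀ i i', R (secTup (p n) x i) (secTup (p n) x i')}
  have hB : ∀ n, MeasurableSet (B n) := by
    intro n
    have e1 : B n = {x | Function.Injective (p n)} ∩ (f ⁻¹' I n ∩
        ((⋂ i, ⋂ i', ⋂ _ : (p n i).1 ≠ (p n i').1,
          (fun x => f (((p n i).1⁻¹ * (p n i').1) • x)) ⁻¹' (I n)ᶜ) ∩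
        ((⋂ i, (fun x => secTup (p n) x i) ⁻¹' W) ∩
          ⋂ i, ⋂ i', {x | R (secTup (p n) x i) (secTup (p n) x i')}))) := by
      ext x; simp [B]
    rw [e1]
    refine (MeasurableSet.const _).inter ((hfm measurableSet_Ioo).inter
      ((MeasurableSet.iInter fun i => MeasurableSet.iInter fun i' => MeasurableSet.iInter fun _ =>
        (hfm.comp (measurable_gsmul μ _)) measurableSet_Ioo.compl).inter
        ((MeasurableSet.iInter fun i => sec_measurable_tup μ (p n) i hW).inter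
        (MeasurableSet.iInter fun i => MeasurableSet.iInter fun i' => hR.meas2 μ _ _ _ _))))
  have hA : ∀ n, MeasurableSet (secAcc p B n) := fun n => (sec_measurableSet_cov μ p hB n).2
  -- accepted tuples are disjoint
  have hdisj : ∀ n n' x x' i i', x ∈ secAcc p B n → x' ∈ secAcc p B n' →
      secTup (p n) x i = secTup (p n') x' i' → n = n' ∧ x = x' ∧ i = i' := by
    intro n n' x x' i i' hx hx' e1
    rcases lt_trichotomy n n' with hn | rfl | hn
    · exact absurd (mem_secCov.2 ⟨n, hn, i, x, hx, e1.symm⟩) (hx'.2 i')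
    · have e2 : (p n i).1 • x = (p n i').1 • x' := congrArg It.pt e1
      have e3 : (p n i).2 = (p n i').2 := congrArg It.ix e1
      by_cases e4 : (p n i).1 = (p n i').1
      · refine ⟨rfl, ?_, hx.1.1 (Prod.ext e4 e3)⟩
        rw [e4] at e2
        exact MulAction.injective _ e2
      · exfalso
        apply hx'.1.2.2.1 i i' e4
        rw [mul_smul, ← e2, inv_smul_smul]
        exact hx.1.2.1
    · exact absurd (mem_secCov.2 ⟨n', hn, i', x', hx', e1⟩) (hx.2 i)
  let i₀ : Fin d := ⟨0, hd⟩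
  let Zn : ℕ → Set (It X J) := fun n => {ω | ∃ x ∈ secAcc p B n, ω = secTup (p n) x i₀}
  have hZn : ∀ n, MeasurableSet (Zn n) := fun n => sec_measurableSet_img μ (p n) i₀ (hA n)
  have hZ : MeasurableSet (⋃ n, Zn n) := MeasurableSet.iUnion hZn
  refine ⟨⋃ n, Zn n, ?_, hZ, ?_, ?_⟩
  · intro ω hω
    obtain ⟨n, x, hx, rfl⟩ := mem_iUnion.1 hω
    exact hx.1.2.2.2.1 i₀
  · intro η hη
    obtain ⟨s, hs1, hs2⟩ := h η hη
    let ζ : Fin d → It X J := fun i => (s.equivFinOfCardEq hs1).symm i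
    have hζ : ∀ i, ζ i ∈ s := fun i => ((s.equivFinOfCardEq hs1).symm i).2
    have hζi : Function.Injective ζ := fun i i' e1 =>
      (s.equivFinOfCardEq hs1).symm.injective (Subtype.ext e1)
    choose g hg using fun i => hR.orb _ _ (hs2 _ (hζ i)).2
    let p₀ : Fin d → Γ × J := fun i => (g i, (ζ i).ix)
    have hp₀ : ∀ i, secTup p₀ η.pt i = ζ i := fun i => It.ext (hg i).symm rfl
    obtain ⟨q₁, q₂, hq1, hq2⟩ := sec_exists_rat (ι := Fin d × Fin d) (f η.pt)
      (fun c => f (((p₀ c.1).1⁻¹ * (p₀ c.2).1) • η.pt)) (fun c => (p₀ c.1).1 ≠ (p₀ c.2).1) (by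
        intro c hc e1
        have := FPA.free (μ := μ) _ _ (hfi e1)
        rw [inv_mul_eq_one] at this
        exact hc this)
    obtain ⟨n, hn⟩ := he (p₀, q₁, q₂)
    have hpn : p n = p₀ := by simp [p, hn]
    have hIn : I n = Ioo (q₁ : ℝ) q₂ := by simp [I, hn]
    have hBn : η.pt ∈ B n := by
      simp only [B, mem_ofPred_eq, hpn, hIn, hp₀]
      refine ⟨fun i i' e1 => hζi ?_, hq1, fun i i' hc => hq2 (i, i') hc,
        fun i => (hs2 _ (hζ i)).1,
        fun i i' => ht _ _ _ (hs _ _ (hs2 _ (hζ i)).2) (hs2 _ (hζ i')).2⟩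
      rw [← hp₀, ← hp₀, secTup, secTup, e1]
    by_cases hacc : η.pt ∈ secAcc p B n
    · refine ⟨_, mem_iUnion.2 ⟨n, η.pt, hacc, rfl⟩, ?_⟩
      rw [hpn, hp₀]
      exact (hs2 _ (hζ i₀)).2
    · have : ∃ i', secTup (p n) η.pt i' ∈ secCov p B n := by
        by_contra hc
        exact hacc ⟨hBn, fun i' hi' => hc ⟨i', hi'⟩⟩
      obtain ⟨i', hi'⟩ := this
      obtain ⟨m, -, i, x, hx, e1⟩ := mem_secCov.1 hi'
      refine ⟨_, mem_iUnion.2 ⟨m, x, hx, rfl⟩, ?_⟩
      rw [hpn, hp₀] at e1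
      exact ht _ _ _ (e1 ▸ (hs2 _ (hζ i')).2) (hx.1.2.2.2.2 i i₀)
  · have key : ∀ n k x, (⟨((p n k).1 * (p n i₀).1⁻¹) • (secTup (p n) x i₀).pt, (p n k).2⟩ : It X J)
        = secTup (p n) x k := by
      intro n k x
      simp [secTup, mul_smul]
    have := mul_nu_le_of_inj (Γ := Γ) μ (K := Fin d)
      (R := fun k ω ω' => ∃ n, ω ∈ Zn n ∧
        ω' = (⟨((p n k).1 * (p n i₀).1⁻¹) • ω.pt, (p n k).2⟩ : It X J))
      (fun k => OM.exists fun n => (OM.shift μ _ (fun _ => (p n k).2)).and_left (hZn n)) hZ hW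
      (by
        intro k ω hω
        obtain ⟨n, x, hx, rfl⟩ := mem_iUnion.1 hω
        exact ⟨_, hx.1.2.2.2.1 k, n, ⟨x, hx, rfl⟩, (key n k x).symm⟩)
      (by
        rintro k₁ k₂ ω₁ - ω₂ - ω' - ⟨n₁, ⟨x₁, hx₁, rfl⟩, e₁⟩ ⟨n₂, ⟨x₂, hx₂, rfl⟩, e₂⟩
        rw [key] at e₁ e₂
        obtain ⟨rfl, rfl, rfl⟩ := hdisj _ _ _ _ _ _ hx₁ hx₂ (e₁.symm.trans e₂)
        exact ⟨rfl, rfl⟩)
    simpa using this

theorem exists_orbit_section [IsProbabilityMeasure μ] (t : Γ)
    (ht : Function.Injective fun k : ℤ => t ^ k) (d : ℕ) (hd : 0 < d) :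
    ∃ M : Set X, MeasurableSet M ∧ (∀ x, ∃ k : ℤ, t ^ k • x ∈ M) ∧ (d : ℝ≥0∞) * μ M ≤ 1 := by
  classical
  have hR : OM Γ (fun (a b : It X Unit) => ∃ k : ℤ, b = ⟨t ^ k • a.pt, ()⟩) :=
    OM.exists fun k => OM.shift μ (t ^ k) (fun _ => ())
  obtain ⟨Z, -, hZ, hZ1, hZ2⟩ := exists_section μ d hd hR
    (by
      rintro a b ⟨k, rfl⟩
      exact ⟨-k, It.ext (by simp) rfl⟩)
    (by
      rintro a b c ⟨k, rfl⟩ ⟨l, rfl⟩
      exact ⟨l + k, It.ext (by simp [zpow_add, mul_smul]) rfl⟩)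
    (W := univ) MeasurableSet.univ
    (by
      intro η _
      refine ⟨(Finset.range d).image fun k : ℕ => (⟨t ^ (k : ℤ) • η.pt, ()⟩ : It X Unit), ?_, ?_⟩
      · rw [Finset.card_image_of_injective, Finset.card_range]
        intro k l e
        have e1 : t ^ (k : ℤ) • η.pt = t ^ (l : ℤ) • η.pt := congrArg It.pt e
        exact_mod_cast ht (smul_inj_of_free μ e1)
      · intro ζ hζ
        obtain ⟨k, -, rfl⟩ := Finset.mem_image.1 hζ
        exact ⟨mem_univ _, k, rfl⟩)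
  refine ⟨{x | (⟨x, ()⟩ : It X Unit) ∈ Z}, It.slice hZ (), fun x => ?_, ?_⟩
  · obtain ⟨ζ, hζ, k, rfl⟩ := hZ1 ⟨x, ()⟩ (mem_univ _)
    exact ⟨k, hζ⟩
  · rw [nu_apply μ hZ, nu_apply μ MeasurableSet.univ] at hZ2
    simpa using hZ2

theorem sec_measure_singleton [IsProbabilityMeasure μ] [Infinite Γ] (x : X) : μ {x} = 0 := by
  by_contra hx
  have h1 : ∀ g : Γ, μ {g • x} = μ {x} := by
    intro g
    rw [← measure_preimage_gsmul μ g (measurableSet_singleton (g • x))]
    congr 1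
    ext y
    simp
  have h2 : μ (⋃ g : Γ, {g • x}) = ∑' g : Γ, μ {g • x} := by
    refine measure_iUnion ?_ fun g => measurableSet_singleton _
    intro g g' hgg
    exact disjoint_singleton.2 fun e => hgg (smul_inj_of_free μ e)
  simp_rw [h1] at h2
  rw [ENNReal.tsum_const_eq_top_of_ne_zero hx] at h2
  exact measure_ne_top μ _ h2

theorem exists_subset_nu_eq [IsProbabilityMeasure μ] [Infinite Γ] {W : Set (It X J)}
    (hW : MeasurableSet W) (hfin : nu μ J W ≠ ⊤) {s : ℝ≥0∞} (hs : s ≤ nu μ J W) :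
    ∃ W' ⊆ W, MeasurableSet W' ∧ nu μ J W' = s := by
  obtain ⟨f, hfm, hfi, hf⟩ := sec_exists_inj X
  have hF : Measurable fun ω : It X J => f ω.pt := hfm.comp It.measurable_pt
  let ρ : Measure ℝ := ((nu μ J).restrict W).map fun ω : It X J => f ω.pt
  have hρ : ∀ {S : Set ℝ}, MeasurableSet S →
      ρ S = nu μ J ((fun ω : It X J => f ω.pt) ⁻¹' S ∩ W) := by
    intro S hS
    rw [Measure.map_apply hF hS, Measure.restrict_apply (hF hS)]
  have : IsFiniteMeasure ρ := ⟨by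
    rw [hρ MeasurableSet.univ]
    simpa using hfin.lt_top⟩
  have : NullSingletonClass ρ := ⟨fun a => by
    rw [hρ (measurableSet_singleton a)]
    refine measure_mono_null inter_subset_left ?_
    rw [nu_apply μ (hF (measurableSet_singleton a))]
    refine ENNReal.tsum_eq_zero.2 fun j => ?_
    by_cases ha : ∃ x, f x = a
    · obtain ⟨x, rfl⟩ := ha
      refine measure_mono_null (t := {x}) ?_ (sec_measure_singleton (Γ := Γ) μ x)
      intro y hy
      exact hfi hy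
    · refine measure_mono_null (t := ∅) ?_ measure_empty
      intro y hy
      exact ha ⟨y, hy⟩⟩
  have hcont : ContinuousOn (fun b => ∫ _t in Icc (0 : ℝ) b, (1 : ℝ) ∂ρ) (Icc 0 1) :=
    intervalIntegral.continuousOn_primitive_Icc (integrable_const _).integrableOn
  have hval : ∀ b : ℝ, ∫ _t in Icc (0 : ℝ) b, (1 : ℝ) ∂ρ = (ρ (Icc 0 b)).toReal := by
    intro b
    simp [Measure.real]
  have h1 : ρ (Icc 0 1) = nu μ J W := by
    rw [hρ measurableSet_Icc]
    congr 1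
    ext ω
    simp only [mem_inter_iff, mem_preimage, and_iff_right_iff_imp]
    exact fun _ => hf _
  have hs' : s ≠ ⊤ := ne_top_of_le_ne_top hfin hs
  obtain ⟨b, -, hb⟩ := intermediate_value_Icc (zero_le_one) hcont (show s.toReal ∈ _ by
    rw [hval, hval, h1, Icc_self, measure_singleton, ENNReal.toReal_zero]
    exact ⟨ENNReal.toReal_nonneg, ENNReal.toReal_mono hfin hs⟩)
  refine ⟨(fun ω : It X J => f ω.pt) ⁻¹' Icc 0 b ∩ W, inter_subset_right,
    (hF measurableSet_Icc).inter hW, ?_⟩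
  rw [← hρ measurableSet_Icc]
  simp only [hval] at hb
  exact (ENNReal.toReal_eq_toReal_iff' (measure_ne_top _ _) hs').1 hb

end Crest.Agent.R191
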