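import Crest.Agent.R191.Str

/-! Leaves and collapsible cells (definitions). -/

set_option autoImplicit false

namespace Crest.Agent.R191

variable {Γ X : Type} [Group Γ] [MulAction Γ X] [MeasurableSpace X]
  {H : Subgroup Γ} {v : ZMod 100 → Γ} {K : ℕ} {S : Set (It X (Fin K))}

/-- edges whose `b`-end is alone in its vertex -/
def Str.Leaf (Y : Str H v S) (b : Bool) : Set (It X ℕ) :=
  {e | e ∈ Y.E ∧ ∀ η, Valid Y.E η → Y.r (en e b) η → η = en e b}

/-- the `k`-th corner of the cell `c` is a vertex of valence two -/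
def Str.Two (Y : Str H v S) (c : It X ℕ) (k : ZMod 100) : Prop :=
  ∀ η, Valid Y.E η → Y.r (en (Y.ed c k) false) η →
    η = en (Y.ed c k) false ∨ η = en (Y.ed c (k - 1)) true

/-- cells with a corner of valence two -/
def Str.Coll (Y : Str H v S) : Set (It X ℕ) := {c | c ∈ Y.C ∧ ∃ k, Y.Two c k}

/-- edges lying on cells -/
def Str.EC (Y : Str H v S) : Set (It X ℕ) := {e | ∃ c ∈ Y.C, ∃ k, e = Y.ed c k}

end Crest.Agent.R191
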