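import Crest.Agent.R191.Kap
import Crest.Agent.R191.StrDel
import Crest.Agent.R191.Section

/-! The accounting inequality. -/

set_option autoImplicit false
set_option linter.unusedVariables false
set_option linter.unusedSectionVars false

namespace Crest.Agent.R191

open MeasureTheory Set
open Finsupp hiding some
open scoped ENNReal

variable {Γ X : Type} [Group Γ] [Countable Γ] [MulAction Γ X] [MeasurableSpace X]
  {H : Subgroup Γ} {v : ZMod 100 → Γ} {K : ℕ} {S : Set (It X (Fin K))}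

/-- disjoint union of two sets of items -/
def sumSet {J J' : Type} (A : Set (It X J)) (B : Set (It X J')) : Set (It X (J ⊕ J')) :=
  {ω | Sum.elim (fun j => (⟨ω.pt, j⟩ : It X J) ∈ A) (fun j => (⟨ω.pt, j⟩ : It X J') ∈ B) ω.ix}

theorem measurableSet_sumSet {J J' : Type} {A : Set (It X J)} {B : Set (It X J')}
    (hA : MeasurableSet A) (hB : MeasurableSet B) : MeasurableSet (sumSet A B) :=
  It.measurableSet_iff.2 fun j => by
    cases j with
    | inl j => exact It.slice hA j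
    | inr j => exact It.slice hB j

theorem nu_sumSet (μ : Measure X) {J J' : Type} {A : Set (It X J)} {B : Set (It X J')}
    (hA : MeasurableSet A) (hB : MeasurableSet B) :
    nu μ (J ⊕ J') (sumSet A B) = nu μ J A + nu μ J' B := by
  rw [nu_apply μ (measurableSet_sumSet hA hB), nu_apply μ hA, nu_apply μ hB,
    Summable.tsum_sum ENNReal.summable ENNReal.summable]
  rfl

/-- the chain map on a disjoint union -/
def sumMap {J J' J'' : Type} (k : It X J → (It X J'' →₀ ℤ)) (k' : It X J' → (It X J'' →₀ ℤ))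
    (ω : It X (J ⊕ J')) : It X J'' →₀ ℤ :=
  Sum.elim (fun j => k ⟨ω.pt, j⟩) (fun j => k' ⟨ω.pt, j⟩) ω.ix

theorem span_sumMap {J J' J'' : Type} (k : It X J → (It X J'' →₀ ℤ))
    (k' : It X J' → (It X J'' →₀ ℤ)) (A : Set (It X J)) (B : Set (It X J')) :
    Submodule.span ℤ (sumMap k k' '' sumSet A B) =
      Submodule.span ℤ (k '' A) ⊔ Submodule.span ℤ (k' '' B) := by
  rw [← Submodule.span_union]
  congr 1
  ext ξ
  constructor
  · rintro ⟨⟨x, j | j⟩, h, rfl⟩
    · exact Or.inl ⟨⟨x, j⟩, h, rfl⟩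
    · exact Or.inr ⟨⟨x, j⟩, h, rfl⟩
  · rintro (⟨⟨x, j⟩, h, rfl⟩ | ⟨⟨x, j⟩, h, rfl⟩)
    · exact ⟨⟨x, Sum.inl j⟩, h, rfl⟩
    · exact ⟨⟨x, Sum.inr j⟩, h, rfl⟩

theorem Conn.chain {E : Set (It X ℕ)} {r : It X JN → It X JN → Prop} {η η' : It X JN}
    (h : Conn E r η η') :
    single η 1 - single η' 1 ∈ Submodule.span ℤ (bd1 '' E) ⊔ Zs r := by
  induction h with
  | rel x y h =>
    rcases h with h | ⟨e, he, rfl, rfl⟩
    · exact Submodule.mem_sup_right (Zs_rel h)
    · refine Submodule.mem_sup_left ?_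
      rw [← neg_sub]
      exact Submodule.neg_mem _ (Submodule.subset_span ⟨e, he, rfl⟩)
  | refl x => simp
  | symm x y _ ih =>
    rw [← neg_sub]
    exact Submodule.neg_mem _ ih
  | trans x y z _ _ ih1 ih2 =>
    have := Submodule.add_mem _ ih1 ih2
    rwa [sub_add_sub_cancel] at this

variable (μ : Measure X) [IsProbabilityMeasure μ] [FPA Γ μ]

include μ in
/-- a measurable choice of chains joining valid nodes to the base -/
theorem Str.exists_toBase (Y : Str H v S) :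
    ∃ h : It X JN → (It X ℕ →₀ ℤ), MC Γ h ∧ ∀ η, Valid Y.E η →
      (∀ e, h η e ≠ 0 → e ∈ Y.E) ∧ single η 1 - bd (h η) ∈ Zs Y.r := by
  classical
  let T2 : It X (JN × Γ × JN) → (It X JN →₀ ℤ) := fun ω =>
    single ⟨ω.pt, ω.ix.1⟩ 1 - single ⟨ω.ix.2.1 • ω.pt, ω.ix.2.2⟩ 1
  let B2 : Set (It X (JN × Γ × JN)) := {ω | Y.r ⟨ω.pt, ω.ix.1⟩ ⟨ω.ix.2.1 • ω.pt, ω.ix.2.2⟩}
  let T3 : It X Unit → (It X JN →₀ ℤ) := fun ω => single (bs ω.pt) 1
  have hT2 : MC Γ T2 := by
    refine MC.of_layers fun j => MC.sub ?_ ?_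
    · simpa using MC.single (OM.shift (X := X) μ (1 : Γ) (fun _ : Unit => j.1)) 1
    · exact MC.single (OM.shift (X := X) μ j.2.1 (fun _ : Unit => j.2.2)) 1
  have hT3 : MC Γ T3 := by
    simpa using MC.single (om_bs (J := Unit) μ (1 : Γ)) 1
  have hB2 : MeasurableSet B2 := It.measurableSet_iff.2 fun j =>
    It.slice (Y.r_om.meas j.2.1 j.2.2) j.1
  have hZ : Zs Y.r = Submodule.span ℤ (sumMap T2 T3 '' sumSet B2 univ) := by
    rw [span_sumMap, ← Submodule.span_union, Zs]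
    congr 2
    · ext ζ
      constructor
      · rintro ⟨η, η', h, rfl⟩
        obtain ⟨g, hg⟩ := Y.r_om.orb _ _ h
        have e : η' = ⟨g • η.pt, η'.ix⟩ := It.ext hg rfl
        refine ⟨⟨η.pt, η.ix, g, η'.ix⟩, ?_, ?_⟩
        · change Y.r η _
          rw [← e]; exact h
        · simp only [T2]
          rw [← e]
      · rintro ⟨ω, h, rfl⟩
        exact ⟨_, _, h, rfl⟩
    · ext ζ
      constructor
      · rintro ⟨x, rfl⟩
        exact ⟨⟨x, ()⟩, trivial, rfl⟩
      · rintro ⟨ω, -, rfl⟩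
        exact ⟨_, rfl⟩
  obtain ⟨U, hU, hU2⟩ := MC.solve μ (J := JN) ((mc_bd1 (Γ := Γ) μ).sumElim (hT2.sumElim hT3))
    (MC.single (OM.eq μ) 1)
    (measurableSet_sumSet Y.mE (measurableSet_sumSet hB2 MeasurableSet.univ))
  let P : It X (ℕ ⊕ (JN × Γ × JN) ⊕ Unit) → (It X ℕ →₀ ℤ) :=
    sumMap (fun e => single e 1) (fun _ => 0)
  have hP : MC Γ P := (MC.single (OM.eq μ) 1).sumElim MC.zero
  refine ⟨fun η => linearCombination ℤ P (U η), hU.bind μ hP, fun η hη => ?_⟩
  have h1 : single η (1 : ℤ) ∈ Submodule.span ℤ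
      (sumMap bd1 (sumMap T2 T3) '' sumSet Y.E (sumSet B2 univ)) := by
    rw [span_sumMap, ← hZ]
    have h2 := (Y.conn η (bs η.pt) hη (valid_bs _ _) ⟨1, by simp⟩).chain
    have h3 := Submodule.add_mem _ h2 (Submodule.mem_sup_right (Zs_bs Y.r η.pt))
    rwa [sub_add_cancel] at h3
  obtain ⟨g1, g2⟩ := hU2 η h1
  constructor
  · intro e he
    beta_reduce at he
    rw [linearCombination_apply, Finsupp.sum, Finsupp.finsetSum_apply] at he
    obtain ⟨⟨x, j⟩, hb, hb2⟩ := Finset.exists_ne_zero_of_sum_ne_zero he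
    have hb3 := g1 _ (Finsupp.mem_support_iff.1 hb)
    cases j with
    | inl j =>
      by_contra hne
      apply hb2
      have : e ≠ ⟨x, j⟩ := fun h => hne (h ▸ hb3)
      simp [P, sumMap, single_eq_of_ne this]
    | inr j => simp [P, sumMap] at hb2
  · rw [← g2]
    simp only [linearCombination_apply, Finsupp.sum, map_sum, ← Finset.sum_sub_distrib, map_smul,
      ← smul_sub]
    refine Submodule.sum_mem _ fun ⟨x, j⟩ hb => Submodule.smul_mem _ _ ?_
    have hb3 := g1 _ (Finsupp.mem_support_iff.1 hb)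
    cases j with
    | inl j => simp [P, sumMap]
    | inr j =>
      simp only [P, sumMap, Sum.elim_inr, map_zero, sub_zero]
      rw [hZ]
      exact Submodule.subset_span ⟨⟨x, j⟩, hb3, rfl⟩

/-- The accounting inequality. -/
theorem Str.account (mS : MeasurableSet S) (Y : Str H v S) {A : Set (It X ℕ)}
    (mA : MeasurableSet A) (hA : A ⊆ Y.E) {Z : Set (It X JN)} (mZ : MeasurableSet Z)
    (hZ : ∀ e ∈ A, ∀ b, (∃ x, Y.r (en e b) (bs x)) ∨ ∃ ζ ∈ Z, Valid Y.E ζ ∧ Y.r (en e b) ζ) :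
    nu μ ℕ A ≤ nu μ (Fin K) S + nu μ ℕ Y.C + nu μ JN Z := by
  obtain ⟨h, hh, hh2⟩ := Y.exists_toBase μ
  obtain ⟨a, ha, hg⟩ := Y.gen
  rw [← nu_sumSet μ mS Y.mC, ← nu_sumSet μ (measurableSet_sumSet mS Y.mC) mZ]
  refine nu_le_of_span μ ((ha.sumElim (Y.mc_cbd μ)).sumElim hh) mA
    (measurableSet_sumSet (measurableSet_sumSet mS Y.mC) mZ) fun e he => ?_
  change _ ∈ Submodule.span ℤ (sumMap (sumMap a (cbd Y.ed)) h '' _)
  rw [span_sumMap, span_sumMap]
  have key : ∀ b, ∃ c : It X ℕ →₀ ℤ, c ∈ Submodule.span ℤ (h '' Z) ∧ (∀ e', c e' ≠ 0 → e' ∈ Y.E) ∧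
      single (en e b) 1 - bd c ∈ Zs Y.r := by
    intro b
    rcases hZ e he b with ⟨x, hx⟩ | ⟨ζ, h1, h2, h3⟩
    · refine ⟨0, Submodule.zero_mem _, fun e' h => absurd rfl h, ?_⟩
      have := Submodule.add_mem _ (Zs_rel hx) (Zs_bs Y.r x)
      simpa using this
    · refine ⟨h ζ, Submodule.subset_span ⟨ζ, h1, rfl⟩, (hh2 ζ h2).1, ?_⟩
      have := Submodule.add_mem _ (Zs_rel h3) (hh2 ζ h2).2
      rwa [sub_add_sub_cancel] at this
  obtain ⟨c1, g1, g2, g3⟩ := key true
  obtain ⟨c0, f1, f2, f3⟩ := key false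
  have h1 := hg (single e 1 - c1 + c0) (fun e' he' => by
      by_contra hne
      apply he'
      have e1 : c1 e' = 0 := by_contra fun h => hne (g2 _ h)
      have e2 : c0 e' = 0 := by_contra fun h => hne (f2 _ h)
      have e3 : e' ≠ e := fun h => hne (h ▸ hA he)
      simp [e1, e2, single_eq_of_ne e3])
    (by
      have := Submodule.sub_mem _ g3 f3
      convert this using 1
      simp only [map_add, map_sub, bd_single, one_smul, bd1]
      abel)
  have h2 : single e (1 : ℤ) = (single e 1 - c1 + c0) + (c1 - c0) := by abel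
  rw [h2]
  exact Submodule.add_mem _ (Submodule.mem_sup_left h1)
    (Submodule.mem_sup_right (Submodule.sub_mem _ g1 f1))

theorem Str.done_le (mS : MeasurableSet S) (Y : Str H v S) :
    μ {x | Y.Done x} ≤ nu μ (Fin K) S + nu μ ℕ Y.C := by
  let A : Set (It X ℕ) := {e | e ∈ Y.E ∧ Y.r (bs ((1 : Γ) • e.pt)) (en e false) ∧
    Y.r (en e true) (bs (av v 1 • e.pt))}
  have mA : MeasurableSet A :=
    Y.mE.inter ((OM.measurableSet_rel μ (om_bs μ 1) (om_en μ false) Y.r_om).inter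
      (OM.measurableSet_rel μ (om_en μ true) (om_bs μ (av v 1)) Y.r_om))
  have h1 := Y.account μ mS mA (fun e he => he.1) MeasurableSet.empty (fun e he b => by
    cases b
    · exact Or.inl ⟨_, Y.r_eqv.symm he.2.1⟩
    · exact Or.inl ⟨_, he.2.2⟩)
  simp only [measure_empty, add_zero] at h1
  refine le_trans ?_ h1
  have hf := OM.shift (X := X) μ (1 : Γ) (fun _ : ℕ => ())
  have h2 := nu_image_le μ hf mA
  have h3 := hf.measurableSet_image μ mA
  rw [nu_apply μ h3, tsum_fintype] at h2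
  simp only [Finset.univ_unique, Finset.sum_singleton] at h2
  refine le_trans (measure_mono ?_) h2
  rintro x ⟨e, he, rfl, g1, g2⟩
  exact ⟨e, ⟨he, by simpa using g1, g2⟩, by simp⟩

end Crest.Agent.R191
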