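import Crest.Agent.R191.AttachArc

/-! Row 191: attaching cells along arcs. -/

set_option autoImplicit false
set_option linter.unusedVariables false
set_option linter.unusedSectionVars false

namespace Crest.Agent.R191

open MeasureTheory Set
open Finsupp hiding some
open scoped ENNReal

variable {Γ X : Type} [Group Γ] [MulAction Γ X] [MeasurableSpace X]
  {H : Subgroup Γ} {v : ZMod 100 → Γ} {K : ℕ} {S : Set (It X (Fin K))}

/-- translate and raise the label -/
def attUp (g : Γ) (L : ℕ) (e : It X ℕ) : It X ℕ := ⟨g • e.pt, L + e.ix⟩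

/-- inverse of `attUp` -/
def attDn (g : Γ) (L : ℕ) (e : It X ℕ) : It X ℕ := ⟨g⁻¹ • e.pt, e.ix - L⟩

@[simp] theorem attDn_up (g : Γ) (L : ℕ) (e : It X ℕ) : attDn g L (attUp g L e) = e := by
  simp [attDn, attUp]

theorem attUp_le (g : Γ) (L : ℕ) (e : It X ℕ) : L ≤ (attUp g L e).ix := Nat.le_add_right _ _

theorem attUp_inj (g : Γ) (L : ℕ) : Function.Injective (attUp (X := X) g L) :=
  Function.LeftInverse.injective (attDn_up g L)

/-- the edge under a node -/
def attEdge (η : It X JN) : It X ℕ := ⟨(1 : Γ) • η.pt, (η.ix.map Prod.fst).getD 0⟩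

@[simp] theorem attEdge_en (e : It X ℕ) (b : Bool) : attEdge (Γ := Γ) (en e b) = e := by
  simp [attEdge, en]

/-- labels of ends of new edges -/
def attNew (L : ℕ) (b : Bool) (j : JN) : Prop := ∃ i, L ≤ i ∧ j = some (i, b)

theorem attNew_en (L : ℕ) (b b' : Bool) (e : It X ℕ) :
    attNew L b (en e b').ix ↔ L ≤ e.ix ∧ b' = b := by
  simp [attNew, en]

theorem attNew_bs (L : ℕ) (b : Bool) (x : X) : ¬ attNew L b (bs x).ix := by
  simp [attNew, bs]

open Classical in
/-- the edges of old and new cells -/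
noncomputable def attEd (v : ZMod 100 → Γ) (p : ZMod 100) (L : ℕ)
    (arc ed : It X ℕ → ZMod 100 → It X ℕ) (c : It X ℕ) (k : ZMod 100) : It X ℕ :=
  if L ≤ c.ix then
    (if k = p then attUp (v p * (v (p + 1))⁻¹) L (attDn (v (p + 1))⁻¹ L c)
      else arc (attDn (v (p + 1))⁻¹ L c) k)
  else ed c k

open Classical in
/-- the retraction of nodes -/
noncomputable def attPsi (v : ZMod 100 → Γ) (p : ZMod 100) (L : ℕ)
    (arc : It X ℕ → ZMod 100 → It X ℕ) (η : It X JN) : It X JN :=
  if attNew L true η.ix then en (attDn (v p * (v (p + 1))⁻¹) L (attEdge (Γ := Γ) η)) false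
  else if attNew L false η.ix then
    en (arc (attDn (v p * (v (p + 1))⁻¹) L (attEdge (Γ := Γ) η)) (p - 1)) true
  else η

section
variable {p : ZMod 100} {L : ℕ} {arc ed : It X ℕ → ZMod 100 → It X ℕ}

theorem attEd_old {c : It X ℕ} (hc : c.ix < L) (k : ZMod 100) :
    attEd v p L arc ed c k = ed c k := by
  simp [attEd, Nat.not_le.2 hc]

theorem attEd_new_p (e : It X ℕ) :
    attEd v p L arc ed (attUp (v (p + 1))⁻¹ L e) p = attUp (v p * (v (p + 1))⁻¹) L e := by
  simp [attEd, attUp_le]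

theorem attEd_new_ne (e : It X ℕ) {k : ZMod 100} (hk : k ≠ p) :
    attEd v p L arc ed (attUp (v (p + 1))⁻¹ L e) k = arc e k := by
  simp [attEd, attUp_le, hk]

theorem attPsi_bs (x : X) : attPsi v p L arc (bs x) = bs x := by
  simp [attPsi, attNew_bs]

theorem attPsi_old {e : It X ℕ} (he : e.ix < L) (b : Bool) :
    attPsi v p L arc (en e b) = en e b := by
  simp [attPsi, attNew_en, Nat.not_le.2 he]

theorem attPsi_true {e : It X ℕ} (he : L ≤ e.ix) :
    attPsi v p L arc (en e true) = en (attDn (v p * (v (p + 1))⁻¹) L e) false := by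
  simp [attPsi, attNew_en, he]

theorem attPsi_false {e : It X ℕ} (he : L ≤ e.ix) :
    attPsi v p L arc (en e false) =
      en (arc (attDn (v p * (v (p + 1))⁻¹) L e) (p - 1)) true := by
  simp [attPsi, attNew_en, he]

theorem attPsi_loc (D : GD H v)
    (hpt : ∀ e₁ i, (arc e₁ i).pt = (v i * (v (p + 1))⁻¹) • e₁.pt) (η : It X JN) :
    ∃ h ∈ H, nloc v (attPsi v p L arc η) = h • nloc v η := by
  rcases node_cases η with ⟨x, rfl⟩ | ⟨e, b, rfl⟩
  · exact ⟨1, H.one_mem, by rw [attPsi_bs, one_smul]⟩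
  · rcases Nat.lt_or_ge e.ix L with he | he
    · exact ⟨1, H.one_mem, by rw [attPsi_old he, one_smul]⟩
    · cases b
      · refine ⟨_, D.a_mem 1 p, ?_⟩
        rw [attPsi_false he, nloc_en, nloc_en, hpt]
        simp only [eloc, attDn, if_true, Bool.false_eq_true, if_false, ← mul_smul]
        congr 1
        simp only [av]
        group
      · refine ⟨_, D.a_mem (p + 1) 1, ?_⟩
        rw [attPsi_true he, nloc_en, nloc_en]
        simp only [eloc, attDn, if_true, Bool.false_eq_true, if_false, ← mul_smul]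
        congr 1
        simp only [av, add_sub_cancel_right]
        group

variable [Countable Γ] (μ : Measure X) [FPA Γ μ]
include μ

theorem om_attUp (g : Γ) (L : ℕ) : OM Γ (fun (e : It X ℕ) e' => e' = attUp g L e) :=
  OM.shift μ g (fun i => L + i)

theorem om_attDn (g : Γ) (L : ℕ) : OM Γ (fun (e : It X ℕ) e' => e' = attDn g L e) :=
  OM.shift μ g⁻¹ (fun i => i - L)

theorem om_attEdge : OM Γ (fun (η : It X JN) e' => e' = attEdge (Γ := Γ) η) :=
  OM.shift μ (1 : Γ) (fun j : JN => (j.map Prod.fst).getD 0)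

theorem om_attEd (harc : ∀ i, OM Γ (fun e₁ e => e = arc e₁ i))
    (hed : ∀ i, OM Γ (fun e₁ e => e = ed e₁ i)) (k : ZMod 100) :
    OM Γ (fun c e => e = attEd v p L arc ed c k) := by
  classical
  refine OM.ite_fun ?_ (hed k) (It.measurableSet_ix fun i => L ≤ i)
  by_cases hk : k = p
  · simp only [if_pos hk]
    exact (om_attDn μ _ L).fun_comp μ (om_attUp μ _ L)
  · simp only [if_neg hk]
    exact (om_attDn μ _ L).fun_comp μ (harc k)

theorem om_attPsi (harc : ∀ i, OM Γ (fun e₁ e => e = arc e₁ i)) :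
    OM Γ (fun η η' => η' = attPsi v p L arc η) := by
  classical
  refine OM.ite_fun ?_ (OM.ite_fun ?_ (OM.eq μ) (It.measurableSet_ix (attNew L false)))
    (It.measurableSet_ix (attNew L true))
  · exact ((om_attEdge μ).fun_comp μ (om_attDn μ _ L)).fun_comp μ (om_en μ false)
  · exact (((om_attEdge μ).fun_comp μ (om_attDn μ _ L)).fun_comp μ (harc _)).fun_comp μ
      (om_en μ true)

theorem nu_attUp (g : Γ) (L : ℕ) {A : Set (It X ℕ)} (mA : MeasurableSet A) :
    nu μ ℕ (attUp g L '' A) = nu μ ℕ A :=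
  le_antisymm (nu_image_le μ (om_attUp μ g L) mA)
    (nu_le_of_injOn μ (om_attUp μ g L) mA ((om_attUp μ g L).measurableSet_image μ mA)
      (mapsTo_image _ _) (attUp_inj g L).injOn)

theorem nu_union_attUp (g : Γ) {L : ℕ} {W A : Set (It X ℕ)} (hW : ∀ e ∈ W, e.ix < L)
    (mA : MeasurableSet A) : nu μ ℕ (W ∪ attUp g L '' A) = nu μ ℕ W + nu μ ℕ A := by
  rw [measure_union _ ((om_attUp μ g L).measurableSet_image μ mA), nu_attUp μ g L mA]
  rw [Set.disjoint_left]
  rintro _ h ⟨e, -, rfl⟩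
  exact absurd (hW _ h) (Nat.not_lt.2 (attUp_le g L e))

end

theorem mapDomain_Zs {r : It X JN → It X JN → Prop} {ψ : It X JN → It X JN}
    (hψ : ∀ x, ψ (bs x) = bs x) {ζ : It X JN →₀ ℤ} (h : ζ ∈ Zs (fun η η' => r (ψ η) (ψ η'))) :
    mapDomain ψ ζ ∈ Zs r := by
  have : Zs (fun η η' => r (ψ η) (ψ η')) ≤ (Zs r).comap (lmapDomain ℤ ℤ ψ) := by
    refine Zs_le (fun η η' e => ?_) fun x => ?_
    · simp only [Submodule.mem_comap, map_sub, lmapDomain_apply, mapDomain_single]
      exact Zs_rel e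
    · simp only [Submodule.mem_comap, lmapDomain_apply, mapDomain_single, hψ]
      exact Zs_bs r x
  exact this h

theorem mapDomain_bd {E : Set (It X ℕ)} {ψ : It X JN → It X JN}
    (hψ : ∀ e ∈ E, ∀ b, ψ (en e b) = en e b) {ξ : It X ℕ →₀ ℤ} (h : ξ ∈ supported ℤ ℤ E) :
    mapDomain ψ (bd ξ) = bd ξ := by
  rw [supported_eq_span_single] at h
  induction h using Submodule.span_induction with
  | mem x hx =>
    obtain ⟨e, he, rfl⟩ := hx
    simp only [bd_single, one_smul, bd1]
    rw [← lmapDomain_apply ℤ ℤ, map_sub]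
    simp only [lmapDomain_apply, mapDomain_single, hψ e he]
  | zero => simp
  | add x y _ _ hx hy => rw [map_add, mapDomain_add, hx, hy]
  | smul z x _ hx => rw [map_smul, mapDomain_smul, hx]

theorem mem_supported_iff {E : Set (It X ℕ)} {ξ : It X ℕ →₀ ℤ} :
    ξ ∈ supported ℤ ℤ E ↔ ∀ e, ξ e ≠ 0 → e ∈ E := by
  rw [mem_supported']
  exact forall_congr' fun e => not_imp_comm

section
variable [Countable Γ] (μ : Measure X) [IsProbabilityMeasure μ] [FPA Γ μ]

theorem Str.exists_attach (D : GD H v) (Y : Str H v S) (hF : Y.Folded) (p : ZMod 100)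
    {A : Set (It X ℕ)} (hA : A ⊆ Y.Att p) (mA : MeasurableSet A) :
    ∃ Y' : Str H v S, Y.Mor Y' ∧ Y'.pot μ = Y.pot μ ∧
      nu μ ℕ Y'.C = nu μ ℕ Y.C + nu μ ℕ A ∧
      ∀ σ e, Y.Arc p σ e → (e (p + 1) ∈ Y.Att p → e (p + 1) ∈ A) →
        ∃ f ∈ Y'.E, Y'.r (en (e (p - 1)) true) (en f false) ∧
          Y'.r (en f true) (en (e (p + 1)) false) := by
  classical
  obtain ⟨arc, harc, hpt, hatt⟩ := Y.exists_arc μ p
  set gN : Γ := v p * (v (p + 1))⁻¹ with hgN
  set gC : Γ := (v (p + 1))⁻¹ with hgC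
  set ψ := attPsi v p Y.L arc with hψ
  set ed' := attEd v p Y.L arc Y.ed with hed'
  set E' := Y.E ∪ attUp gN Y.L '' A with hE'
  set C' := Y.C ∪ attUp gC Y.L '' A with hC'
  let r' : It X JN → It X JN → Prop := fun η η' => Y.r (ψ η) (ψ η')
  have hAarc : ∀ e ∈ A, Y.Arc p (gC • e.pt) (arc e) := fun e he => (hatt e (hA he)).1
  have hAone : ∀ e ∈ A, arc e (p + 1) = e := fun e he => (hatt e (hA he)).2
  have hAE : ∀ e ∈ A, ∀ k, k ≠ p → arc e k ∈ Y.E := fun e he k hk => ((hAarc e he).1 k hk).1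
  have hAE1 : ∀ e ∈ A, e ∈ Y.E := fun e he => hAone e he ▸ hAE e he _ (att_succ_ne p)
  have ψE : ∀ e ∈ Y.E, ∀ b, ψ (en e b) = en e b := fun e he b => attPsi_old (Y.bE e he) b
  have ψV : ∀ η, Valid Y.E η → ψ η = η := by
    rintro η (⟨x, rfl⟩ | ⟨e, he, b, rfl⟩)
    · exact attPsi_bs x
    · exact ψE e he b
  have ψT : ∀ e, ψ (en (attUp gN Y.L e) true) = en e false := fun e => by
    rw [hψ, attPsi_true (attUp_le _ _ _), attDn_up]
  have ψF : ∀ e, ψ (en (attUp gN Y.L e) false) = en (arc e (p - 1)) true := fun e => by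
    rw [hψ, attPsi_false (attUp_le _ _ _), attDn_up]
  have edO : ∀ c ∈ Y.C, ∀ k, ed' c k = Y.ed c k := fun c hc k => attEd_old (Y.bC c hc) k
  have edP : ∀ e, ed' (attUp gC Y.L e) p = attUp gN Y.L e := fun e => attEd_new_p e
  have edN : ∀ e k, k ≠ p → ed' (attUp gC Y.L e) k = arc e k := fun e k hk => attEd_new_ne e hk
  have r'V : ∀ η η', Valid Y.E η → Valid Y.E η' → Y.r η η' → r' η η' := fun η η' a b c => by
    change Y.r (ψ η) (ψ η')
    rwa [ψV η a, ψV η' b]
  have ψV' : ∀ η, Valid E' η → Valid Y.E (ψ η) := by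
    rintro η (⟨x, rfl⟩ | ⟨e, he | ⟨e₁, he₁, rfl⟩, b, rfl⟩)
    · rw [ψV _ (valid_bs _ x)]; exact valid_bs _ x
    · rw [ψE e he]; exact valid_en.2 he
    · cases b
      · rw [ψF]; exact valid_en.2 (hAE e₁ he₁ _ (att_pred_ne p))
      · rw [ψT]; exact valid_en.2 (hAE1 e₁ he₁)
  have omψ : OM Γ (fun η η' => η' = ψ η) := om_attPsi μ harc
  have hcorner : ∀ c ∈ C', ∀ k, r' (en (ed' c (k - 1)) true) (en (ed' c k) false) := by
    rintro c (hc | ⟨e, he, rfl⟩) k
    · rw [edO c hc, edO c hc]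
      exact r'V _ _ (valid_en.2 (Y.ed_mem c hc _)) (valid_en.2 (Y.ed_mem c hc _)) (Y.corner c hc k)
    · by_cases hk : k = p
      · subst hk
        change Y.r (ψ _) (ψ _)
        rw [edP, edN _ _ (att_pred_ne k), ψF, ψE _ (hAE e he _ (att_pred_ne k))]
        exact Y.r_eqv.refl _
      · by_cases hk' : k - 1 = p
        · have hk2 : k = p + 1 := by rw [← hk']; ring
          change Y.r (ψ _) (ψ _)
          rw [hk', edP, edN _ _ hk, ψT, hk2, hAone e he, ψE _ (hAE1 e he)]
          exact Y.r_eqv.refl _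
        · rw [edN _ _ hk, edN _ _ hk']
          exact r'V _ _ (valid_en.2 (hAE e he _ hk')) (valid_en.2 (hAE e he _ hk))
            ((hAarc e he).2 k hk hk')
  have hON : ∀ c ∈ Y.C, ∀ e ∈ A, ∀ k, ed' c k ≠ ed' (attUp gC Y.L e) k := by
    intro c hc e he k h
    rw [edO c hc] at h
    by_cases hk : k = p
    · subst hk
      rw [edP] at h
      have h1 := Y.bE _ (Y.ed_mem c hc k)
      rw [h] at h1
      exact absurd h1 (Nat.not_lt.2 (attUp_le _ _ _))
    · rw [edN _ _ hk] at h
      have := Y.arc_unique hF (Y.cell_arc hc p) (hAarc e he) hk h (att_succ_ne p)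
      rw [hAone e he] at this
      exact (hA he).2 ⟨c, hc, this⟩
  have hgen : ∃ a, MC Γ a ∧ GenP E' r' C' ed' S a := by
    obtain ⟨a, ha, hg⟩ := Y.gen
    refine ⟨a, ha, ?_⟩
    have hcbd : ∀ c ∈ Y.C, cbd ed' c = cbd Y.ed c := fun c hc => by
      simp only [cbd, edO c hc]
    refine hg.transfer (E' := E') (r' := r') (C' := C') (ed' := ed') LinearMap.id ?_ ?_
    · intro c hc
      exact Submodule.subset_span ⟨c, Or.inl hc, hcbd c hc⟩
    · intro ξ' hs hz
      have key : ∃ ξ ∈ supported ℤ ℤ Y.E, ξ' - ξ ∈ Submodule.span ℤ (cbd ed' '' C') := by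
        have hs' : ξ' ∈ supported ℤ ℤ E' := mem_supported_iff.2 hs
        rw [supported_eq_span_single] at hs'
        clear hs hz
        induction hs' using Submodule.span_induction with
        | mem x hx =>
          obtain ⟨f, hf | ⟨e, he, rfl⟩, rfl⟩ := hx
          · exact ⟨single f 1, single_mem_supported ℤ 1 hf, by simp⟩
          · refine ⟨single (attUp gN Y.L e) 1 - cbd ed' (attUp gC Y.L e), ?_, ?_⟩
            · rw [cbd, ← Finset.add_sum_erase _ _ (Finset.mem_univ p), edP, sub_add_cancel_left]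
              refine Submodule.neg_mem _ (Submodule.sum_mem _ fun k hk => ?_)
              have hk' := Finset.ne_of_mem_erase hk
              rw [edN _ _ hk']
              exact single_mem_supported ℤ 1 (hAE e he k hk')
            · rw [sub_sub_cancel]
              exact Submodule.subset_span ⟨_, Or.inr ⟨e, he, rfl⟩, rfl⟩
        | zero => exact ⟨0, Submodule.zero_mem _, by simp⟩
        | add x y _ _ hx hy =>
          obtain ⟨a, a1, a2⟩ := hx
          obtain ⟨b, b1, b2⟩ := hy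
          exact ⟨a + b, Submodule.add_mem _ a1 b1, by
            rw [add_sub_add_comm]; exact Submodule.add_mem _ a2 b2⟩
        | smul z x _ hx =>
          obtain ⟨a, a1, a2⟩ := hx
          exact ⟨z • a, Submodule.smul_mem _ z a1, by
            rw [← smul_sub]; exact Submodule.smul_mem _ z a2⟩
      obtain ⟨ξ, h1, h2⟩ := key
      refine ⟨ξ, mem_supported_iff.1 h1, ?_, h2⟩
      have h3 : bd (ξ' - ξ) ∈ Zs r' := by
        have : Submodule.span ℤ (cbd ed' '' C') ≤ (Zs r').comap bd := by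
          refine Submodule.span_le.2 ?_
          rintro _ ⟨c, hc, rfl⟩
          exact bd_cbd_mem (hcorner c hc)
        exact this h2
      have h4 : bd ξ ∈ Zs r' := by
        have := Submodule.sub_mem _ hz h3
        rwa [← map_sub, sub_sub_cancel] at this
      rw [← mapDomain_bd ψE h1]
      exact mapDomain_Zs (fun x => ψV _ (valid_bs _ x)) h4
  let Y' : Str H v S :=
    { L := Y.L + Y.L
      E := E'
      mE := Y.mE.union ((om_attUp μ gN Y.L).measurableSet_image μ mA)
      bE := by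
        rintro e (he | ⟨e₁, he₁, rfl⟩)
        · exact Nat.lt_add_right _ (Y.bE e he)
        · exact Nat.add_lt_add_left (Y.bE _ (hAE1 e₁ he₁)) _
      r := r'
      r_om := omψ.comap_left μ (omψ.comap_right μ Y.r_om)
      r_eqv := ⟨fun _ => Y.r_eqv.refl _, Y.r_eqv.symm, Y.r_eqv.trans⟩
      r_loc := fun η η' h => by
        obtain ⟨h1, a1, b1⟩ := Y.r_loc _ _ h
        obtain ⟨h2, a2, b2⟩ := attPsi_loc (L := Y.L) D hpt η
        obtain ⟨h3, a3, b3⟩ := attPsi_loc (L := Y.L) D hpt η'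
        refine ⟨h3⁻¹ * (h1 * h2), H.mul_mem (H.inv_mem a3) (H.mul_mem a1 a2), ?_⟩
        rw [mul_smul, mul_smul, ← b2, ← b1, b3, inv_smul_smul]
      r_base := fun x h hh => r'V _ _ (valid_bs _ _) (valid_bs _ _) (Y.r_base x h hh)
      C := C'
      mC := Y.mC.union ((om_attUp μ gC Y.L).measurableSet_image μ mA)
      bC := by
        rintro e (he | ⟨e₁, he₁, rfl⟩)
        · exact Nat.lt_add_right _ (Y.bC e he)
        · exact Nat.add_lt_add_left (Y.bE _ (hAE1 e₁ he₁)) _
      ed := ed'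
      ed_om := om_attEd μ harc Y.ed_om
      ed_pt := by
        rintro c (hc | ⟨e, he, rfl⟩) k
        · rw [edO c hc]; exact Y.ed_pt c hc k
        · by_cases hk : k = p
          · subst hk
            rw [edP]
            exact mul_smul _ _ _
          · rw [edN _ _ hk, hpt]
            exact mul_smul _ _ _
      ed_mem := by
        rintro c (hc | ⟨e, he, rfl⟩) k
        · rw [edO c hc]; exact Or.inl (Y.ed_mem c hc k)
        · by_cases hk : k = p
          · subst hk
            rw [edP]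
            exact Or.inr ⟨e, he, rfl⟩
          · rw [edN _ _ hk]
            exact Or.inl (hAE e he k hk)
      corner := hcorner
      ed_inj := by
        rintro c (hc | ⟨e, he, rfl⟩) c' (hc' | ⟨e', he', rfl⟩) k h
        · rw [edO c hc, edO c' hc'] at h
          exact Y.ed_inj c hc c' hc' k h
        · exact absurd h (hON c hc e' he' k)
        · exact absurd h.symm (hON c' hc' e he k)
        · by_cases hk : k = p
          · subst hk
            rw [edP, edP] at h
            rw [attUp_inj _ _ h]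
          · rw [edN _ _ hk, edN _ _ hk] at h
            have := Y.arc_unique hF (hAarc e he) (hAarc e' he') hk h (att_succ_ne p)
            rw [hAone e he, hAone e' he'] at this
            rw [this]
      conn := by
        rintro η η' hη hη' ⟨g, hg⟩
        have c1 : ∀ ζ, Valid E' ζ → Conn E' r' ζ (ψ ζ) := fun ζ hζ => Conn.of_rel (by
          change Y.r (ψ ζ) (ψ (ψ ζ))
          rw [ψV _ (ψV' ζ hζ)]
          exact Y.r_eqv.refl _)
        obtain ⟨g1, hg1⟩ := omψ.orb η _ rfl
        obtain ⟨g2, hg2⟩ := omψ.orb η' _ rfl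
        have c2 := Y.conn _ _ (ψV' η hη) (ψV' η' hη')
          ⟨g2 * g * g1⁻¹, by rw [hg1, hg2, hg, mul_smul, inv_smul_smul, mul_smul]⟩
        have c3 := Conn.of_valid (E' := E') (r' := r') Y.r_eqv subset_union_left
          (fun a b ha hb h => Conn.of_rel (r'V a b ha hb h)) (ψV' η hη) (ψV' η' hη') c2
        exact (c1 η hη).trans (c3.trans (c1 η' hη').symm)
      gen := hgen }
  have hEν : nu μ ℕ Y'.E = nu μ ℕ Y.E + nu μ ℕ A := nu_union_attUp μ gN Y.bE mA
  have hCν : nu μ ℕ Y'.C = nu μ ℕ Y.C + nu μ ℕ A := nu_union_attUp μ gC Y.bC mA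
  have hAν : nu μ ℕ A ≠ ⊤ := (nu_lt_top_of_bound μ fun e he => Y.bE e (hAE1 e he)).ne
  refine ⟨Y', ⟨id, fun e he => ⟨Or.inl he, rfl, fun b => Y.r_eqv.refl _⟩, r'V⟩, ?_, hCν, ?_⟩
  · rw [Str.pot, Str.pot, hEν, hCν, ENNReal.toReal_add (Y.nuE_ne_top μ) hAν,
      ENNReal.toReal_add (Y.nuC_ne_top μ) hAν]
    ring
  · intro σ e he hin
    have m1 := (he.1 _ (att_pred_ne p)).1
    have m2 := (he.1 _ (att_succ_ne p)).1
    by_cases h1 : e (p + 1) ∈ Y.Att p
    · have h2 := hin h1
      have h3 := Y.arc_unique hF he (hAarc _ h2) (att_succ_ne p) (hAone _ h2).symm (att_pred_ne p)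
      refine ⟨attUp gN Y.L (e (p + 1)), Or.inr ⟨_, h2, rfl⟩, ?_, ?_⟩
      · change Y.r (ψ _) (ψ _)
        rw [ψF, ψE _ m1, ← h3]
        exact Y.r_eqv.refl _
      · change Y.r (ψ _) (ψ _)
        rw [ψT, ψE _ m2]
        exact Y.r_eqv.refl _
    · have h2 : ∃ c ∈ Y.C, Y.ed c (p + 1) = e (p + 1) := by
        by_contra h3
        exact h1 ⟨⟨σ, e, he, rfl⟩, h3⟩
      obtain ⟨c, hc, h3⟩ := h2
      have h4 := Y.arc_unique hF (Y.cell_arc hc p) he (att_succ_ne p) h3 (att_pred_ne p)
      have m3 := Y.ed_mem c hc p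
      refine ⟨Y.ed c p, Or.inl m3, r'V _ _ (valid_en.2 m1) (valid_en.2 m3) ?_,
        r'V _ _ (valid_en.2 m3) (valid_en.2 m2) ?_⟩
      · rw [← h4]; exact Y.corner c hc p
      · rw [← h3]
        simpa using Y.corner c hc (p + 1)

end

end Crest.Agent.R191
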