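import Crest.Agent.R191.Str

/-! Row 191: arcs (uniqueness, measurable choice) and general lemmas used to attach cells. -/

set_option autoImplicit false
set_option linter.unusedVariables false
set_option linter.unusedSectionVars false

namespace Crest.Agent.R191

open MeasureTheory Set
open Finsupp hiding some
open scoped ENNReal

variable {Γ X : Type} [Group Γ] [MulAction Γ X] [MeasurableSpace X]
  {H : Subgroup Γ} {v : ZMod 100 → Γ} {K : ℕ} {S : Set (It X (Fin K))}

theorem att_succ_ne (p : ZMod 100) : p + 1 ≠ p := by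
  intro h
  have : (1 : ZMod 100) = 0 := by linear_combination h
  exact absurd this (by decide)

theorem att_pred_ne (p : ZMod 100) : p - 1 ≠ p := by
  intro h
  have : (1 : ZMod 100) = 0 := by linear_combination -h
  exact absurd this (by decide)

/-- In a folded structure, arcs that share an edge coincide. -/
theorem Str.arc_unique (Y : Str H v S) (hF : Y.Folded) {p : ZMod 100} {σ σ' : X}
    {e e' : ZMod 100 → It X ℕ} (h : Y.Arc p σ e) (h' : Y.Arc p σ' e') {i : ZMod 100} (hi : i ≠ p)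
    (hei : e i = e' i) {j : ZMod 100} (hj : j ≠ p) : e j = e' j := by
  have hσ : σ = σ' := by
    have h1 := (h.1 i hi).2
    rw [hei, (h'.1 i hi).2] at h1
    exact (smul_left_cancel _ h1).symm
  subst hσ
  have hpt : ∀ k, k ≠ p → (e k).pt = (e' k).pt := fun k hk => by
    rw [(h.1 k hk).2, (h'.1 k hk).2]
  have step : ∀ k, k ≠ p → k - 1 ≠ p → (e (k - 1) = e' (k - 1) ↔ e k = e' k) := by
    intro k hk hk'
    have c1 := h.2 k hk hk'
    have c2 := h'.2 k hk hk'
    constructor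
    · intro e1
      rw [e1] at c1
      exact hF _ (h.1 k hk).1 _ (h'.1 k hk).1 false (hpt k hk)
        (Y.r_eqv.trans (Y.r_eqv.symm c1) c2)
    · intro e1
      rw [e1] at c1
      exact hF _ (h.1 _ hk').1 _ (h'.1 _ hk').1 true (hpt _ hk')
        (Y.r_eqv.trans c1 (Y.r_eqv.symm c2))
  have hne : ∀ n : ℕ, n ≤ 98 → p + 1 + (n : ZMod 100) ≠ p := by
    intro n hn e1
    have e2 : ((n + 1 : ℕ) : ZMod 100) = 0 := by push_cast; linear_combination e1
    rw [ZMod.natCast_eq_zero_iff] at e2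
    have := Nat.le_of_dvd (by omega) e2
    omega
  have chain : ∀ n : ℕ, n ≤ 98 → (e (p + 1) = e' (p + 1) ↔
      e (p + 1 + (n : ZMod 100)) = e' (p + 1 + (n : ZMod 100))) := by
    intro n
    induction n with
    | zero => intro _; simp
    | succ n ih =>
      intro hn
      have e1 : p + 1 + ((n + 1 : ℕ) : ZMod 100) - 1 = p + 1 + (n : ZMod 100) := by
        push_cast; ring
      have := step (p + 1 + ((n + 1 : ℕ) : ZMod 100)) (hne _ hn) (by rw [e1]; exact hne _ (by omega))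
      rw [e1] at this
      exact (ih (by omega)).trans this
  have all : ∀ k, k ≠ p → (e (p + 1) = e' (p + 1) ↔ e k = e' k) := by
    intro k hk
    have h1 : (k - p - 1).val ≤ 98 := by
      have h2 : (k - p - 1).val < 100 := ZMod.val_lt _
      by_contra h3
      have h4 : (k - p - 1).val = 99 := by omega
      have h5 : k - p - 1 = ((99 : ℕ) : ZMod 100) := by rw [← h4, ZMod.natCast_zmod_val]
      have h6 : ((99 : ℕ) : ZMod 100) = -1 := by decide
      exact hk (by rw [h6] at h5; linear_combination h5)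
    have := chain _ h1
    rw [ZMod.natCast_zmod_val] at this
    have e1 : p + 1 + (k - p - 1) = k := by ring
    rwa [e1] at this
  exact (all j hj).1 ((all i hi).2 hei)

/-- the edges of a cell form an arc -/
theorem Str.cell_arc (Y : Str H v S) {c : It X ℕ} (hc : c ∈ Y.C) (p : ZMod 100) :
    Y.Arc p c.pt (Y.ed c) :=
  ⟨fun i _ => ⟨Y.ed_mem c hc i, Y.ed_pt c hc i⟩, fun i _ _ => Y.corner c hc i⟩

/-- candidate arc through `e₁` with labels `n` -/
def arcOf (v : ZMod 100 → Γ) (p : ZMod 100) (n : ZMod 100 → ℕ) (e₁ : It X ℕ) (i : ZMod 100) :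
    It X ℕ := ⟨(v i * (v (p + 1))⁻¹) • e₁.pt, n i⟩

theorem Str.arc_iff (Y : Str H v S) (p : ZMod 100) (e₁ : It X ℕ) :
    (∃ σ e, Y.Arc p σ e ∧ e (p + 1) = e₁) ↔
      ∃ n, Y.Arc p ((v (p + 1))⁻¹ • e₁.pt) (arcOf v p n e₁) ∧ arcOf v p n e₁ (p + 1) = e₁ := by
  constructor
  · rintro ⟨σ, e, h, rfl⟩
    have hσ : (v (p + 1))⁻¹ • (e (p + 1)).pt = σ := by
      rw [(h.1 _ (att_succ_ne p)).2, inv_smul_smul]
    have he : ∀ i, i ≠ p → arcOf v p (fun i => (e i).ix) (e (p + 1)) i = e i := by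
      intro i hi
      refine It.ext ?_ rfl
      simp only [arcOf]
      rw [mul_smul, hσ, (h.1 i hi).2]
    refine ⟨fun i => (e i).ix, ⟨fun i hi => ?_, fun i hi hi' => ?_⟩, he _ (att_succ_ne p)⟩
    · rw [he i hi, hσ]; exact h.1 i hi
    · rw [he i hi, he _ hi']; exact h.2 i hi hi'
  · rintro ⟨n, h, h'⟩
    exact ⟨_, _, h, h'⟩

/-- the boundary of a cell boundary vanishes -/
theorem bd_cbd_mem {r : It X JN → It X JN → Prop} {ed : It X ℕ → ZMod 100 → It X ℕ} {c : It X ℕ}
    (h : ∀ k, r (en (ed c (k - 1)) true) (en (ed c k) false)) : bd (cbd ed c) ∈ Zs r := by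
  have e1 : bd (cbd ed c) =
      ∑ k, (single (en (ed c (k - 1)) true) (1 : ℤ) - single (en (ed c k) false) 1) := by
    simp only [cbd, map_sum, bd_single, one_smul, bd1, Finset.sum_sub_distrib]
    rw [Fintype.sum_equiv (Equiv.subRight (1 : ZMod 100))
      (fun k => single (en (ed c (k - 1)) true) (1 : ℤ)) (fun k => single (en (ed c k) true) 1)
      fun _ => rfl]
  rw [e1]
  exact Submodule.sum_mem _ fun k _ => Zs_rel (h k)

/-- connectedness between valid nodes passes to a larger structure -/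
theorem Conn.of_valid {E E' : Set (It X ℕ)} {r r' : It X JN → It X JN → Prop}
    (hr : Equivalence r) (hE : E ⊆ E')
    (h1 : ∀ η η', Valid E η → Valid E η' → r η η' → Conn E' r' η η') {η η' : It X JN}
    (hη : Valid E η) (hη' : Valid E η') (h : Conn E r η η') : Conn E' r' η η' := by
  classical
  let θ : It X JN → It X JN := fun ζ => if h : ∃ ζ', Valid E ζ' ∧ r ζ ζ' then h.choose else η
  have hθ : ∀ ζ, (∃ ζ', Valid E ζ' ∧ r ζ ζ') → Valid E (θ ζ) ∧ r ζ (θ ζ) := by
    intro ζ hζ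
    simp only [θ, dif_pos hζ]
    exact hζ.choose_spec
  have hθ' : ∀ ζ, Valid E ζ → Conn E' r' ζ (θ ζ) := fun ζ hζ => by
    obtain ⟨a, b⟩ := hθ ζ ⟨ζ, hζ, hr.refl ζ⟩
    exact h1 _ _ hζ a b
  have := Conn.map (E' := E') (r' := r') θ (fun ζ ζ' e => ?_) (fun e he => ?_) h
  · exact (hθ' η hη).trans (this.trans (hθ' η' hη').symm)
  · by_cases hζ : ∃ ζ'', Valid E ζ'' ∧ r ζ ζ''
    · have hζ' : ∃ ζ'', Valid E ζ'' ∧ r ζ' ζ'' := by
        obtain ⟨a, b, c⟩ := hζ
        exact ⟨a, b, hr.trans (hr.symm e) c⟩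
      obtain ⟨a, b⟩ := hθ ζ hζ
      obtain ⟨a', b'⟩ := hθ ζ' hζ'
      exact h1 _ _ a a' (hr.trans (hr.symm b) (hr.trans e b'))
    · have hζ' : ¬ ∃ ζ'', Valid E ζ'' ∧ r ζ' ζ'' := by
        rintro ⟨a, b, c⟩
        exact hζ ⟨a, b, hr.trans e c⟩
      simp only [θ, dif_neg hζ, dif_neg hζ']
      exact Conn.refl _ _ _
  · exact (hθ' _ (valid_en.2 he)).symm.trans
      ((Conn.edge r' (hE he) false true).trans (hθ' _ (valid_en.2 he)))

theorem OM.ite_fun {J J' : Type} {f g : It X J → It X J'} (hf : OM Γ (fun ω ω' => ω' = f ω))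
    (hg : OM Γ (fun ω ω' => ω' = g ω)) {P : It X J → Prop} [DecidablePred P]
    (hP : MeasurableSet {ω | P ω}) : OM Γ (fun ω ω' => ω' = if P ω then f ω else g ω) :=
  ((hf.and_left hP).or (hg.and_left hP.compl)).congr fun ω ω' => by
    by_cases h : P ω <;> simp [h]

section
variable [Countable Γ] (μ : Measure X) [FPA Γ μ]
include μ

theorem om_arcOf (p : ZMod 100) (n : ZMod 100 → ℕ) (i : ZMod 100) :
    OM Γ (fun (e₁ : It X ℕ) e => e = arcOf v p n e₁ i) :=
  OM.shift μ _ (fun _ => n i)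

theorem Str.measurableSet_arcOf (Y : Str H v S) (p : ZMod 100) (n : ZMod 100 → ℕ) :
    MeasurableSet {e₁ : It X ℕ |
      Y.Arc p ((v (p + 1))⁻¹ • e₁.pt) (arcOf v p n e₁) ∧ arcOf v p n e₁ (p + 1) = e₁} := by
  have e1 : {e₁ : It X ℕ |
      Y.Arc p ((v (p + 1))⁻¹ • e₁.pt) (arcOf v p n e₁) ∧ arcOf v p n e₁ (p + 1) = e₁} =
      {e₁ | ((∀ i, i ≠ p → arcOf v p n e₁ i ∈ Y.E) ∧
        ∀ i, i ≠ p → i - 1 ≠ p →
          Y.r (en (arcOf v p n e₁ (i - 1)) true) (en (arcOf v p n e₁ i) false)) ∧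
        n (p + 1) = e₁.ix} := by
    ext e₁
    simp only [mem_ofPred_eq, Str.Arc]
    refine and_congr (and_congr (forall_congr' fun i => forall_congr' fun hi => ?_) Iff.rfl) ?_
    · simp [arcOf, mul_smul]
    · simp [arcOf, It.ext_iff]
  rw [e1, measurableSet_setOfPred]
  refine Measurable.and (Measurable.and ?_ ?_) ?_
  · refine Measurable.forall fun i => Measurable.imp measurable_const ?_
    exact measurableSet_setOfPred.1 ((om_arcOf μ p n i).measurable μ Y.mE)
  · refine Measurable.forall fun i => Measurable.imp measurable_const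
      (Measurable.imp measurable_const ?_)
    exact measurableSet_setOfPred.1 (OM.measurableSet_rel μ
      ((om_arcOf μ p n (i - 1)).fun_comp μ (om_en μ true))
      ((om_arcOf μ p n i).fun_comp μ (om_en μ false)) Y.r_om)
  · exact measurableSet_setOfPred.1 (It.measurableSet_ix fun j => n (p + 1) = j)

theorem Str.measurableSet_att (Y : Str H v S) (p : ZMod 100) : MeasurableSet (Y.Att p) := by
  have e1 : Y.Att p = (⋃ n, {e₁ : It X ℕ |
      Y.Arc p ((v (p + 1))⁻¹ • e₁.pt) (arcOf v p n e₁) ∧ arcOf v p n e₁ (p + 1) = e₁}) ∩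
      ((fun c => Y.ed c (p + 1)) '' Y.C)ᶜ := by
    ext e₁
    simp only [Str.Att, mem_ofPred_eq, Y.arc_iff, mem_inter_iff, mem_iUnion, mem_compl_iff,
      mem_image]
  rw [e1]
  exact (MeasurableSet.iUnion fun n => Y.measurableSet_arcOf μ p n).inter
    ((Y.ed_om (p + 1)).measurableSet_image μ Y.mC).compl

/-- a measurable choice of arcs -/
theorem Str.exists_arc (Y : Str H v S) (p : ZMod 100) :
    ∃ arc : It X ℕ → ZMod 100 → It X ℕ, (∀ i, OM Γ (fun e₁ e => e = arc e₁ i)) ∧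
      (∀ e₁ i, (arc e₁ i).pt = (v i * (v (p + 1))⁻¹) • e₁.pt) ∧
      ∀ e₁ ∈ Y.Att p, Y.Arc p ((v (p + 1))⁻¹ • e₁.pt) (arc e₁) ∧ arc e₁ (p + 1) = e₁ := by
  obtain ⟨c, hc1, hc2⟩ := exists_measurable_choice (Y.measurableSet_arcOf μ p)
  refine ⟨fun e₁ => arcOf v p (c e₁) e₁, fun i => ?_, fun _ _ => rfl,
    fun e₁ he₁ => hc2 e₁ ((Y.arc_iff p e₁).1 he₁.1)⟩
  exact (OM.exists fun n => (om_arcOf (v := v) μ p n i).and_left (hc1 n)).congr fun e₁ e => by simp

end

end Crest.Agent.R191
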