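import Mathlib
import Crest.Prelude.Def_Cost

/-! Definitions for row 191 (a finitely generated group without fixed price). -/

set_option autoImplicit false

namespace Crest.Agent.R191

open MeasureTheory Set
open scoped ENNReal

/-! ### The group -/

/-- Index set of the free generators `v k`, `k ≠ 0`. -/
abbrev Idx : Type := {k : ZMod 100 // k ≠ 0}

/-- The free group of rank 99. -/
abbrev FG : Type := FreeGroup Idx

/-- `vG 0 = 1`, the other `vG k` are the free generators. -/
def vG (k : ZMod 100) : FG := if h : k = 0 then 1 else FreeGroup.of ⟨k, h⟩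

/-- `aG k = vG k * (vG (k-1))⁻¹`; the product of all of them in cyclic order is trivial. -/
def aG (k : ZMod 100) : FG := vG k * (vG (k - 1))⁻¹

/-- The subgroup generated by the quotients `aG i * (aG j)⁻¹`. -/
def CG : Subgroup FG := Subgroup.closure {g | ∃ i j, g = aG i * (aG j)⁻¹}

/-- The group without fixed price: a stable letter centralising `CG` is adjoined. -/
abbrev Gam : Type := HNNExtension FG CG CG (MulEquiv.refl CG)

/-- the elements `v k` of `Gam` -/
def vv (k : ZMod 100) : Gam := HNNExtension.of (vG k)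

/-- the stable letter -/
def tt : Gam := HNNExtension.t

/-- `av v k = v k * (v (k-1))⁻¹` -/
def av {Γ : Type} [Group Γ] (v : ZMod 100 → Γ) (k : ZMod 100) : Γ := v k * (v (k - 1))⁻¹

/-- the subgroup generated by the stable letter and `CG` -/
def HH : Subgroup Gam := Subgroup.closure ({tt} ∪ {g | ∃ i j, g = av vv i * (av vv j)⁻¹})

/-- Location of an end of the edge with image `y`: the tail (`false`) sits at `y`,
the head (`true`) at `av v 1 • y`. -/
def eloc {Γ X : Type} [Group Γ] [MulAction Γ X] (v : ZMod 100 → Γ) (y : X) (b : Bool) : X :=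
  if b then av v 1 • y else y

/-- Directed edges `d = (y, dir)` (`dir = true`: from tail to head); `d'` can follow `d` when the end
where `d'` starts lies in the `H`-orbit of the end where `d` finishes. -/
def DAdj {Γ X : Type} [Group Γ] [MulAction Γ X] (H : Subgroup Γ) (v : ZMod 100 → Γ)
    (d d' : X × Bool) : Prop :=
  ∃ h ∈ H, eloc v d'.1 (!d'.2) = h • eloc v d.1 d.2

/-- The Greendlinger type property: a closed path `d 0, d 1, …, d k` whose part `d 1, …, d k` has no
backtracking either is `d 0` followed by its reverse, or `d 1, …, d k` contains 99 consecutive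
edges of a cell. -/
def GLProp {Γ : Type} [Group Γ] (H : Subgroup Γ) (v : ZMod 100 → Γ) (X : Type) [MulAction Γ X] :
    Prop :=
  ∀ (k : ℕ) (d : ℕ → X × Bool), (∀ j < k, DAdj H v (d j) (d (j + 1))) → DAdj H v (d k) (d 0) →
    (∀ j, 1 ≤ j → j < k → d (j + 1) ≠ ((d j).1, !(d j).2)) →
    (k = 1 ∧ d 1 = ((d 0).1, !(d 0).2)) ∨
      ∃ (j : ℕ) (p : ZMod 100) (ε : Bool) (σ : X), 1 ≤ j ∧ j + 98 ≤ k ∧
        ∀ l : ℕ, l ≤ 98 →
          d (j + l) = (v (if ε then p + 1 + (l : ZMod 100) else p - 1 - (l : ZMod 100)) • σ, ε)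

/-- What the lower bound uses about the group. -/
structure GD {Γ : Type} [Group Γ] (H : Subgroup Γ) (v : ZMod 100 → Γ) : Prop where
  v0 : v 0 = 1
  v_inj : Function.Injective v
  a_inj : Function.Injective (av v)
  a_mem : ∀ i j, av v i * (av v j)⁻¹ ∈ H
  gen : Subgroup.closure ((H : Set Γ) ∪ {av v 1}) = ⊤

/-! ### Free measure preserving actions and items over them -/

/-- An everywhere free measure preserving action. -/
class FPA (Γ : Type) {X : Type} [Group Γ] [MulAction Γ X] [MeasurableSpace X] (μ : Measure X) :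
    Prop where
  mp : ∀ g : Γ, MeasurePreserving (fun x : X => g • x) μ μ
  free : ∀ (g : Γ) (x : X), g • x = x → g = 1

/-- Vertex expansion of small sets. -/
def Expands {Γ X : Type} [Group Γ] [MulAction Γ X] [MeasurableSpace X] (v : ZMod 100 → Γ)
    (μ : Measure X) : Prop :=
  ∀ A : Set X, MeasurableSet A → μ A ≤ 1 / 16 → 6 * μ A ≤ μ (⋃ k, (fun x => v k • x) '' A)

/-- An item: a point of `X` with a label. -/
@[ext] structure It (X J : Type) where
  pt : X
  ix : J

instance It.instMS {X J : Type} [m : MeasurableSpace X] : MeasurableSpace (It X J) :=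
  ⨅ j : J, m.map (fun x => (⟨x, j⟩ : It X J))

/-- The measure on items: `μ` on every layer. -/
noncomputable def nu {X : Type} [MeasurableSpace X] (μ : Measure X) (J : Type) :
    Measure (It X J) :=
  Measure.sum fun j : J => μ.map (fun x => (⟨x, j⟩ : It X J))

/-- Orbit-measurable relations between items. -/
structure OM (Γ : Type) {X J J' : Type} [Group Γ] [MulAction Γ X] [MeasurableSpace X]
    (R : It X J → It X J' → Prop) : Prop where
  orb : ∀ ω ω', R ω ω' → ∃ g : Γ, ω'.pt = g • ω.pt
  meas : ∀ (g : Γ) (j : J'), MeasurableSet {ω | R ω ⟨g • ω.pt, j⟩}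

/-- Measurable chain maps: every item is sent to a finite chain of items in its orbit. -/
structure MC (Γ : Type) {X J J' : Type} [Group Γ] [MulAction Γ X] [MeasurableSpace X]
    (k : It X J → (It X J' →₀ ℤ)) : Prop where
  orb : ∀ ω ω', k ω ω' ≠ 0 → ∃ g : Γ, ω'.pt = g • ω.pt
  meas : ∀ (g : Γ) (j : J') (z : ℤ), MeasurableSet {ω | k ω ⟨g • ω.pt, j⟩ = z}

/-- One step of the relation generated by `H` and a finite graphing. -/
def RelStep {Γ X : Type} [Group Γ] [MulAction Γ X] (H : Subgroup Γ) {K : ℕ} (γ : Fin K → Γ)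
    (A : Fin K → Set X) (y z : X) : Prop :=
  (∃ h ∈ H, z = h • y) ∨ ∃ i, y ∈ A i ∧ z = γ i • y

end Crest.Agent.R191
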