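import Crest.Agent.R191.StrDel

/-! Deleting leaves (pruning) and collapsing cells with a corner of valence two. -/

set_option autoImplicit false
set_option linter.unusedVariables false
set_option linter.unusedSectionVars false

namespace Crest.Agent.R191

open MeasureTheory Set
open Finsupp hiding some
open scoped ENNReal

variable {Γ X : Type} [Group Γ] [Countable Γ] [MulAction Γ X] [MeasurableSpace X]
  {H : Subgroup Γ} {v : ZMod 100 → Γ} {K : ℕ} {S : Set (It X (Fin K))}

private theorem lc_eq_self {α : Type} {κ : α → (α →₀ ℤ)} {ξ : α →₀ ℤ}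
    (h : ∀ e, ξ e ≠ 0 → κ e = single e 1) : linearCombination ℤ κ ξ = ξ := by
  rw [linearCombination_apply]
  conv_rhs => rw [← Finsupp.sum_single ξ]
  refine Finsupp.sum_congr fun e he => ?_
  rw [h e (Finsupp.mem_support_iff.1 he)]
  simp

private theorem lc_cbd (κ : It X ℕ → (It X ℕ →₀ ℤ)) (ed : It X ℕ → ZMod 100 → It X ℕ) (c : It X ℕ) :
    linearCombination ℤ κ (cbd ed c) = ∑ k, κ (ed c k) := by
  simp [cbd, map_sum]

private theorem Valid.mono {E E' : Set (It X ℕ)} (h : E' ⊆ E) {η : It X JN} (hη : Valid E' η) :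
    Valid E η := by
  rcases hη with hη | ⟨e, he, hη⟩
  · exact Or.inl hη
  · exact Or.inr ⟨e, h he, hη⟩

/-- edges of cells are not leaves -/
theorem Str.ed_not_leaf (Y : Str H v S) (b : Bool) {c : It X ℕ} (hc : c ∈ Y.C) (k : ZMod 100) :
    Y.ed c k ∉ Y.Leaf b := by
  rintro ⟨-, h⟩
  cases b
  · have := h _ (valid_en.2 (Y.ed_mem c hc (k - 1))) (Y.r_eqv.symm (Y.corner c hc k))
    simp at this
  · have h1 := Y.corner c hc (k + 1)
    rw [add_sub_cancel_right] at h1
    have := h _ (valid_en.2 (Y.ed_mem c hc (k + 1))) h1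
    simp at this

variable (μ : Measure X) [IsProbabilityMeasure μ] [FPA Γ μ]
include μ

theorem Str.measurableSet_leaf (Y : Str H v S) (b : Bool) : MeasurableSet (Y.Leaf b) := by
  have h := ((((om_en (Γ := Γ) μ b).comap_left μ Y.r_om).and_not
    (om_en (Γ := Γ) μ b)).measurableSet_ex_mem μ (measurableSet_valid μ Y.mE)).compl
  convert Y.mE.inter h using 1
  ext e
  simp only [Str.Leaf, mem_ofPred_eq, mem_inter_iff, mem_compl_iff, not_exists, not_and]
  refine and_congr_right fun _ => forall_congr' fun η => ?_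
  tauto

theorem Str.exists_prune (Y : Str H v S) (b : Bool) :
    ∃ Y' : Str H v S, Y'.E = Y.E \ Y.Leaf b ∧ Y'.C = Y.C := by
  classical
  have hL := Y.measurableSet_leaf μ b
  refine ⟨{ Y with
    E := Y.E \ Y.Leaf b
    mE := Y.mE.diff hL
    bE := fun e he => Y.bE e he.1
    ed_mem := fun c hc k => ⟨Y.ed_mem c hc k, Y.ed_not_leaf b hc k⟩
    conn := ?_
    gen := ?_ }, rfl, rfl⟩
  · let P : It X JN → Prop := fun η => ∃ e, e ∈ Y.Leaf b ∧ Y.r η (en e b)
    let θ : It X JN → It X JN := fun η => if h : P η then en h.choose (!b) else η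
    have θ1 : ∀ η e, e ∈ Y.Leaf b → Y.r η (en e b) → θ η = en e (!b) := by
      intro η e he hr
      have hP : P η := ⟨e, he, hr⟩
      have h1 := hP.choose_spec
      have h2 := he.2 _ (valid_en.2 h1.1.1) (Y.r_eqv.trans (Y.r_eqv.symm hr) h1.2)
      simp only [θ, dif_pos hP]
      rw [(en_inj.1 h2).1]
    have θ2 : ∀ η, ¬ P η → θ η = η := fun η h => dif_neg h
    have θ3 : ∀ η, Valid (Y.E \ Y.Leaf b) η → θ η = η := by
      intro η hη
      refine θ2 η ?_
      rintro ⟨e, he, hr⟩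
      have h2 := he.2 _ (hη.mono sdiff_subset) (Y.r_eqv.symm hr)
      rw [h2] at hη
      exact (valid_en.1 hη).2 he
    intro η η' hη hη' ho
    have := (Y.conn η η' (hη.mono sdiff_subset) (hη'.mono sdiff_subset) ho).map
      (E' := Y.E \ Y.Leaf b) (r' := Y.r) θ ?_ ?_
    · rwa [θ3 η hη, θ3 η' hη'] at this
    · intro ζ ζ' hr
      by_cases hP : P ζ
      · obtain ⟨e, he, hr'⟩ := hP
        rw [θ1 ζ e he hr', θ1 ζ' e he (Y.r_eqv.trans (Y.r_eqv.symm hr) hr')]
        exact Conn.refl _ _ _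
      · have hP' : ¬ P ζ' := fun ⟨e, he, hr'⟩ => hP ⟨e, he, Y.r_eqv.trans hr hr'⟩
        rw [θ2 ζ hP, θ2 ζ' hP']
        exact Conn.of_rel hr
    · intro e he
      by_cases hl : e ∈ Y.Leaf b
      · have h1 : θ (en e b) = en e (!b) := θ1 _ e hl (Y.r_eqv.refl _)
        have h2 : θ (en e (!b)) = en e (!b) := by
          refine θ2 _ ?_
          rintro ⟨e', he', hr⟩
          have := he'.2 _ (valid_en.2 he) (Y.r_eqv.symm hr)
          simp at this
        cases b
        · rw [h1]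
          simp only [Bool.not_false] at h2 ⊢
          rw [h2]
          exact Conn.refl _ _ _
        · rw [h1]
          simp only [Bool.not_true] at h2 ⊢
          rw [h2]
          exact Conn.refl _ _ _
      · have he' : e ∈ Y.E \ Y.Leaf b := ⟨he, hl⟩
        rw [θ3 _ (valid_en.2 he'), θ3 _ (valid_en.2 he')]
        exact Conn.edge _ he' _ _
  · obtain ⟨a, ha, hg⟩ := Y.gen
    let κ : It X ℕ → (It X ℕ →₀ ℤ) := fun e => if e ∈ Y.Leaf b then 0 else single e 1
    have hκ : MC Γ κ := MC.ite MC.zero (MC.single (OM.eq μ) 1) hL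
    refine ⟨fun s => linearCombination ℤ κ (a s), ha.bind μ hκ,
      hg.transfer (linearCombination ℤ κ) ?_ ?_⟩
    · intro c hc
      have : linearCombination ℤ κ (cbd Y.ed c) = cbd Y.ed c := by
        rw [lc_cbd]
        exact Finset.sum_congr rfl fun k _ => if_neg (Y.ed_not_leaf b hc k)
      rw [this]
      exact Submodule.subset_span ⟨c, hc, rfl⟩
    · intro ξ h1 h2
      refine ⟨ξ, fun e he => (h1 e he).1, h2, ?_⟩
      rw [lc_eq_self fun e he => if_neg (h1 e he).2, sub_self]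
      exact Submodule.zero_mem _

theorem Str.measurableSet_two (Y : Str H v S) (k : ZMod 100) : MeasurableSet {c | Y.Two c k} := by
  have h1 := (Y.ed_om k).fun_comp μ (om_en (Γ := Γ) μ false)
  have h2 := (Y.ed_om (k - 1)).fun_comp μ (om_en (Γ := Γ) μ true)
  have h := (((h1.comap_left μ Y.r_om).and_not (h1.or h2)).measurableSet_ex_mem μ
    (measurableSet_valid μ Y.mE)).compl
  convert h using 1
  ext c
  simp only [Str.Two, mem_ofPred_eq, mem_compl_iff, not_exists, not_and]
  refine forall_congr' fun η => ?_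
  tauto

theorem Str.measurableSet_coll (Y : Str H v S) : MeasurableSet Y.Coll := by
  have : Y.Coll = Y.C ∩ ⋃ k, {c | Y.Two c k} := by
    ext c
    simp [Str.Coll]
  rw [this]
  exact Y.mC.inter (MeasurableSet.iUnion fun k => Y.measurableSet_two μ k)

/-- the edge entering a corner of valence two lies on one cell, in one position -/
theorem Str.two_uniq1 (D : GD H v) (Y : Str H v S) {c c' : It X ℕ} {k i : ZMod 100}
    (hc : c ∈ Y.C) (h2 : Y.Two c k) (hc' : c' ∈ Y.C) (e : Y.ed c' i = Y.ed c (k - 1)) :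
    c' = c ∧ i = k - 1 := by
  have h1 := Y.corner c' hc' (i + 1)
  rw [add_sub_cancel_right, e] at h1
  have h3 := h2 _ (valid_en.2 (Y.ed_mem c' hc' (i + 1)))
    (Y.r_eqv.trans (Y.r_eqv.symm (Y.corner c hc k)) h1)
  have h4 : Y.ed c' (i + 1) = Y.ed c k := by simpa using h3
  have p1 : v i • c'.pt = v (k - 1) • c.pt := by
    rw [← Y.ed_pt c' hc', ← Y.ed_pt c hc, e]
  have p2 : v (i + 1) • c'.pt = v k • c.pt := by
    rw [← Y.ed_pt c' hc', ← Y.ed_pt c hc, h4]
  have p3 : av v (i + 1) • (v i • c'.pt) = av v k • (v i • c'.pt) := by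
    conv_rhs => rw [p1]
    simp only [av, add_sub_cancel_right, mul_smul, inv_smul_smul]
    exact p2
  have p4 : i + 1 = k := D.a_inj (smul_inj_of_free μ p3)
  rw [p4] at h4
  exact ⟨Y.ed_inj c' hc' c hc k h4, by rw [← p4, add_sub_cancel_right]⟩

/-- the edge leaving a corner of valence two lies on one cell, in one position -/
theorem Str.two_uniq2 (D : GD H v) (Y : Str H v S) {c c' : It X ℕ} {k i : ZMod 100}
    (hc : c ∈ Y.C) (h2 : Y.Two c k) (hc' : c' ∈ Y.C) (e : Y.ed c' i = Y.ed c k) :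
    c' = c ∧ i = k := by
  have h1 := Y.corner c' hc' i
  rw [e] at h1
  have h3 := h2 _ (valid_en.2 (Y.ed_mem c' hc' (i - 1))) (Y.r_eqv.symm h1)
  have h4 : Y.ed c' (i - 1) = Y.ed c (k - 1) := by simpa using h3
  obtain ⟨h5, h6⟩ := Y.two_uniq1 μ D hc h2 hc' h4
  exact ⟨h5, sub_left_injective h6⟩

theorem Str.exists_collapse (D : GD H v) (Y : Str H v S) :
    ∃ Y' : Str H v S, Y'.C = Y.C \ Y.Coll ∧
      nu μ ℕ Y'.E + 2 * nu μ ℕ Y.Coll ≤ nu μ ℕ Y.E := by
  classical
  have hC := Y.measurableSet_coll μ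
  obtain ⟨kk, hk1, hk2⟩ := exists_measurable_choice (P := fun c k => Y.Two c k)
    (Y.measurableSet_two μ)
  have htwo : ∀ c ∈ Y.Coll, Y.Two c (kk c) := fun c hc => hk2 c hc.2
  have hne : ∀ k : ZMod 100, k - 1 ≠ k := fun k h => by
    have : (1 : ZMod 100) = 0 := by simpa using h
    exact absurd this (by decide)
  let e1 : It X ℕ → It X ℕ := fun c => Y.ed c (kk c - 1)
  let e2 : It X ℕ → It X ℕ := fun c => Y.ed c (kk c)
  have om1 : OM Γ (fun c e => e = e1 c) :=
    (OM.exists fun k => (Y.ed_om (k - 1)).and_left (hk1 k)).congr fun c e => by simp [e1]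
  have om2 : OM Γ (fun c e => e = e2 c) :=
    (OM.exists fun k => (Y.ed_om k).and_left (hk1 k)).congr fun c e => by simp [e2]
  let D1 := e1 '' Y.Coll
  let D2 := e2 '' Y.Coll
  have mD1 : MeasurableSet D1 := om1.measurableSet_image μ hC
  have mD2 : MeasurableSet D2 := om2.measurableSet_image μ hC
  have u1 : ∀ c ∈ Y.Coll, ∀ c' ∈ Y.C, ∀ i, Y.ed c' i = e1 c → c' = c ∧ i = kk c - 1 :=
    fun c hc c' hc' i e => Y.two_uniq1 μ D hc.1 (htwo c hc) hc' e
  have u2 : ∀ c ∈ Y.Coll, ∀ c' ∈ Y.C, ∀ i, Y.ed c' i = e2 c → c' = c ∧ i = kk c :=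
    fun c hc c' hc' i e => Y.two_uniq2 μ D hc.1 (htwo c hc) hc' e
  have n12 : ∀ c ∈ Y.Coll, ∀ c' ∈ Y.Coll, e1 c ≠ e2 c' := by
    intro c hc c' hc' e
    obtain ⟨rfl, h⟩ := u2 c' hc' c hc.1 _ e
    exact hne _ h
  have keep : ∀ c ∈ Y.C, ∀ i, (c ∈ Y.Coll → i ≠ kk c - 1 ∧ i ≠ kk c) → Y.ed c i ∉ D1 ∪ D2 := by
    rintro c hc i hi (⟨c', hc', e⟩ | ⟨c', hc', e⟩)
    · obtain ⟨rfl, h⟩ := u1 c' hc' c hc i e.symm
      exact (hi hc').1 h
    · obtain ⟨rfl, h⟩ := u2 c' hc' c hc i e.symm
      exact (hi hc').2 h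
  have hDE : D1 ∪ D2 ⊆ Y.E := by
    rintro _ (⟨c, hc, rfl⟩ | ⟨c, hc, rfl⟩) <;> exact Y.ed_mem c hc.1 _
  refine ⟨{ Y with
    E := Y.E \ (D1 ∪ D2)
    mE := Y.mE.diff (mD1.union mD2)
    bE := fun e he => Y.bE e he.1
    C := Y.C \ Y.Coll
    mC := Y.mC.diff hC
    bC := fun c hc => Y.bC c hc.1
    ed_pt := fun c hc => Y.ed_pt c hc.1
    ed_mem := fun c hc k => ⟨Y.ed_mem c hc.1 k, keep c hc.1 k fun h => absurd h hc.2⟩
    corner := fun c hc => Y.corner c hc.1
    ed_inj := fun c hc c' hc' => Y.ed_inj c hc.1 c' hc'.1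
    conn := ?_
    gen := ?_ }, rfl, ?_⟩
  · let P : It X JN → Prop := fun η => ∃ c, c ∈ Y.Coll ∧ Y.r η (en (e2 c) false)
    let θ : It X JN → It X JN := fun η => if h : P η then en (e2 h.choose) true else η
    have θ1 : ∀ η c, c ∈ Y.Coll → Y.r η (en (e2 c) false) → θ η = en (e2 c) true := by
      intro η c hc hr
      have hP : P η := ⟨c, hc, hr⟩
      have h1 := hP.choose_spec
      have h2 := htwo c hc _ (valid_en.2 (Y.ed_mem _ h1.1.1 _))
        (Y.r_eqv.trans (Y.r_eqv.symm hr) h1.2)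
      have h3 : e2 hP.choose = e2 c := by simpa using h2
      simp only [θ, dif_pos hP]
      rw [h3]
    have θ2 : ∀ η, ¬ P η → θ η = η := fun η h => dif_neg h
    have θ3 : ∀ η, Valid (Y.E \ (D1 ∪ D2)) η → θ η = η := by
      intro η hη
      refine θ2 η ?_
      rintro ⟨c, hc, hr⟩
      rcases htwo c hc _ (hη.mono sdiff_subset) (Y.r_eqv.symm hr) with h2 | h2
      · rw [h2] at hη
        exact (valid_en.1 hη).2 (Or.inr ⟨c, hc, rfl⟩)
      · rw [h2] at hη
        exact (valid_en.1 hη).2 (Or.inl ⟨c, hc, rfl⟩)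
    intro η η' hη hη' ho
    have := (Y.conn η η' (hη.mono sdiff_subset) (hη'.mono sdiff_subset) ho).map
      (E' := Y.E \ (D1 ∪ D2)) (r' := Y.r) θ ?_ ?_
    · rwa [θ3 η hη, θ3 η' hη'] at this
    · intro ζ ζ' hr
      by_cases hP : P ζ
      · obtain ⟨c, hc, hr'⟩ := hP
        rw [θ1 ζ c hc hr', θ1 ζ' c hc (Y.r_eqv.trans (Y.r_eqv.symm hr) hr')]
        exact Conn.refl _ _ _
      · have hP' : ¬ P ζ' := fun ⟨c, hc, hr'⟩ => hP ⟨c, hc, Y.r_eqv.trans hr hr'⟩
        rw [θ2 ζ hP, θ2 ζ' hP']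
        exact Conn.of_rel hr
    · intro e he
      by_cases hd : e ∈ D1 ∪ D2
      · rcases hd with ⟨c, hc, rfl⟩ | ⟨c, hc, rfl⟩
        · have h1 : θ (en (e1 c) true) = en (e2 c) true := θ1 _ c hc (Y.corner c hc.1 _)
          have h2 : θ (en (e1 c) false) = en (e1 c) false := by
            refine θ2 _ ?_
            rintro ⟨c', hc', hr⟩
            have h3 := htwo c' hc' _ (valid_en.2 he) (Y.r_eqv.symm hr)
            exact n12 c hc c' hc' (by simpa using h3)
          rw [h1, h2]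
          have key : ∀ j : ℕ, j ≤ 98 → Conn (Y.E \ (D1 ∪ D2)) Y.r (en (e2 c) true)
              (en (Y.ed c (kk c + j)) true) := by
            intro j
            induction j with
            | zero => intro _; simpa using Conn.refl _ _ _
            | succ j ih =>
              intro hj
              have h3 := Y.corner c hc.1 (kk c + (j + 1 : ℕ))
              have h4 : kk c + ((j + 1 : ℕ) : ZMod 100) - 1 = kk c + j := by
                push_cast; ring
              rw [h4] at h3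
              have hz : ∀ n : ℕ, n ≤ 98 → 1 ≤ n → (n : ZMod 100) ≠ -1 ∧ (n : ZMod 100) ≠ 0 := by
                decide
              have h5 : Y.ed c (kk c + (j + 1 : ℕ)) ∈ Y.E \ (D1 ∪ D2) := by
                refine ⟨Y.ed_mem c hc.1 _, keep c hc.1 _ fun _ => ⟨fun h => ?_, fun h => ?_⟩⟩
                · exact (hz (j + 1) hj (by omega)).1 (by linear_combination h)
                · exact (hz (j + 1) hj (by omega)).2 (by linear_combination h)
              exact ((ih (by omega)).trans (Conn.of_rel h3)).trans (Conn.edge _ h5 _ _)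
          have h6 := Y.corner c hc.1 (kk c - 1)
          have h7 : kk c - 1 - 1 = kk c + ((98 : ℕ) : ZMod 100) := by
            have : ((98 : ℕ) : ZMod 100) = -2 := by decide
            rw [this]; ring
          rw [h7] at h6
          exact ((key 98 le_rfl).trans (Conn.of_rel h6)).symm
        · have h1 : θ (en (e2 c) false) = en (e2 c) true := θ1 _ c hc (Y.r_eqv.refl _)
          have h2 : θ (en (e2 c) true) = en (e2 c) true := by
            refine θ2 _ ?_
            rintro ⟨c', hc', hr⟩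
            have h3 := htwo c' hc' _ (valid_en.2 he) (Y.r_eqv.symm hr)
            have h4 : e2 c = e1 c' := by simpa using h3
            exact n12 c' hc' c hc h4.symm
          rw [h1, h2]
          exact Conn.refl _ _ _
      · have he' : e ∈ Y.E \ (D1 ∪ D2) := ⟨he, hd⟩
        rw [θ3 _ (valid_en.2 he'), θ3 _ (valid_en.2 he')]
        exact Conn.edge _ he' _ _
  · obtain ⟨a, ha, hg⟩ := Y.gen
    obtain ⟨cell, hcell1, hcell2⟩ := ((om1.and_left hC).flip μ).select μ
    let κ : It X ℕ → (It X ℕ →₀ ℤ) := fun e => if e ∈ D2 then 0 else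
      if e ∈ D1 then single e 1 + single (e2 (cell e)) 1 - cbd Y.ed (cell e) else single e 1
    have hκ : MC Γ κ := MC.ite MC.zero (MC.ite (((MC.single (OM.eq μ) 1).add
      (MC.single (hcell1.fun_comp μ om2) 1)).sub ((Y.mc_cbd μ).comp_fun μ hcell1))
      (MC.single (OM.eq μ) 1) mD1) mD2
    have κ0 : ∀ e, e ∉ D1 ∪ D2 → κ e = single e 1 := fun e he => by
      simp only [κ]
      rw [if_neg fun h => he (Or.inr h), if_neg fun h => he (Or.inl h)]
    refine ⟨fun s => linearCombination ℤ κ (a s), ha.bind μ hκ,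
      hg.transfer (linearCombination ℤ κ) ?_ ?_⟩
    · intro c hc
      by_cases hcc : c ∈ Y.Coll
      · have κ1 : κ (e1 c) = single (e1 c) 1 + single (e2 c) 1 - cbd Y.ed c := by
          have h1 : e1 c ∉ D2 := fun ⟨c', hc', e⟩ => n12 c hcc c' hc' e.symm
          have h2 : e1 c ∈ D1 := ⟨c, hcc, rfl⟩
          have h3 := hcell2 (e1 c) ⟨c, hcc, rfl⟩
          have h4 : c = cell (e1 c) := (u1 _ h3.1 c hc _ h3.2).1
          simp only [κ]
          rw [if_neg h1, if_pos h2, ← h4]
        have κ2 : κ (e2 c) = 0 := if_pos ⟨c, hcc, rfl⟩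
        have h5 : ∑ k, (κ (Y.ed c k) - single (Y.ed c k) 1) =
            (κ (e1 c) - single (e1 c) 1) + (κ (e2 c) - single (e2 c) 1) := by
          refine Fintype.sum_eq_add (kk c - 1) (kk c) (hne _) fun i hi => ?_
          rw [κ0 _ (keep c hc i fun _ => hi), sub_self]
        have h6 : linearCombination ℤ κ (cbd Y.ed c) = 0 := by
          rw [Finset.sum_sub_distrib, ← lc_cbd, κ1, κ2] at h5
          change _ - cbd Y.ed c = _ at h5
          rw [sub_eq_iff_eq_add] at h5
          rw [h5]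
          abel
        rw [h6]
        exact Submodule.zero_mem _
      · have : linearCombination ℤ κ (cbd Y.ed c) = cbd Y.ed c := by
          rw [lc_cbd]
          exact Finset.sum_congr rfl fun k _ => κ0 _ (keep c hc k fun h => absurd h hcc)
        rw [this]
        exact Submodule.subset_span ⟨c, ⟨hc, hcc⟩, rfl⟩
    · intro ξ h1 h2
      refine ⟨ξ, fun e he => (h1 e he).1, h2, ?_⟩
      rw [lc_eq_self fun e he => κ0 e (h1 e he).2, sub_self]
      exact Submodule.zero_mem _
  · change nu μ ℕ (Y.E \ (D1 ∪ D2)) + 2 * nu μ ℕ Y.Coll ≤ nu μ ℕ Y.E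
    have h1 : (Fintype.card Bool : ℝ≥0∞) * nu μ ℕ Y.Coll ≤ nu μ ℕ (D1 ∪ D2) := by
      refine mul_nu_le_of_inj (Γ := Γ) μ (R := fun b c e => e = if b then e1 c else e2 c)
        (fun b => by cases b <;> simpa) hC (mD1.union mD2) ?_ ?_
      · intro b c hc
        refine ⟨_, ?_, rfl⟩
        cases b
        · exact Or.inr ⟨c, hc, rfl⟩
        · exact Or.inl ⟨c, hc, rfl⟩
      · intro b b' c hc c' hc' e _ h h'
        have h'' := h.symm.trans h'
        cases b <;> cases b'
        · exact ⟨rfl, (u2 c' hc' c hc.1 _ h'').1⟩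
        · exact absurd h''.symm (n12 c' hc' c hc)
        · exact absurd h'' (n12 c hc c' hc')
        · exact ⟨rfl, (u1 c' hc' c hc.1 _ h'').1⟩
    have h2 : nu μ ℕ (Y.E \ (D1 ∪ D2)) + nu μ ℕ (D1 ∪ D2) = nu μ ℕ Y.E := by
      rw [← measure_union disjoint_sdiff_left (mD1.union mD2), sdiff_union_of_subset hDE]
    rw [← h2]
    gcongr
    simpa using h1

end Crest.Agent.R191
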