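import Crest.Agent.R191.Str

/-! The fold closure of a measured graph structure. -/

set_option autoImplicit false
set_option linter.unusedVariables false
set_option linter.unusedSectionVars false

namespace Crest.Agent.R191

open MeasureTheory Set
open Finsupp hiding some
open scoped ENNReal

variable {Γ X : Type} [Group Γ] [Countable Γ] [MulAction Γ X] [MeasurableSpace X]
  {H : Subgroup Γ} {v : ZMod 100 → Γ} {K : ℕ} {S : Set (It X (Fin K))}

namespace Fold

/-- one folding step -/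
def fstep (E : Set (It X ℕ)) (r : It X JN → It X JN → Prop) (η η' : It X JN) : Prop :=
  r η η' ∨ ∃ b, ∃ e, η = en e (!b) ∧ ∃ e', (e ∈ E ∧ ((e.pt = e'.pt ∧ r (en e b) (en e' b)) ∧
    e' ∈ E)) ∧ η' = en e' (!b)

def rn (E : Set (It X ℕ)) (r : It X JN → It X JN → Prop) : ℕ → It X JN → It X JN → Prop
  | 0 => r
  | n + 1 => Relation.EqvGen (fstep E (rn E r n))

/-- the folded vertex relation -/
def rr (E : Set (It X ℕ)) (r : It X JN → It X JN → Prop) (η η' : It X JN) : Prop :=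
  ∃ n, rn E r n η η'

variable {E : Set (It X ℕ)} {r : It X JN → It X JN → Prop}

theorem rn_mono {m n : ℕ} (h : m ≤ n) {η η' : It X JN} (e : rn E r m η η') : rn E r n η η' := by
  induction h with
  | refl => exact e
  | step _ ih => exact Relation.EqvGen.rel _ _ (Or.inl ih)

theorem rr_of (η η' : It X JN) (h : r η η') : rr E r η η' := ⟨0, h⟩

theorem rr_eqv : Equivalence (rr E r) where
  refl := fun η => ⟨1, Relation.EqvGen.refl _⟩
  symm := fun ⟨n, h⟩ => ⟨n + 1, Relation.EqvGen.symm _ _ (rn_mono (Nat.le_succ n) h)⟩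
  trans := fun ⟨n, h⟩ ⟨m, h'⟩ => ⟨max n m + 1, Relation.EqvGen.trans _ _ _
    (rn_mono ((le_max_left n m).trans (Nat.le_succ _)) h)
    (rn_mono ((le_max_right n m).trans (Nat.le_succ _)) h')⟩

theorem rr_flip {e e' : It X ℕ} (he : e ∈ E) (he' : e' ∈ E) (hp : e.pt = e'.pt) {b : Bool}
    (h : rr E r (en e b) (en e' b)) (b' : Bool) : rr E r (en e b') (en e' b') := by
  by_cases hb : b' = b
  · rwa [hb]
  · obtain ⟨n, h⟩ := h
    have : b' = !b := by cases b <;> cases b' <;> simp_all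
    rw [this]
    exact ⟨n + 1, Relation.EqvGen.rel _ _ (Or.inr ⟨b, e, rfl, e', ⟨he, ⟨hp, h⟩, he'⟩, rfl⟩)⟩

theorem rn_loc (h : ∀ η η', r η η' → ∃ h ∈ H, nloc v η' = h • nloc v η) (n : ℕ) :
    ∀ η η', rn E r n η η' → ∃ h ∈ H, nloc v η' = h • nloc v η := by
  induction n with
  | zero => exact h
  | succ n ih =>
    intro η η' e
    induction e with
    | rel x y e =>
      rcases e with e | ⟨b, e, rfl, e', ⟨-, ⟨hp, -⟩, -⟩, rfl⟩
      · exact ih _ _ e
      · exact ⟨1, H.one_mem, by simp [hp]⟩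
    | refl x => exact ⟨1, H.one_mem, by simp⟩
    | symm x y _ ih2 =>
      obtain ⟨g, hg, e⟩ := ih2
      exact ⟨g⁻¹, H.inv_mem hg, by rw [e, inv_smul_smul]⟩
    | trans x y z _ _ ih1 ih2 =>
      obtain ⟨g, hg, e⟩ := ih1
      obtain ⟨g', hg', e'⟩ := ih2
      exact ⟨g' * g, H.mul_mem hg' hg, by rw [e', e, mul_smul]⟩

/-- edges that are identified by folding -/
def sim (E : Set (It X ℕ)) (r : It X JN → It X JN → Prop) (e e' : It X ℕ) : Prop :=
  e ∈ E ∧ ((e.pt = e'.pt ∧ rr E r (en e false) (en e' false)) ∧ e' ∈ E)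

theorem sim_refl {e : It X ℕ} (he : e ∈ E) : sim E r e e := ⟨he, ⟨rfl, rr_eqv.refl _⟩, he⟩

theorem sim.symm {e e' : It X ℕ} (h : sim E r e e') : sim E r e' e :=
  ⟨h.2.2, ⟨h.2.1.1.symm, rr_eqv.symm h.2.1.2⟩, h.1⟩

theorem sim.trans {e e' e'' : It X ℕ} (h : sim E r e e') (h' : sim E r e' e'') : sim E r e e'' :=
  ⟨h.1, ⟨h.2.1.1.trans h'.2.1.1, rr_eqv.trans h.2.1.2 h'.2.1.2⟩, h'.2.2⟩

theorem sim.rel {e e' : It X ℕ} (h : sim E r e e') (b : Bool) : rr E r (en e b) (en e' b) :=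
  rr_flip h.1 h.2.2 h.2.1.1 h.2.1.2 b

theorem sim_of {e e' : It X ℕ} (he : e ∈ E) (he' : e' ∈ E) (hp : e.pt = e'.pt) {b : Bool}
    (h : rr E r (en e b) (en e' b)) : sim E r e e' :=
  ⟨he, ⟨hp, rr_flip he he' hp h false⟩, he'⟩

section
variable (μ : Measure X) [FPA Γ μ]
include μ

theorem om_pt : OM Γ (fun e e' : It X ℕ => e.pt = e'.pt) :=
  (OM.exists fun i : ℕ => OM.shift (X := X) (J := ℕ) μ (1 : Γ) (fun _ => i)).congr
    fun e e' => ⟨fun h => ⟨e'.ix, It.ext (by simp [h]) rfl⟩, fun ⟨i, h⟩ => by simp [h]⟩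

theorem om_ends (mE : MeasurableSet E) (hr : OM Γ r) (b : Bool) :
    OM Γ (fun e e' : It X ℕ => e ∈ E ∧ ((e.pt = e'.pt ∧ r (en e b) (en e' b)) ∧ e' ∈ E)) :=
  (((om_pt μ).and ((om_en μ b).comap_right μ ((om_en μ b).comap_left μ hr))).and_right μ
    mE).and_left mE

theorem om_rn (mE : MeasurableSet E) (hr : OM Γ r) (n : ℕ) : OM Γ (rn E r n) := by
  induction n with
  | zero => exact hr
  | succ n ih =>
    refine OM.eqvGen μ (ih.or (OM.exists fun b => ?_))
    exact ((om_en μ (!b)).flip μ).comp μ ((om_ends μ mE ih b).comp μ (om_en μ (!b)))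

theorem om_rr (mE : MeasurableSet E) (hr : OM Γ r) : OM Γ (rr E r) :=
  OM.exists (om_rn μ mE hr)

theorem exists_q (mE : MeasurableSet E) (hr : OM Γ r) :
    ∃ q : It X ℕ → It X ℕ, OM Γ (fun e e' => e' = q e) ∧ (∀ e ∈ E, sim E r e (q e)) ∧
      ∀ e e', sim E r e e' → (q e).ix ≤ e'.ix := by
  classical
  have hs : OM Γ (sim E r) := om_ends μ mE (om_rr μ mE hr) false
  have hex : ∀ e ∈ E, ∃ i, sim E r e ⟨e.pt, i⟩ := fun e he => ⟨e.ix, sim_refl he⟩
  let q : It X ℕ → It X ℕ := fun e => if h : e ∈ E then ⟨e.pt, Nat.find (hex e h)⟩ else e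
  have h1 : ∀ e ∈ E, sim E r e (q e) := fun e he => by
    simp only [q, he, dif_pos]
    exact Nat.find_spec (hex e he)
  have h2 : ∀ e e', sim E r e e' → (q e).ix ≤ e'.ix := fun e e' h => by
    simp only [q, h.1, dif_pos]
    apply Nat.find_min'
    have : e' = ⟨e.pt, e'.ix⟩ := It.ext h.2.1.1.symm rfl
    rwa [← this]
  refine ⟨q, ?_, h1, h2⟩
  have hA := hs.and_all μ hs ((om_pt μ).and_ix fun i j => j ≤ i)
  refine (hA.or ((OM.eq μ).and_left mE.compl)).congr fun e e' => ?_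
  constructor
  · rintro rfl
    by_cases he : e ∈ E
    · exact Or.inl ⟨h1 e he, fun e'' h =>
        ⟨h.2.1.1.symm.trans (h1 e he).2.1.1, h2 e e'' h⟩⟩
    · exact Or.inr ⟨he, by simp [q, he]⟩
  · rintro (⟨h, h'⟩ | ⟨he, rfl⟩)
    · exact It.ext (h.2.1.1.symm.trans (h1 e h.1).2.1.1)
        (le_antisymm (h' _ (h1 e h.1)).2 (h2 _ _ h))
    · have : e' ∉ E := he
      simp [q, this]

end

theorem walk (Y : Str H v S) {c c' : It X ℕ} (hc : c ∈ Y.C) (hc' : c' ∈ Y.C) {k : ZMod 100}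
    (h : sim Y.E Y.r (Y.ed c k) (Y.ed c' k)) (k' : ZMod 100) :
    sim Y.E Y.r (Y.ed c k') (Y.ed c' k') := by
  have hp : c.pt = c'.pt := by
    have := h.2.1.1
    rw [Y.ed_pt c hc, Y.ed_pt c' hc'] at this
    exact MulAction.injective _ this
  have key : ∀ n : ℕ, sim Y.E Y.r (Y.ed c (k + n)) (Y.ed c' (k + n)) := by
    intro n
    induction n with
    | zero => simpa using h
    | succ n ih =>
      have e : k + ((n + 1 : ℕ) : ZMod 100) - 1 = k + n := by push_cast; ring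
      have c1 := Y.corner c hc (k + ((n + 1 : ℕ) : ZMod 100))
      have c2 := Y.corner c' hc' (k + ((n + 1 : ℕ) : ZMod 100))
      rw [e] at c1 c2
      refine ⟨Y.ed_mem c hc _, ⟨?_, ?_⟩, Y.ed_mem c' hc' _⟩
      · rw [Y.ed_pt c hc, Y.ed_pt c' hc', hp]
      · exact rr_eqv.trans (rr_eqv.symm (rr_of _ _ c1)) (rr_eqv.trans (ih.rel true) (rr_of _ _ c2))
  have := key (k' - k).val
  rwa [ZMod.natCast_zmod_val, add_sub_cancel] at this

theorem zs_le {q : It X ℕ → It X ℕ} (hq : ∀ e e', sim E r e e' → q e = q e') :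
    Zs (rr E r) ≤ Zs r ⊔ (Submodule.span ℤ
      {k | ∃ e ∈ E, k = (single e 1 - single (q e) 1 : It X ℕ →₀ ℤ)}).map bd := by
  set P := Zs r ⊔ (Submodule.span ℤ
      {k | ∃ e ∈ E, k = (single e 1 - single (q e) 1 : It X ℕ →₀ ℤ)}).map bd
  refine Zs_le ?_ fun x => Submodule.mem_sup_left (Zs_bs r x)
  rintro η η' ⟨n, h⟩
  induction n generalizing η η' with
  | zero => exact Submodule.mem_sup_left (Zs_rel h)
  | succ n ih =>
    induction h with
    | rel x y e =>
      rcases e with e | ⟨b, e, rfl, e', ⟨he, ⟨hp, h⟩, he'⟩, rfl⟩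
      · exact ih _ _ e
      · have hb : ∀ e ∈ E, bd1 e - bd1 (q e) ∈ P := fun e he =>
          Submodule.mem_sup_right ⟨_, Submodule.subset_span ⟨e, he, rfl⟩, by simp⟩
        have h1 : bd1 e - bd1 e' ∈ P := by
          have := P.sub_mem (hb e he) (hb e' he')
          rw [hq e e' (sim_of he he' hp ⟨n, h⟩)] at this
          simpa using this
        have h2 := ih _ _ h
        cases b
        · convert P.add_mem h1 h2 using 1
          simp only [bd1, Bool.not_false]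
          abel
        · convert P.sub_mem h2 h1 using 1
          simp only [bd1, Bool.not_true]
          abel
    | refl x => simp
    | symm x y _ ih2 => simpa using P.neg_mem ih2
    | trans x y z _ _ ih1 ih2 => simpa using P.add_mem ih1 ih2

end Fold

open Fold in
theorem Str.exists_fold (μ : Measure X) [IsProbabilityMeasure μ] [FPA Γ μ] (Y : Str H v S) :
    ∃ Y' : Str H v S, Y'.Folded ∧ Y.Mor Y' ∧ Y'.pot μ ≤ Y.pot μ ∧
      nu μ ℕ Y'.C ≤ nu μ ℕ Y.C := by
  classical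
  obtain ⟨q, hqo, hq1, hq2⟩ := exists_q μ Y.mE Y.r_om
  have hq : ∀ e e', sim Y.E Y.r e e' → q e = q e' := fun e e' h =>
    It.ext ((hq1 e h.1).2.1.1.symm.trans (h.2.1.1.trans (hq1 e' h.2.2).2.1.1))
      (le_antisymm (hq2 _ _ (h.trans (hq1 e' h.2.2))) (hq2 _ _ (h.symm.trans (hq1 e h.1))))
  have hqs : ∀ e ∈ Y.E, ∀ e' ∈ Y.E, q e = q e' → sim Y.E Y.r e e' := fun e he e' he' h =>
    (hq1 e he).trans (h ▸ (hq1 e' he').symm)
  have hqE : ∀ e ∈ Y.E, q e ∈ Y.E := fun e he => (hq1 e he).2.2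
  have hqq : ∀ e ∈ Y.E, q (q e) = q e := fun e he => (hq _ _ (hq1 e he)).symm
  have hqp : ∀ e ∈ Y.E, (q e).pt = e.pt := fun e he => (hq1 e he).2.1.1.symm
  let E' : Set (It X ℕ) := {e | e ∈ Y.E ∧ q e = e}
  have mE' : MeasurableSet E' :=
    Y.mE.inter (OM.measurableSet_rel μ (f := fun e => e) (OM.eq μ) hqo (OM.eq μ))
  have hE' : ∀ e ∈ Y.E, q e ∈ E' := fun e he => ⟨hqE e he, hqq e he⟩
  let R : It X ℕ → It X ℕ → Prop := fun c c' =>
    (q (Y.ed c' 0) = q (Y.ed c 0) ∧ (Y.ed c' 0).ix < (Y.ed c 0).ix) ∧ c' ∈ Y.C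
  have hR : OM Γ R := by
    have h1 : OM Γ (fun e e' : It X ℕ => q e' = q e ∧ e'.ix < e.ix) :=
      (hqo.comap_right μ (hqo.comap_left μ (OM.eq μ))).and_ix fun i j => j < i
    exact ((Y.ed_om 0).comap_right μ ((Y.ed_om 0).comap_left μ h1)).and_right μ Y.mC
  let C' : Set (It X ℕ) := {c | c ∈ Y.C ∧ ¬ ∃ c', R c c'}
  have mC' : MeasurableSet C' := Y.mC.inter hR.measurableSet_ex.compl
  have hall : ∀ c ∈ Y.C, ∀ c' ∈ Y.C, ∀ k, q (Y.ed c k) = q (Y.ed c' k) →
      ∀ k', q (Y.ed c k') = q (Y.ed c' k') := fun c hc c' hc' k h k' =>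
    hq _ _ (walk Y hc hc' (hqs _ (Y.ed_mem c hc k) _ (Y.ed_mem c' hc' k) h) k')
  have hrep : ∀ c ∈ Y.C, ∃ c' ∈ C', q (Y.ed c' 0) = q (Y.ed c 0) := by
    intro c hc
    have hex : ∃ n, ∃ c' ∈ Y.C, q (Y.ed c' 0) = q (Y.ed c 0) ∧ (Y.ed c' 0).ix = n :=
      ⟨_, c, hc, rfl, rfl⟩
    obtain ⟨c', hc', h1, h2⟩ := Nat.find_spec hex
    refine ⟨c', ⟨hc', ?_⟩, h1⟩
    rintro ⟨c'', ⟨h3, h4⟩, h5⟩
    exact Nat.find_min hex (h2 ▸ h4) ⟨c'', h5, h3.trans h1, rfl⟩
  obtain ⟨a, ha, hgen⟩ := Y.gen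
  let Y' : Str H v S :=
    { L := Y.L
      E := E'
      mE := mE'
      bE := fun e he => Y.bE e he.1
      r := rr Y.E Y.r
      r_om := om_rr μ Y.mE Y.r_om
      r_eqv := rr_eqv
      r_loc := fun η η' ⟨n, h⟩ => rn_loc Y.r_loc n η η' h
      r_base := fun x h hh => rr_of _ _ (Y.r_base x h hh)
      C := C'
      mC := mC'
      bC := fun c hc => Y.bC c hc.1
      ed := fun c k => q (Y.ed c k)
      ed_om := fun k => (Y.ed_om k).fun_comp μ hqo
      ed_pt := fun c hc k => by rw [hqp _ (Y.ed_mem c hc.1 k), Y.ed_pt c hc.1]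
      ed_mem := fun c hc k => hE' _ (Y.ed_mem c hc.1 k)
      corner := fun c hc k =>
        rr_eqv.trans (rr_eqv.symm ((hq1 _ (Y.ed_mem c hc.1 _)).rel true))
          (rr_eqv.trans (rr_of _ _ (Y.corner c hc.1 k)) ((hq1 _ (Y.ed_mem c hc.1 _)).rel false))
      ed_inj := fun c hc c' hc' k h => by
        have h0 := hall c hc.1 c' hc'.1 k h 0
        refine Y.ed_inj c hc.1 c' hc'.1 0 (It.ext ?_ (le_antisymm ?_ ?_))
        · rw [← hqp _ (Y.ed_mem c hc.1 0), ← hqp _ (Y.ed_mem c' hc'.1 0), h0]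
        · exact not_lt.1 fun hlt => hc.2 ⟨c', ⟨h0.symm, hlt⟩, hc'.1⟩
        · exact not_lt.1 fun hlt => hc'.2 ⟨c, ⟨h0, hlt⟩, hc.1⟩
      conn := fun η η' h1 h2 h3 => by
        have hv : ∀ η, Valid E' η → Valid Y.E η := by
          rintro η (h | ⟨e, he, h⟩)
          · exact Or.inl h
          · exact Or.inr ⟨e, he.1, h⟩
        exact Conn.map id (fun _ _ h => Conn.of_rel (rr_of _ _ h))
          (fun e he => (Conn.of_rel ((hq1 e he).rel false)).trans
            ((Conn.edge _ (hE' e he) false true).trans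
              (Conn.of_rel ((hq1 e he).rel true)).symm))
          (Y.conn η η' (hv _ h1) (hv _ h2) h3)
      gen := by
        refine ⟨fun s => Finsupp.lmapDomain ℤ ℤ q (a s), ha.mapDomain μ hqo,
          hgen.transfer (Finsupp.lmapDomain ℤ ℤ q) ?_ ?_⟩
        · intro c hc
          obtain ⟨c', hc', h0⟩ := hrep c hc
          refine Submodule.subset_span ⟨c', hc', ?_⟩
          simp only [cbd, map_sum, lmapDomain_apply, mapDomain_single]
          exact Finset.sum_congr rfl fun k _ => by rw [hall c' hc'.1 c hc 0 h0 k]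
        · intro ξ' hs hz
          obtain ⟨z, hz1, _, ⟨k, hk, rfl⟩, hzk⟩ := Submodule.mem_sup.1 (zs_le hq hz)
          have hk1 : k ∈ Finsupp.supported ℤ ℤ Y.E := by
            refine Submodule.span_le.2 ?_ hk
            rintro _ ⟨e, he, rfl⟩
            exact Submodule.sub_mem _ (single_mem_supported ℤ 1 he)
              (single_mem_supported ℤ 1 (hqE e he))
          have hk2 : k ∈ LinearMap.ker (Finsupp.lmapDomain ℤ ℤ q) := by
            refine Submodule.span_le.2 ?_ hk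
            rintro _ ⟨e, he, rfl⟩
            simp only [SetLike.mem_coe, LinearMap.mem_ker, map_sub, lmapDomain_apply,
              mapDomain_single, hqq e he, sub_self]
          refine ⟨ξ' - k, fun e he => ?_, ?_, ?_⟩
          · by_contra hne
            have h1 : ξ' e = 0 := by_contra fun h => hne (hs e h).1
            have h2 : k e = 0 := (mem_supported' ℤ k).1 hk1 e hne
            simp [h1, h2] at he
          · rw [map_sub, ← hzk]
            simpa using hz1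
          · have h1 : Finsupp.lmapDomain ℤ ℤ q ξ' = ξ' := by
              rw [lmapDomain_apply, mapDomain_congr (g := id), mapDomain_id]
              exact fun e he => (hs e (Finsupp.mem_support_iff.1 he)).2
            rw [map_sub, h1, LinearMap.mem_ker.1 hk2]
            simp }
  refine ⟨Y', ?_, ⟨q, fun e he => ⟨hE' e he, hqp e he, (hq1 e he).rel⟩,
    fun η η' _ _ h => rr_of _ _ h⟩, ?_, measure_mono fun c hc => hc.1⟩
  · intro e he e' he' b hp h
    rw [← he.2, ← he'.2]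
    exact hq _ _ (sim_of he.1 he'.1 hp h)
  · have h1 : nu μ ℕ (Y.C \ C') ≤ nu μ ℕ (Y.E \ E') := by
      refine nu_le_of_injOn μ (Y.ed_om 0) (Y.mC.diff mC') (Y.mE.diff mE') ?_
        fun c hc c' hc' e => Y.ed_inj c hc.1 c' hc'.1 0 e
      intro c hc
      refine ⟨Y.ed_mem c hc.1 0, fun he => hc.2 ⟨hc.1, ?_⟩⟩
      rintro ⟨c', ⟨h3, h4⟩, h5⟩
      have := hq2 _ _ (hqs _ (Y.ed_mem c hc.1 0) _ (Y.ed_mem c' h5 0) h3.symm)
      rw [he.2] at this
      exact absurd h4 (not_lt.2 this)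
    have h2 : nu μ ℕ E' + nu μ ℕ (Y.E \ E') = nu μ ℕ Y.E := by
      rw [← measure_union disjoint_sdiff_right (Y.mE.diff mE'),
        union_sdiff_cancel fun e he => he.1]
    have h3 : nu μ ℕ C' + nu μ ℕ (Y.C \ C') = nu μ ℕ Y.C := by
      rw [← measure_union disjoint_sdiff_right (Y.mC.diff mC'),
        union_sdiff_cancel fun e he => he.1]
    have f1 := Y.nuE_ne_top μ
    have f2 := Y.nuC_ne_top μ
    rw [← h2] at f1
    rw [← h3] at f2
    have g1 := ENNReal.add_ne_top.1 f1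
    have g2 := ENNReal.add_ne_top.1 f2
    show (nu μ ℕ E').toReal - (nu μ ℕ C').toReal ≤ (nu μ ℕ Y.E).toReal - (nu μ ℕ Y.C).toReal
    rw [← h2, ← h3, ENNReal.toReal_add g1.1 g1.2, ENNReal.toReal_add g2.1 g2.2]
    linarith [ENNReal.toReal_mono g1.2 h1]

end Crest.Agent.R191
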