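import Mathlib
import Crest.Agent.R191.Defs

/-! The Greendlinger type property at the level of the free group, via an action on a tree. -/

set_option autoImplicit false

namespace Crest.Agent.R191

namespace GLT

/-- Nodes of the tree: reduced words in 100 involutions. -/
def Node : Type := {l : List (ZMod 100) // l.IsChain (· ≠ ·)}

def root : Node := ⟨[], List.isChain_nil⟩

def sF (k : ZMod 100) (n : Node) : Node :=
  if h : n.1.head? = some k then ⟨n.1.tail, n.2.tail⟩
  else ⟨k :: n.1, n.2.cons (fun y hy hky => h (by rw [hky]; exact hy))⟩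

theorem sF_val_of_ne {k : ZMod 100} {n : Node} (h : n.1.head? ≠ some k) :
    (sF k n).1 = k :: n.1 := by
  unfold sF; rw [dif_neg h]

theorem sF_val_of_eq {k : ZMod 100} {n : Node} (h : n.1.head? = some k) :
    (sF k n).1 = n.1.tail := by
  unfold sF; rw [dif_pos h]

theorem sF_invol (k : ZMod 100) : Function.Involutive (sF k) := by
  intro n
  apply Subtype.ext
  by_cases h : n.1.head? = some k
  · obtain ⟨l, hl⟩ := n
    match l, hl, h with
    | [], _, h => simp at h
    | a :: l, hl, h =>
      have ha : a = k := by simpa using h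
      subst ha
      have h1 : (sF a ⟨a :: l, hl⟩).1 = l := sF_val_of_eq h
      have h2 : (sF a ⟨a :: l, hl⟩).1.head? ≠ some a := by
        rw [h1]
        intro h3
        exact (List.isChain_cons.1 hl).1 a h3 rfl
      rw [sF_val_of_ne h2, h1]
  · have h1 : (sF k n).1 = k :: n.1 := sF_val_of_ne h
    have h2 : (sF k n).1.head? = some k := by rw [h1]; rfl
    rw [sF_val_of_eq h2, h1]; rfl

def sP (k : ZMod 100) : Equiv.Perm Node := (sF_invol k).toPerm

theorem sP_mul_self (k : ZMod 100) : sP k * sP k = 1 := by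
  ext n; exact sF_invol k n

theorem sP_apply (k : ZMod 100) (n : Node) : sP k n = sF k n := rfl

noncomputable def rho : FG →* Equiv.Perm Node := FreeGroup.lift (fun i : Idx => sP i.1 * sP 0)

theorem rho_vG (k : ZMod 100) : rho (vG k) = sP k * sP 0 := by
  unfold vG
  split_ifs with h
  · subst h; rw [map_one, sP_mul_self]
  · simp [rho]

def sg (e : Bool) : ZMod 100 := if e then 1 else -1

theorem sg_not (e : Bool) : sg (!e) = - sg e := by cases e <;> simp [sg]

/-- the letter of sign `e` leaving from index `f` -/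
def lt (e : Bool) (f : ZMod 100) : FG := vG (f + sg e) * (vG f)⁻¹

theorem rho_lt (e : Bool) (f : ZMod 100) (n : Node) :
    rho (lt e f) n = sF (f + sg e) (sF f n) := by
  have h : rho (lt e f) = sP (f + sg e) * sP f := by
    unfold lt
    rw [map_mul, map_inv, rho_vG, rho_vG, mul_inv_rev,
      inv_eq_of_mul_eq_one_right (sP_mul_self 0), inv_eq_of_mul_eq_one_right (sP_mul_self f),
      mul_assoc, ← mul_assoc (sP 0), sP_mul_self, one_mul]
  rw [h]; rfl

theorem lt_cancel (e : Bool) (f : ZMod 100) : lt (!e) (f + sg e) * lt e f = 1 := by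
  unfold lt
  rw [sg_not]
  have : f + sg e + - sg e = f := by ring
  rw [this]; group

theorem aG_eq (i : ZMod 100) : aG i = lt true (i - 1) := by
  unfold aG lt sg; simp

theorem aG_inv_eq (i : ZMod 100) : (aG i)⁻¹ = lt false i := by
  unfold aG lt sg; simp [sub_eq_add_neg]

/-- nonempty reduced alternating words: first sign, first index, last sign, final index, product -/
inductive Seg (e : Bool) (f : ZMod 100) : Bool → ZMod 100 → FG → Prop
  | one : Seg e f e (f + sg e) (lt e f)
  | snoc (e' : Bool) (q f' : ZMod 100) (g : FG) : Seg e f e' q g → f' ≠ q →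
      Seg e f (!e') (f' + sg (!e')) (lt (!e') f' * g)

def Tr (e e' : Bool) (g : FG) : Prop := (g = 1 ∧ e' = !e) ∨ ∃ f q, Seg e f e' q g

theorem Tr.step {e e' : Bool} {g : FG} (h : Tr e e' g) (f' : ZMod 100) :
    Tr e (!e') (lt (!e') f' * g) := by
  rcases h with ⟨rfl, rfl⟩ | ⟨f, q, h⟩
  · right
    refine ⟨f', f' + sg e, ?_⟩
    rw [Bool.not_not, mul_one]
    exact Seg.one
  · by_cases hf : f' = q
    · subst hf
      cases h with
      | one => left; exact ⟨lt_cancel _ _, rfl⟩
      | snoc e'' q0 f'' g0 h0 hne =>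
        right
        refine ⟨f, q0, ?_⟩
        rw [← mul_assoc, lt_cancel, one_mul, Bool.not_not]
        exact h0
    · right
      exact ⟨f, _, Seg.snoc e' q f' g h hf⟩

theorem Tr.pair {e : Bool} {g : FG} (h : Tr e true g) (i j : ZMod 100) :
    Tr e true (aG i * (aG j)⁻¹ * g) := by
  have h1 := (h.step j).step (i - 1)
  simp only [Bool.not_true, Bool.not_false] at h1
  rw [aG_inv_eq, aG_eq i, mul_assoc]
  exact h1

theorem Tr.mulCG {e : Bool} {g c : FG} (h : Tr e true g) (hc : c ∈ CG) : Tr e true (c * g) := by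
  unfold CG at hc
  induction hc using Subgroup.closure_induction_left with
  | one => simpa using h
  | mul_left x hx y hy ih =>
    obtain ⟨i, j, rfl⟩ := hx
    rw [mul_assoc]
    exact ih.pair i j
  | inv_mul_cancel x hx y hy ih =>
    obtain ⟨i, j, rfl⟩ := hx
    rw [mul_assoc, mul_inv_rev, inv_inv]
    exact ih.pair j i

theorem tr_of_mem (e e' : Bool) {c : FG} (hc : c ∈ CG) :
    Tr e e' ((if e' then 1 else (aG 1)⁻¹) * c * (if e then aG 1 else 1)) := by
  have h0 : Tr e true (if e then aG 1 else 1) := by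
    cases e
    · left; simp
    · right
      refine ⟨1 - 1, 1 - 1 + sg true, ?_⟩
      rw [if_pos rfl, aG_eq]
      exact Seg.one
  have h1 := h0.mulCG hc
  cases e'
  · have h2 := h1.step 1
    simp only [Bool.not_true] at h2
    rw [← aG_inv_eq, ← mul_assoc] at h2
    simpa using h2
  · simpa using h1

/-- the shape of a node after a run of `r` letters of sign `e` ending at the index `q` -/
def Good (n : Node) (e : Bool) (q : ZMod 100) (r : ℕ) : Prop :=
  ∃ rest, n.1 = q :: (q - (r : ZMod 100) * sg e) :: rest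

theorem sg_ne_zero (e : Bool) : sg e ≠ 0 := by cases e <;> decide

theorem good_of_ne {n : Node} (e : Bool) {f : ZMod 100} (h : n.1.head? ≠ some f) :
    Good (rho (lt e f) n) e (f + sg e) 1 := by
  rw [rho_lt]
  have h1 : (sF f n).1 = f :: n.1 := sF_val_of_ne h
  have h2 : (sF f n).1.head? ≠ some (f + sg e) := by
    rw [h1]
    intro h3
    have : f = f + sg e := by simpa using h3
    exact sg_ne_zero e (by linear_combination -this)
  refine ⟨n.1, ?_⟩
  rw [sF_val_of_ne h2, h1]
  simp

theorem mul_sg_ne (e : Bool) (r : ℕ) (hr : r ≤ 98) : ((r + 1 : ℕ) : ZMod 100) * sg e ≠ 0 := by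
  have h : ((r + 1 : ℕ) : ZMod 100) ≠ 0 := by
    intro h
    rw [ZMod.natCast_eq_zero_iff] at h
    have := Nat.le_of_dvd (by omega) h
    omega
  cases e
  · have : sg false = -1 := rfl
    rw [this, mul_neg_one]; exact neg_ne_zero.2 h
  · have : sg true = 1 := rfl
    rw [this, mul_one]; exact h

theorem good_succ {n : Node} {e : Bool} {q : ZMod 100} {r : ℕ} (hr : r ≤ 98) (h : Good n e q r) :
    Good (rho (lt e q) n) e (q + sg e) (r + 1) := by
  obtain ⟨rest, hn⟩ := h
  rw [rho_lt]
  have h1 : (sF q n).1 = (q - (r : ZMod 100) * sg e) :: rest := by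
    rw [sF_val_of_eq (by rw [hn]; rfl), hn]; rfl
  have h2 : (sF q n).1.head? ≠ some (q + sg e) := by
    rw [h1]
    intro h3
    have h4 : q - (r : ZMod 100) * sg e = q + sg e := by simpa using h3
    apply mul_sg_ne e r hr
    push_cast
    linear_combination -h4
  refine ⟨rest, ?_⟩
  rw [sF_val_of_ne h2, h1]
  congr 2
  push_cast
  ring

theorem Good.head {n : Node} {e : Bool} {q : ZMod 100} {r : ℕ} (h : Good n e q r) :
    n.1.head? = some q := by
  obtain ⟨rest, hn⟩ := h
  rw [hn]; rfl

theorem Seg.act {e e' : Bool} {f q : ZMod 100} {g : FG} (h : Seg e f e' q g) (n : Node) (r : ℕ)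
    (hn : Good (rho (lt e f) n) e (f + sg e) r) :
    (g = lt e f ∧ e' = e ∧ q = f + sg e) ∨ Good (rho g n) e' q 1 := by
  induction h with
  | one => left; exact ⟨rfl, rfl, rfl⟩
  | snoc e'' q0 f' g0 h0 hne ih =>
    right
    have hh : (rho g0 n).1.head? = some q0 := by
      rcases ih with ⟨rfl, rfl, rfl⟩ | ih
      · exact hn.head
      · exact ih.head
    rw [map_mul, Equiv.Perm.mul_apply]
    apply good_of_ne
    rw [hh]
    intro h
    exact hne (Option.some.inj h).symm

theorem Seg.act_root {e e' : Bool} {f q : ZMod 100} {g : FG} (h : Seg e f e' q g) :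
    Good (rho g root) e' q 1 := by
  have h1 : Good (rho (lt e f) root) e (f + sg e) 1 := good_of_ne e (by simp [root])
  rcases h.act root 1 h1 with ⟨rfl, rfl, rfl⟩ | h2
  · exact h1
  · exact h2

theorem Seg.act_good {e e' : Bool} {f q' q : ZMod 100} {g : FG} (h : Seg e f e' q' g) {n : Node}
    {r : ℕ} (hr : r ≤ 98) (hn : Good n e q r) :
    Good (rho g n) e' q' 1 ∨
      (g = lt e q ∧ e' = e ∧ q' = q + sg e ∧ Good (rho g n) e q' (r + 1)) := by
  by_cases hf : f = q
  · subst hf
    have h1 := good_succ hr hn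
    rcases h.act n _ h1 with ⟨rfl, rfl, rfl⟩ | h2
    · right; exact ⟨rfl, rfl, rfl, h1⟩
    · left; exact h2
  · left
    have h1 : Good (rho (lt e f) n) e (f + sg e) 1 := good_of_ne e (by
      rw [hn.head]; intro h; exact hf (Option.some.inj h).symm)
    rcases h.act n 1 h1 with ⟨rfl, rfl, rfl⟩ | h2
    · exact h1
    · exact h2

theorem not_good_root {e : Bool} {q : ZMod 100} {r : ℕ} : ¬ Good root e q r := by
  rintro ⟨rest, h⟩
  simp [root] at h

section path

variable {Γ X : Type} [Group Γ] [MulAction Γ X] (φ : FG →* Γ)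

theorem av_map (k : ZMod 100) : av (fun k => φ (vG k)) k = φ (aG k) := by
  simp [av, aG]

theorem tr_of_dadj {d d' : X × Bool} (h : DAdj (CG.map φ) (fun k => φ (vG k)) d d') :
    ∃ g, Tr d.2 d'.2 g ∧ d'.1 = φ g • d.1 := by
  obtain ⟨_, ⟨c, hc, rfl⟩, h⟩ := h
  refine ⟨_, tr_of_mem d.2 d'.2 hc, ?_⟩
  obtain ⟨y, e⟩ := d
  obtain ⟨y', e'⟩ := d'
  simp only [eloc, av_map] at h
  cases e <;> cases e' <;> simp [mul_smul] at h ⊢
  · rw [← h]; simp
  · exact h
  · rw [← h]; simp
  · exact h

/-- the invariant along the path -/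
def Inv (d : ℕ → X × Bool) (j : ℕ) : Prop :=
  ∃ G : FG, (d j).1 = φ G • (d 0).1 ∧
    ((j = 1 ∧ G = 1 ∧ d 1 = ((d 0).1, !(d 0).2)) ∨
      ∃ (q : ZMod 100) (r : ℕ) (σ : X), Good (rho G root) (d j).2 q r ∧ 1 ≤ r ∧ r ≤ j ∧
        ∀ l < r, d (j - l) = (φ (vG (q - (l : ZMod 100) * sg (d j).2)) • σ, (d j).2))

def Concl (k : ℕ) (d : ℕ → X × Bool) : Prop :=
  ∃ (j : ℕ) (p : ZMod 100) (ε : Bool) (σ : X), 1 ≤ j ∧ j + 98 ≤ k ∧
    ∀ l : ℕ, l ≤ 98 →
      d (j + l) = (φ (vG (if ε then p + 1 + (l : ZMod 100) else p - 1 - (l : ZMod 100))) • σ, ε)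

theorem concl_of_run {k j : ℕ} (hj : j ≤ k) {d : ℕ → X × Bool} {q : ZMod 100} {r : ℕ} {σ : X}
    {e : Bool} (hr : 99 ≤ r) (hrj : r ≤ j)
    (h : ∀ l < r, d (j - l) = (φ (vG (q - (l : ZMod 100) * sg e)) • σ, e)) : Concl φ k d := by
  refine ⟨j - 98, q - 99 * sg e, e, σ, by omega, by omega, fun l hl => ?_⟩
  have h1 := h (98 - l) (by omega)
  have h2 : j - (98 - l) = j - 98 + l := by omega
  rw [h2] at h1
  rw [h1]
  congr 4
  rw [Nat.cast_sub hl]
  cases e <;> simp [sg] <;> ring

theorem inv_of_one {d : ℕ → X × Bool} {j : ℕ} (hj : 1 ≤ j) {G : FG} {q : ZMod 100}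
    (hG : (d j).1 = φ G • (d 0).1) (h : Good (rho G root) (d j).2 q 1) : Inv φ d j := by
  refine ⟨G, hG, Or.inr ⟨q, 1, (φ (vG q))⁻¹ • (d j).1, h, le_rfl, hj, fun l hl => ?_⟩⟩
  have : l = 0 := by omega
  subst this
  simp

theorem gl_free (hφ : Function.Injective φ) (hfree : ∀ (g : Γ) (x : X), g • x = x → g = 1) :
    GLProp (CG.map φ) (fun k => φ (vG k)) X := by
  intro k d hadj hcl hnb
  have hone : ∀ G : FG, (d 0).1 = φ G • (d 0).1 → G = 1 := fun G h =>
    hφ (by rw [map_one]; exact hfree _ _ h.symm)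
  by_contra hcon
  rw [not_or] at hcon
  obtain ⟨hc1, hc2⟩ := hcon
  have hc2' : ¬ Concl φ k d := hc2
  have key : ∀ j, 1 ≤ j → j ≤ k → Inv φ d j := by
    intro j hj
    induction j, hj using Nat.le_induction with
    | base =>
      intro hk
      obtain ⟨g, hg, hy⟩ := tr_of_dadj φ (hadj 0 (by omega))
      rcases hg with ⟨rfl, he⟩ | ⟨f, q, hs⟩
      · refine ⟨1, hy, Or.inl ⟨rfl, rfl, ?_⟩⟩
        apply Prod.ext
        · simpa using hy
        · exact he
      · exact inv_of_one φ le_rfl hy hs.act_root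
    | succ j hj ih =>
      intro hk
      obtain ⟨G, hG, hI⟩ := ih (by omega)
      obtain ⟨g, hg, hy⟩ := tr_of_dadj φ (hadj j (by omega))
      have hy' : (d (j + 1)).1 = φ (g * G) • (d 0).1 := by rw [hy, hG, map_mul, mul_smul]
      rcases hg with ⟨rfl, he⟩ | ⟨f, q', hs⟩
      · exfalso
        apply hnb j hj (by omega)
        apply Prod.ext
        · simpa using hy
        · exact he
      · rcases hI with ⟨-, rfl, -⟩ | ⟨q, r, σ, hgood, hr1, hrj, hrun⟩
        · refine inv_of_one φ (by omega) hy' (q := q') ?_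
          rw [mul_one]; exact hs.act_root
        · have hr : r ≤ 98 := by
            by_contra hr
            exact hc2' (concl_of_run φ (by omega : j ≤ k) (by omega) hrj hrun)
          rcases hs.act_good hr hgood with h1 | ⟨hg, he, hq, h1⟩
          · refine inv_of_one φ (by omega) hy' (q := q') ?_
            rw [map_mul]; exact h1
          · refine ⟨g * G, hy', Or.inr ⟨q', r + 1, σ, ?_, by omega, by omega, fun l hl => ?_⟩⟩
            · rw [map_mul, he]; exact h1
            · rw [he]
              rcases l with _ | l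
              · have h0 := hrun 0 (by omega)
                simp only [Nat.sub_zero, Nat.cast_zero, zero_mul, sub_zero] at h0 ⊢
                apply Prod.ext
                · have h00 : (d j).1 = φ (vG q) • σ := congrArg Prod.fst h0
                  simp only
                  rw [hy, h00, hg, hq, ← mul_smul, ← map_mul]
                  simp [lt]
                · exact he
              · have h0 := hrun l (by omega)
                have h2 : j + 1 - (l + 1) = j - l := by omega
                rw [h2, h0, hq]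
                congr 4
                push_cast
                ring
  obtain ⟨g, hg, hy⟩ := tr_of_dadj φ hcl
  rcases Nat.eq_zero_or_pos k with rfl | hk
  · have := hone g hy
    subst this
    rcases hg with ⟨-, he⟩ | ⟨f, q, hs⟩
    · simp at he
    · have := hs.act_root
      rw [map_one] at this
      exact not_good_root this
  · obtain ⟨G, hG, hI⟩ := key k hk le_rfl
    have hgG : g * G = 1 := hone _ (by rw [map_mul, mul_smul, ← hG]; exact hy)
    rcases hI with ⟨h1, -, h2⟩ | ⟨q, r, σ, hgood, hr1, hrj, hrun⟩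
    · exact hc1 ⟨h1, h2⟩
    · have hr : r ≤ 98 := by
        by_contra hr
        exact hc2' (concl_of_run φ le_rfl (by omega) hrj hrun)
      have hroot : rho g (rho G root) = root := by
        rw [← Equiv.Perm.mul_apply, ← map_mul, hgG, map_one]; rfl
      rcases hg with ⟨rfl, he⟩ | ⟨f, q', hs⟩
      · rw [map_one] at hroot
        have hroot' : rho G root = root := hroot
        rw [hroot'] at hgood
        exact not_good_root hgood
      · rcases hs.act_good hr hgood with h1 | ⟨-, -, -, h1⟩
        · rw [hroot] at h1; exact not_good_root h1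
        · rw [hroot] at h1; exact not_good_root h1

end path

end GLT

end Crest.Agent.R191
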