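import Mathlib
import Crest.Agent.R191.Defs

/-! Elementary facts about the group `Gam` of row 191. -/

set_option autoImplicit false

namespace Crest.Agent.R191

theorem av_vv (k : ZMod 100) : av vv k = HNNExtension.of (aG k) := by
  simp [av, vv, aG]

theorem vG_zero : vG 0 = 1 := by simp [vG]

theorem vv_zero : vv 0 = 1 := by simp [vv, vG_zero]

/-- Abelianisation used to separate the generators. -/
noncomputable def abG : FG →* Multiplicative (ZMod 100 → ℤ) :=
  FreeGroup.lift (fun i : Idx =>
    Multiplicative.ofAdd ((Pi.single i.1 1 : ZMod 100 → ℤ) - Pi.single 0 1))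

theorem abG_vG (k : ZMod 100) :
    abG (vG k) = Multiplicative.ofAdd ((Pi.single k 1 : ZMod 100 → ℤ) - Pi.single 0 1) := by
  unfold vG
  split_ifs with h
  · subst h; simp
  · simp [abG]

theorem vG_injective : Function.Injective vG := by
  intro i j h
  have h1 := congrArg abG h
  rw [abG_vG, abG_vG] at h1
  have h2 := Multiplicative.ofAdd.injective h1
  have h3 : (Pi.single i 1 : ZMod 100 → ℤ) = Pi.single j 1 := sub_left_injective h2
  have h4 := congrFun h3 i
  by_contra hne
  rw [Pi.single_eq_same, Pi.single_eq_of_ne hne] at h4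
  exact one_ne_zero h4

theorem aG_injective : Function.Injective aG := by
  intro i j h
  have h1 := congrArg abG h
  simp only [aG, map_mul, map_inv, abG_vG, ← ofAdd_neg, ← ofAdd_add] at h1
  have h2 := congrFun (Multiplicative.ofAdd.injective h1) i
  have hi : i ≠ i - 1 := by
    intro h'
    have : (1 : ZMod 100) = 0 := by linear_combination h'
    exact absurd this (by decide)
  by_contra hne
  simp only [Pi.add_apply, Pi.neg_apply, Pi.sub_apply, Pi.single_eq_same,
    Pi.single_eq_of_ne hi, Pi.single_eq_of_ne hne] at h2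
  by_cases h3 : i = j - 1
  · rw [← h3, Pi.single_eq_same] at h2; omega
  · rw [Pi.single_eq_of_ne h3] at h2; omega

theorem tt_mem : tt ∈ HH := Subgroup.subset_closure (Or.inl rfl)

theorem a_mem_HH (i j : ZMod 100) : av vv i * (av vv j)⁻¹ ∈ HH :=
  Subgroup.subset_closure (Or.inr ⟨i, j, rfl⟩)

theorem tt_comm_of {c : FG} (hc : c ∈ CG) : Commute tt (HNNExtension.of c : Gam) := by
  have := HNNExtension.t_mul_of (φ := MulEquiv.refl CG) ⟨c, hc⟩
  exact this

theorem a_mem_CG (i j : ZMod 100) : aG i * (aG j)⁻¹ ∈ CG := Subgroup.subset_closure ⟨i, j, rfl⟩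

theorem tt_comm (i j : ZMod 100) : Commute tt (av vv i * (av vv j)⁻¹) := by
  rw [av_vv, av_vv, ← map_inv, ← map_mul]
  exact tt_comm_of (a_mem_CG i j)

theorem of_mem_HH {c : FG} (hc : c ∈ CG) : (HNNExtension.of c : Gam) ∈ HH := by
  induction hc using Subgroup.closure_induction with
  | mem x hx =>
    obtain ⟨i, j, rfl⟩ := hx
    rw [map_mul, map_inv, ← av_vv, ← av_vv]
    exact a_mem_HH i j
  | one => rw [map_one]; exact HH.one_mem
  | mul x y _ _ hx hy => rw [map_mul]; exact HH.mul_mem hx hy
  | inv x _ hx => rw [map_inv]; exact HH.inv_mem hx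

theorem mem_HH {h : Gam} : h ∈ HH ↔ ∃ c ∈ CG, ∃ m : ℤ, h = HNNExtension.of c * tt ^ m := by
  constructor
  · intro hh
    induction hh using Subgroup.closure_induction with
    | mem x hx =>
      rcases hx with rfl | ⟨i, j, rfl⟩
      · exact ⟨1, CG.one_mem, 1, by simp⟩
      · exact ⟨_, a_mem_CG i j, 0, by simp [av_vv]⟩
    | one => exact ⟨1, CG.one_mem, 0, by simp⟩
    | mul x y _ _ hx hy =>
      obtain ⟨c, hc, m, rfl⟩ := hx
      obtain ⟨c', hc', m', rfl⟩ := hy
      refine ⟨c * c', CG.mul_mem hc hc', m + m', ?_⟩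
      have := ((tt_comm_of hc').zpow_left m).eq
      rw [map_mul, zpow_add, mul_assoc, ← mul_assoc (tt ^ m), this]
      simp only [mul_assoc]
    | inv x _ hx =>
      obtain ⟨c, hc, m, rfl⟩ := hx
      refine ⟨c⁻¹, CG.inv_mem hc, -m, ?_⟩
      have := ((tt_comm_of (CG.inv_mem hc)).zpow_left (-m)).eq
      rw [← this, mul_inv_rev, map_inv, zpow_neg]
  · rintro ⟨c, hc, m, rfl⟩
    exact HH.mul_mem (of_mem_HH hc) (HH.zpow_mem tt_mem m)

/-- A subgroup containing the stable letter and all `vv k` is everything. -/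
theorem eq_top_of_mem (S : Subgroup Gam) (ht : tt ∈ S) (hv : ∀ k, vv k ∈ S) : S = ⊤ := by
  have hof : ∀ g : FG, (HNNExtension.of g : Gam) ∈ S := by
    intro g
    induction g using FreeGroup.induction_on with
    | C1 => rw [map_one]; exact S.one_mem
    | of x =>
      have := hv x.1
      simpa [vv, vG, x.2] using this
    | inv_of x hx => rw [map_inv]; exact S.inv_mem hx
    | mul x y hx hy => rw [map_mul]; exact S.mul_mem hx hy
  rw [eq_top_iff]
  intro g _
  induction g using HNNExtension.induction_on with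
  | of g => exact hof g
  | t => exact ht
  | mul x y hx hy => exact S.mul_mem (hx trivial) (hy trivial)
  | inv x hx => exact S.inv_mem (hx trivial)

theorem gam_fg : Group.FG Gam := by
  refine Group.fg_iff.2 ⟨insert tt (Set.range vv), ?_, (Set.finite_range vv).insert _⟩
  exact eq_top_of_mem _ (Subgroup.subset_closure (Set.mem_insert _ _))
    (fun k => Subgroup.subset_closure (Set.mem_insert_of_mem _ ⟨k, rfl⟩))

instance : Countable Gam := by
  obtain ⟨α, _, f, hf⟩ := Group.fg_iff_exists_freeGroup_hom_surjective_finite.1 gam_fg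
  exact hf.countable

theorem gd_gam : GD HH vv where
  v0 := vv_zero
  v_inj := fun _ _ h => vG_injective (HNNExtension.of_injective _ h)
  a_inj := fun i j h => by
    rw [av_vv, av_vv] at h
    exact aG_injective (HNNExtension.of_injective _ h)
  a_mem := a_mem_HH
  gen := by
    set S := Subgroup.closure ((HH : Set Gam) ∪ {av vv 1}) with hS
    have h1 : av vv 1 ∈ S := Subgroup.subset_closure (Or.inr rfl)
    have ha : ∀ i, av vv i ∈ S := by
      intro i
      have h2 : av vv i * (av vv 1)⁻¹ ∈ S := Subgroup.subset_closure (Or.inl (a_mem_HH i 1))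
      simpa using S.mul_mem h2 h1
    have hn : ∀ n : ℕ, vv (n : ZMod 100) ∈ S := by
      intro n
      induction n with
      | zero => rw [Nat.cast_zero, vv_zero]; exact S.one_mem
      | succ n ih =>
        have : vv ((n + 1 : ℕ) : ZMod 100) = av vv ((n + 1 : ℕ) : ZMod 100) * vv n := by
          simp [av]
        rw [this]; exact S.mul_mem (ha _) ih
    refine eq_top_of_mem S (Subgroup.subset_closure (Or.inl tt_mem)) (fun k => ?_)
    rw [← ZMod.natCast_zmod_val k]; exact hn _

theorem exists_tdeg : ∃ φ : Gam →* Multiplicative ℤ, φ tt = Multiplicative.ofAdd 1 :=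
  ⟨HNNExtension.lift 1 (Multiplicative.ofAdd 1) (by intro a; simp), by simp [tt]⟩

theorem tt_zpow_inj : Function.Injective (fun k : ℤ => tt ^ k) := by
  obtain ⟨φ, hφ⟩ := exists_tdeg
  intro k l h
  have h1 := congrArg φ h
  simp only [map_zpow, hφ, ← ofAdd_zsmul, smul_eq_mul, mul_one] at h1
  exact Multiplicative.ofAdd.injective h1

theorem exists_level : ∃ φ : Gam →* Multiplicative ℤ, φ tt = 1 ∧
    ∀ k : ZMod 100, φ (vv k) = Multiplicative.ofAdd (k.val : ℤ) := by
  refine ⟨HNNExtension.lift (FreeGroup.lift fun i : Idx => Multiplicative.ofAdd (i.1.val : ℤ)) 1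
    (by intro a; simp), by simp [tt], fun k => ?_⟩
  unfold vv vG
  split_ifs with h
  · subst h; simp
  · rw [HNNExtension.lift_of, FreeGroup.lift_apply_of]

instance : Infinite Gam := Infinite.of_injective _ tt_zpow_inj

end Crest.Agent.R191
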