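import Mathlib
import Crest.Agent.R191.Defs
import Crest.Agent.R191.Group
import Crest.Agent.R191.GLTree

/-! The Greendlinger type property for `Gam`: reduction to the free group by Britton's lemma. -/

set_option autoImplicit false

namespace Crest.Agent.R191

open HNNExtension HNNExtension.NormalWord

namespace GLB

abbrev RW : Type := ReducedWord FG CG CG

abbrev pr (w : RW) : Gam := w.prod (MulEquiv.refl CG)

/-- multiply a reduced word on the left by an element of the base group -/
def mulHead (g : FG) (w : RW) : RW := ⟨g * w.head, w.toList, w.chain⟩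

theorem pr_mulHead (g : FG) (w : RW) : pr (mulHead g w) = HNNExtension.of g * pr w := by
  simp [pr, mulHead, ReducedWord.prod, mul_assoc]

theorem toSub (u : ℤˣ) : toSubgroup CG CG u = CG := by
  unfold toSubgroup; split_ifs <;> rfl

theorem exists_pow_aux (u : ℤˣ) (n : ℕ) (w : RW) (hw : w.toList = [] ∨ w.head ∉ CG) :
    ∃ w' : RW, pr w' = (tt ^ (u : ℤ)) ^ (n + 1) * pr w ∧ w'.head = 1 ∧
      ∃ g, w'.toList.head? = some (u, g) := by
  induction n with
  | zero =>
    refine ⟨⟨1, (u, w.head) :: w.toList, w.chain.cons ?_⟩, ?_, rfl, w.head, rfl⟩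
    · intro y hy hmem
      rcases hw with hw | hw
      · rw [hw] at hy; simp at hy
      · rw [toSub] at hmem; exact absurd hmem hw
    · simp [pr, ReducedWord.prod, tt, mul_assoc]
  | succ n ih =>
    obtain ⟨w1, h1, h2, g, h3⟩ := ih
    refine ⟨⟨1, (u, w1.head) :: w1.toList, w1.chain.cons ?_⟩, ?_, rfl, w1.head, rfl⟩
    · intro y hy _
      rw [h3] at hy
      have : (u, g) = y := Option.some.inj hy
      rw [← this]
    · rw [pow_succ' _ (n + 1), mul_assoc, ← h1]
      simp [pr, ReducedWord.prod, tt, mul_assoc]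

theorem exists_zpow {m : ℤ} (hm : m ≠ 0) (w : RW) (hw : w.toList = [] ∨ w.head ∉ CG) :
    ∃ w' : RW, pr w' = tt ^ m * pr w ∧ w'.head = 1 ∧ w'.toList ≠ [] := by
  have key : ∃ (u : ℤˣ) (n : ℕ), m = (u : ℤ) * ((n + 1 : ℕ) : ℤ) := by
    rcases lt_or_gt_of_ne hm with h | h
    · exact ⟨-1, (-m - 1).toNat, by simp; omega⟩
    · exact ⟨1, (m - 1).toNat, by simp; omega⟩
  obtain ⟨u, n, rfl⟩ := key
  obtain ⟨w', h1, h2, g, h3⟩ := exists_pow_aux u n w hw
  refine ⟨w', ?_, h2, ?_⟩
  · rw [h1, zpow_mul, zpow_natCast]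
  · intro h; rw [h] at h3; simp at h3

variable {X : Type} [MulAction Gam X]

/-- start and end of a directed edge -/
def st (d : X × Bool) : X := eloc vv d.1 (!d.2)

def en (d : X × Bool) : X := eloc vv d.1 d.2

theorem exists_cross (d : X × Bool) : ∃ b : FG, en d = (HNNExtension.of b : Gam) • st d := by
  obtain ⟨y, e⟩ := d
  cases e
  · refine ⟨(aG 1)⁻¹, ?_⟩
    simp [en, st, eloc, av_vv]
  · refine ⟨aG 1, ?_⟩
    simp [en, st, eloc, av_vv]

abbrev CC : Subgroup Gam := CG.map (HNNExtension.of : FG →* Gam)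

def Concl (k : ℕ) (d : ℕ → X × Bool) : Prop :=
  ∃ (j : ℕ) (p : ZMod 100) (ε : Bool) (σ : X), 1 ≤ j ∧ j + 98 ≤ k ∧
    ∀ l : ℕ, l ≤ 98 →
      d (j + l) = (vv (if ε then p + 1 + (l : ZMod 100) else p - 1 - (l : ZMod 100)) • σ, ε)

/-- the invariant: `x` is the current point, reached before the edge number `j` -/
def Inv (d : ℕ → X × Bool) (j : ℕ) (x : X) : Prop :=
  ∃ (w : RW) (i : ℕ), x = pr w • st (d 0) ∧ i ≤ j ∧ x = (HNNExtension.of w.head : Gam) • st (d i) ∧
    (∀ l, i ≤ l → l < j → DAdj CC vv (d l) (d (l + 1))) ∧ (w.toList = [] → i = 0) ∧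
    (w.toList ≠ [] → 1 ≤ i)

end GLB

open GLB in
theorem glProp (X : Type) [MulAction Gam X] (hfree : ∀ (g : Gam) (x : X), g • x = x → g = 1) :
    GLProp HH vv X := by
  have hfr : GLProp CC vv X :=
    GLT.gl_free (HNNExtension.of : FG →* Gam) (HNNExtension.of_injective _) hfree
  intro k d hadj hcl hnb
  by_contra hcon
  rw [not_or] at hcon
  obtain ⟨hc1, hc2⟩ := hcon
  -- closed sub-runs are impossible
  have hsub : ∀ i j, 1 ≤ i → i ≤ j → j ≤ k → (∀ l, i ≤ l → l < j → DAdj CC vv (d l) (d (l + 1))) →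
      ¬ DAdj CC vv (d j) (d i) := by
    intro i j hi hij hjk hl hji
    have h := hfr (j - i) (fun l => d (i + l))
      (fun l hl' => hl (i + l) (by omega) (by omega))
      (by
        have : i + (j - i) = j := by omega
        simpa [this] using hji)
      (fun l h1 h2 => hnb (i + l) (by omega) (by omega))
    rcases h with ⟨h1, h2⟩ | ⟨j0, p, ε, σ, h1, h2, h3⟩
    · exact hnb i hi (by omega) h2
    · refine hc2 ⟨i + j0, p, ε, σ, by omega, by omega, fun l hl => ?_⟩
      rw [add_assoc]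
      exact h3 l hl
  -- one transition
  have hstep : ∀ j, j ≤ k → ∀ d' : X × Bool, DAdj HH vv (d j) d' → Inv d j (st (d j)) →
      (∃ (w : RW) (i : ℕ), st d' = pr w • st (d 0) ∧ i ≤ j ∧
        st d' = (HNNExtension.of w.head : Gam) • st (d i) ∧
        (∀ l, i ≤ l → l < j → DAdj CC vv (d l) (d (l + 1))) ∧ (w.toList = [] → i = 0) ∧
        (w.toList ≠ [] → 1 ≤ i) ∧ DAdj CC vv (d j) d') ∨
      (∃ w : RW, st d' = pr w • st (d 0) ∧ w.head = 1 ∧ w.toList ≠ []) := by
    intro j hj d' hd' hI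
    obtain ⟨w, i, hw, hij, hwi, hl, h0, h1⟩ := hI
    obtain ⟨h, hh, he⟩ := hd'
    obtain ⟨c, hc, m, rfl⟩ := mem_HH.1 hh
    obtain ⟨b, hb⟩ := exists_cross (d j)
    have he' : st d' = (HNNExtension.of c * tt ^ m : Gam) • en (d j) := he
    by_cases hm : m = 0
    · left
      subst hm
      rw [zpow_zero, mul_one] at he'
      refine ⟨mulHead (c * b) w, i, ?_, hij, ?_, hl, h0, h1, ⟨_, ⟨c, hc, rfl⟩, he'⟩⟩
      · rw [pr_mulHead, he', hb, hw, map_mul, mul_smul, mul_smul]
      · rw [he', hb, hwi]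
        simp [mulHead, mul_smul]
    · right
      have hw1 : (mulHead b w).toList = [] ∨ (mulHead b w).head ∉ CG := by
        by_contra hcon
        rw [not_or, not_not] at hcon
        obtain ⟨hne, hmem⟩ := hcon
        apply hsub i j (h1 hne) hij hj hl
        refine ⟨_, ⟨_, CG.inv_mem hmem, rfl⟩, ?_⟩
        show st (d i) = _ • en (d j)
        rw [hb, hwi]
        simp [mulHead, mul_smul]
      have hw2 : (mulHead c (mulHead b w)).toList = [] ∨ (mulHead c (mulHead b w)).head ∉ CG := by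
        rcases hw1 with h | h
        · left; exact h
        · right
          intro h'
          exact h ((CG.mul_mem_cancel_left hc).1 h')
      obtain ⟨w', h2, h3, h4⟩ := exists_zpow hm _ hw2
      refine ⟨w', ?_, h3, h4⟩
      rw [h2, pr_mulHead, pr_mulHead, he', hb, hw, ← ((tt_comm_of hc).zpow_left m).eq]
      simp only [mul_smul]
  have key : ∀ j, j ≤ k → Inv d j (st (d j)) := by
    intro j
    induction j with
    | zero =>
      intro _
      refine ⟨ReducedWord.empty _ _ _, 0, ?_, le_rfl, ?_, fun l _ hl => absurd hl (by omega),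
        fun _ => rfl, fun h => absurd rfl h⟩
      · simp [pr, ReducedWord.prod]
      · simp
    | succ j ih =>
      intro hj
      rcases hstep j (by omega) (d (j + 1)) (hadj j (by omega)) (ih (by omega)) with
        ⟨w, i, h1, h2, h3, h4, h5, h6, h7⟩ | ⟨w, h1, h2, h3⟩
      · refine ⟨w, i, h1, by omega, h3, fun l hl1 hl2 => ?_, h5, h6⟩
        rcases Nat.lt_succ_iff_lt_or_eq.1 hl2 with h | rfl
        · exact h4 l hl1 h
        · exact h7
      · refine ⟨w, j + 1, h1, le_rfl, ?_, fun l hl1 hl2 => absurd hl2 (by omega),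
          fun h => absurd h h3, fun _ => by omega⟩
        rw [h2, map_one, one_smul]
  have hbr : ∀ w : RW, st (d 0) = pr w • st (d 0) → w.toList = [] := by
    intro w hw
    have h1 : pr w = 1 := hfree _ _ hw.symm
    apply ReducedWord.toList_eq_nil_of_mem_of_range (MulEquiv.refl CG) w
    show pr w ∈ _
    rw [h1]; exact one_mem _
  rcases hstep k le_rfl (d 0) hcl (key k le_rfl) with
    ⟨w, i, h1, h2, h3, h4, h5, h6, h7⟩ | ⟨w, h1, h2, h3⟩
  · have hi : i = 0 := h5 (hbr w h1)
    subst hi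
    rcases hfr k d (fun l hl => h4 l (by omega) hl) h7 hnb with h | h
    · exact hc1 h
    · exact hc2 h
  · exact h3 (hbr w h1)

end Crest.Agent.R191
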