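import Crest.Agent.R191.StrDel

/-! Expansion for cells, by cutting a set of items into layers. -/

set_option autoImplicit false
set_option linter.unusedVariables false
set_option linter.unusedSectionVars false

namespace Crest.Agent.R191

open MeasureTheory Set
open scoped ENNReal

variable {Γ X : Type} [Group Γ] [Countable Γ] [MulAction Γ X] [MeasurableSpace X]
  {H : Subgroup Γ} {v : ZMod 100 → Γ} {K : ℕ} {S : Set (It X (Fin K))}

open Classical in
/-- the number of labels below `L` over the point `x` -/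
noncomputable def fibCnt (L : ℕ) (W : Set (It X ℕ)) (x : X) : ℕ :=
  ((Finset.range L).filter fun i => (⟨x, i⟩ : It X ℕ) ∈ W).card

theorem measurable_fibCnt (L : ℕ) {W : Set (It X ℕ)} (hW : MeasurableSet W) :
    Measurable (fibCnt L W) := by
  classical
  unfold fibCnt
  simp only [Finset.card_filter]
  exact Finset.measurable_sum _ fun i _ =>
    Measurable.ite (It.slice hW i) measurable_const measurable_const

theorem measurableSet_lay (L : ℕ) {W : Set (It X ℕ)} (hW : MeasurableSet W) (s : ℕ) :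
    MeasurableSet {x | s < fibCnt L W x} :=
  measurable_fibCnt L hW (show MeasurableSet {n : ℕ | s < n} from MeasurableSet.of_discrete)

theorem tsum_measure_eq_lintegral (μ : Measure X) {A : ℕ → Set X} (hA : ∀ i, MeasurableSet (A i)) :
    ∑' i, μ (A i) = ∫⁻ x, ∑' i, (A i).indicator 1 x ∂μ := by
  rw [lintegral_tsum fun i => (measurable_one.indicator (hA i)).aemeasurable]
  simp only [lintegral_indicator_one (hA _)]

theorem nu_eq_tsum_lay (μ : Measure X) (L : ℕ) {W : Set (It X ℕ)} (hW : MeasurableSet W)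
    (hL : ∀ e ∈ W, e.ix < L) : nu μ ℕ W = ∑' s, μ {x | s < fibCnt L W x} := by
  classical
  rw [nu_apply μ hW, tsum_measure_eq_lintegral μ (It.slice hW),
    tsum_measure_eq_lintegral μ (measurableSet_lay L hW)]
  congr 1
  funext x
  rw [tsum_eq_sum (s := Finset.range L), tsum_eq_sum (s := Finset.range (fibCnt L W x))]
  · have e1 : ∑ s ∈ Finset.range (fibCnt L W x),
        ({x | s < fibCnt L W x} : Set X).indicator (1 : X → ℝ≥0∞) x = fibCnt L W x := by
      rw [Finset.sum_congr rfl (g := fun _ => 1)]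
      · simp
      · intro s hs
        rw [indicator_of_mem (show x ∈ {x | s < fibCnt L W x} from Finset.mem_range.1 hs)]
        rfl
    rw [e1, fibCnt, Finset.card_filter]
    push_cast
    refine Finset.sum_congr rfl fun i _ => ?_
    by_cases h : (⟨x, i⟩ : It X ℕ) ∈ W <;> simp [h]
  · intro s hs
    have : x ∉ {x | s < fibCnt L W x} := fun h => hs (Finset.mem_range.2 h)
    exact indicator_of_notMem this _
  · intro i hi
    have : x ∉ {x | (⟨x, i⟩ : It X ℕ) ∈ W} := fun h => hi (Finset.mem_range.2 (hL ⟨x, i⟩ h))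
    exact indicator_of_notMem this _

variable (μ : Measure X) [IsProbabilityMeasure μ] [FPA Γ μ]

include μ in
theorem Str.measurableSet_EC (Y : Str H v S) : MeasurableSet Y.EC := by
  have : Y.EC = ⋃ k, (fun c => Y.ed c k) '' Y.C := by
    ext e
    simp only [Str.EC, mem_ofPred_eq, mem_iUnion, mem_image]
    exact ⟨fun ⟨c, hc, k, e⟩ => ⟨k, c, hc, e.symm⟩, fun ⟨k, c, hc, e⟩ => ⟨c, hc, k, e.symm⟩⟩
  rw [this]
  exact MeasurableSet.iUnion fun k => (Y.ed_om k).measurableSet_image μ Y.mC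

theorem Str.fibCnt_le (Y : Str H v S) (σ : X) (k : ZMod 100) :
    fibCnt Y.L Y.C σ ≤ fibCnt Y.L Y.EC (v k • σ) := by
  classical
  unfold fibCnt
  refine Finset.card_le_card_of_injOn (fun i => (Y.ed ⟨σ, i⟩ k).ix) ?_ ?_
  · intro i hi
    simp only [Finset.coe_filter, Finset.mem_range, mem_ofPred_eq] at hi ⊢
    refine ⟨Y.bE _ (Y.ed_mem _ hi.2 k), ⟨σ, i⟩, hi.2, k, ?_⟩
    exact It.ext (Y.ed_pt _ hi.2 k).symm rfl
  · intro i hi j hj e
    simp only [Finset.coe_filter, Finset.mem_range, mem_ofPred_eq] at hi hj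
    have := Y.ed_inj _ hi.2 _ hj.2 k
      (It.ext ((Y.ed_pt _ hi.2 k).trans (Y.ed_pt _ hj.2 k).symm) e)
    exact congrArg It.ix this

theorem Str.expand (hX : Expands v μ) (Y : Str H v S) (hF : nu μ ℕ Y.C ≤ 1 / 16) :
    6 * nu μ ℕ Y.C ≤ nu μ ℕ Y.EC := by
  have hC := nu_eq_tsum_lay μ Y.L Y.mC Y.bC
  have hE := nu_eq_tsum_lay μ Y.L (Y.measurableSet_EC μ) (by
    rintro _ ⟨c, hc, k, rfl⟩
    exact Y.bE _ (Y.ed_mem c hc k))
  rw [hE, hC, ← ENNReal.tsum_mul_left]
  refine ENNReal.tsum_le_tsum fun s => ?_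
  have h1 : μ {x | s < fibCnt Y.L Y.C x} ≤ 1 / 16 := by
    refine le_trans ?_ hF
    rw [hC]
    exact ENNReal.le_tsum (f := fun s => μ {x | s < fibCnt Y.L Y.C x}) s
  refine (hX _ (measurableSet_lay Y.L Y.mC s) h1).trans (measure_mono ?_)
  intro y hy
  simp only [mem_iUnion, mem_image, mem_ofPred_eq] at hy ⊢
  obtain ⟨k, σ, hσ, rfl⟩ := hy
  exact hσ.trans_le (Y.fibCnt_le σ k)

end Crest.Agent.R191
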