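import Crest.Agent.R191.Acc
import Crest.Agent.R191.Del
import Crest.Agent.R191.Layer

/-! Counting ends: a structure with cells of measure 1/16 can be reduced by a fixed amount. -/

set_option autoImplicit false
set_option linter.unusedVariables false
set_option linter.unusedSectionVars false

namespace Crest.Agent.R191

open MeasureTheory Set
open scoped ENNReal

variable {Γ X : Type} [Group Γ] [Countable Γ] [MulAction Γ X] [MeasurableSpace X]
  [StandardBorelSpace X]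
  {H : Subgroup Γ} {v : ZMod 100 → Γ} {K : ℕ} {S : Set (It X (Fin K))}

/-- the vertex of `η` has at least `d` valid nodes -/
def Str.Big (Y : Str H v S) (d : ℕ) (η : It X JN) : Prop :=
  ∃ s : Finset (It X JN), s.card = d ∧ ∀ ζ ∈ s, Valid Y.E ζ ∧ Y.r η ζ

/-- ends of edges not in a base vertex -/
def Str.NB (Y : Str H v S) : Set (It X JN) := {η | Valid Y.E η ∧ ¬ ∃ x, Y.r η (bs x)}

theorem Str.Big.of_rel {Y : Str H v S} {d : ℕ} {η η' : It X JN} (h : Y.Big d η) (hr : Y.r η η') :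
    Y.Big d η' := by
  obtain ⟨s, h1, h2⟩ := h
  exact ⟨s, h1, fun ζ hζ => ⟨(h2 ζ hζ).1, Y.r_eqv.trans (Y.r_eqv.symm hr) (h2 ζ hζ).2⟩⟩

theorem Str.nb_of_rel {Y : Str H v S} {η η' : It X JN} (h : η ∈ Y.NB) (hv : Valid Y.E η')
    (hr : Y.r η η') : η' ∈ Y.NB :=
  ⟨hv, fun ⟨x, hx⟩ => h.2 ⟨x, Y.r_eqv.trans hr hx⟩⟩

theorem Str.Big.mono {Y : Str H v S} {d d' : ℕ} {η : It X JN} (h : Y.Big d η) (hd : d' ≤ d) :
    Y.Big d' η := by
  obtain ⟨s, h1, h2⟩ := h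
  obtain ⟨t, ht1, ht2⟩ := Finset.exists_subset_card_eq (s := s) (n := d') (by omega)
  exact ⟨t, ht2, fun ζ hζ => h2 ζ (ht1 hζ)⟩

theorem Str.big_two {Y : Str H v S} {η ζ : It X JN} (h1 : Valid Y.E η) (h2 : Valid Y.E ζ)
    (hr : Y.r η ζ) (hne : ζ ≠ η) : Y.Big 2 η := by
  classical
  refine ⟨{η, ζ}, Finset.card_pair hne.symm, fun ξ hξ => ?_⟩
  simp only [Finset.mem_insert, Finset.mem_singleton] at hξ
  rcases hξ with rfl | rfl
  · exact ⟨h1, Y.r_eqv.refl _⟩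
  · exact ⟨h2, hr⟩

theorem Str.big_three {Y : Str H v S} {η ζ ζ' : It X JN} (h1 : Valid Y.E η) (h2 : Valid Y.E ζ)
    (h3 : Valid Y.E ζ') (hr : Y.r η ζ) (hr' : Y.r η ζ') (n1 : ζ ≠ η) (n2 : ζ' ≠ η) (n3 : ζ' ≠ ζ) :
    Y.Big 3 η := by
  classical
  refine ⟨{η, ζ, ζ'}, Finset.card_eq_three.2 ⟨η, ζ, ζ', n1.symm, n2.symm, n3.symm, rfl⟩,
    fun ξ hξ => ?_⟩
  simp only [Finset.mem_insert, Finset.mem_singleton] at hξ
  rcases hξ with rfl | rfl | rfl
  · exact ⟨h1, Y.r_eqv.refl _⟩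
  · exact ⟨h2, hr⟩
  · exact ⟨h3, hr'⟩

variable (μ : Measure X) [IsProbabilityMeasure μ] [FPA Γ μ]

include μ in
theorem Str.measurableSet_big (Y : Str H v S) (d : ℕ) : MeasurableSet {η | Y.Big d η} := by
  classical
  have : {η | Y.Big d η} = ⋃ t : {t : Finset (Γ × JN) // t.card = d}, ⋂ p ∈ t.1,
      {η : It X JN | Y.r η ⟨p.1 • η.pt, p.2⟩ ∧
        (⟨p.1 • η.pt, p.2⟩ : It X JN) ∈ {ζ | Valid Y.E ζ}} := by
    ext η
    simp only [mem_ofPred_eq, mem_iUnion, mem_iInter]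
    constructor
    · rintro ⟨s, h1, h2⟩
      have hsub : (s : Set (It X JN)) ⊆
          range fun p : Γ × JN => (⟨p.1 • η.pt, p.2⟩ : It X JN) := by
        intro ζ hζ
        obtain ⟨g, hg⟩ := Y.r_om.orb _ _ (h2 ζ hζ).2
        exact ⟨(g, ζ.ix), It.ext hg.symm rfl⟩
      refine ⟨⟨s.preimage _ (relCh_inj μ η.pt).injOn, ?_⟩, fun p hp => ?_⟩
      · rw [Finset.card_preimage, ← h1]
        congr 1
        exact Finset.filter_true_of_mem fun ζ hζ => hsub hζ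
      · simp only [Finset.mem_preimage] at hp
        exact ⟨(h2 _ hp).2, (h2 _ hp).1⟩
    · rintro ⟨t, ht⟩
      refine ⟨t.1.image fun p => ⟨p.1 • η.pt, p.2⟩, ?_, fun ζ hζ => ?_⟩
      · rw [Finset.card_image_of_injective _ (relCh_inj μ η.pt), t.2]
      · obtain ⟨p, hp, rfl⟩ := Finset.mem_image.1 hζ
        exact ⟨(ht p hp).2, (ht p hp).1⟩
  rw [this]
  exact MeasurableSet.iUnion fun t => Finset.measurableSet_biInter _ fun p _ =>
    (Y.r_om.and_right μ (measurableSet_valid μ Y.mE)).meas p.1 p.2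

include μ in
theorem Str.measurableSet_based (Y : Str H v S) : MeasurableSet {η | ∃ x, Y.r η (bs x)} := by
  convert Y.r_om.measurableSet_ex_mem μ (It.measurableSet_ix (X := X) fun j : JN => j = none)
    using 1
  ext η
  simp only [mem_ofPred_eq]
  constructor
  · rintro ⟨x, hx⟩
    exact ⟨_, hx, rfl⟩
  · rintro ⟨⟨x, j⟩, hx, rfl⟩
    exact ⟨x, hx⟩

include μ in
theorem Str.measurableSet_NB (Y : Str H v S) : MeasurableSet Y.NB :=
  (measurableSet_valid μ Y.mE).inter (Y.measurableSet_based μ).compl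

/-- the set of ends of a set of edges -/
def ends (A : Set (It X ℕ)) : Set (It X JN) := {η | ∃ e ∈ A, ∃ b, η = en e b}

include μ Γ in
theorem measurableSet_ends {A : Set (It X ℕ)} (hA : MeasurableSet A) : MeasurableSet (ends A) := by
  convert ((om_en (Γ := Γ) μ false).measurableSet_image μ hA).union
    ((om_en (Γ := Γ) μ true).measurableSet_image μ hA) using 1
  ext η
  simp only [ends, mem_ofPred_eq, mem_union, mem_image, Bool.exists_bool]
  constructor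
  · rintro ⟨e, he, h | h⟩
    · exact Or.inl ⟨e, he, h.symm⟩
    · exact Or.inr ⟨e, he, h.symm⟩
  · rintro (⟨e, he, h⟩ | ⟨e, he, h⟩)
    · exact ⟨e, he, Or.inl h.symm⟩
    · exact ⟨e, he, Or.inr h.symm⟩

include Γ in
theorem nu_ends {A : Set (It X ℕ)} (hA : MeasurableSet A) :
    nu μ JN (ends A) = 2 * nu μ ℕ A := by
  apply le_antisymm
  · have := nu_le_mul_of_cover (Γ := Γ) μ (K := Bool) (R := fun b η e => η = en e b)
      (fun b => (om_en μ b).flip μ) (measurableSet_ends (Γ := Γ) μ hA) hA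
      (by rintro _ ⟨e, he, b, rfl⟩; exact ⟨b, e, he, rfl⟩)
      (fun b η₁ _ η₂ _ e _ h1 h2 => h1.trans h2.symm)
    simpa using this
  · have := mul_nu_le_of_inj (Γ := Γ) μ (K := Bool) (R := fun b e η => η = en e b)
      (fun b => om_en μ b) hA (measurableSet_ends (Γ := Γ) μ hA)
      (fun b e he => ⟨_, ⟨e, he, b, rfl⟩, rfl⟩)
      (fun b b' e _ e' _ η _ h1 h2 => (en_inj.1 (h1.symm.trans h2)).symm)
    simpa using this

/-- the count of branch ends -/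
theorem Str.count (mS : MeasurableSet S) (Y : Str H v S) (hX : Expands v μ)
    (hF : nu μ ℕ Y.C ≤ 1 / 16) :
    12 * nu μ ℕ Y.C ≤ 6 * nu μ (Fin K) S + 6 * nu μ ℕ Y.C +
      3 * (nu μ ℕ (Y.Leaf false) + nu μ ℕ (Y.Leaf true)) + 200 * nu μ ℕ Y.Coll := by
  have mNB := Y.measurableSet_NB μ
  have m2 := Y.measurableSet_big μ 2
  have m3 := Y.measurableSet_big μ 3
  set Bs : Set (It X JN) := ends Y.E ∩ {η | ∃ x, Y.r η (bs x)} with hBs
  set W1 : Set (It X JN) := Y.NB \ {η | Y.Big 2 η} with hW1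
  set W2 : Set (It X JN) := (Y.NB ∩ {η | Y.Big 2 η}) \ {η | Y.Big 3 η} with hW2
  set W3 : Set (It X JN) := Y.NB ∩ {η | Y.Big 3 η} with hW3
  have mBs : MeasurableSet Bs := (measurableSet_ends (Γ := Γ) μ Y.mE).inter (Y.measurableSet_based μ)
  have mW1 : MeasurableSet W1 := mNB.diff m2
  have mW2 : MeasurableSet W2 := (mNB.inter m2).diff m3
  have mW3 : MeasurableSet W3 := mNB.inter m3
  obtain ⟨Z2, hZ2, mZ2, cZ2, nZ2⟩ := exists_section μ 2 (by norm_num) Y.r_om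
    (fun a b => Y.r_eqv.symm) (fun a b c => Y.r_eqv.trans) mW2 (by
      rintro η ⟨⟨h1, s, h2, h3⟩, h4⟩
      refine ⟨s, h2, fun ζ hζ => ⟨⟨⟨Str.nb_of_rel h1 (h3 ζ hζ).1 (h3 ζ hζ).2, ?_⟩, ?_⟩,
        (h3 ζ hζ).2⟩⟩
      · exact Str.Big.of_rel ⟨s, h2, h3⟩ (h3 ζ hζ).2
      · exact fun h5 => h4 (Str.Big.of_rel h5 (Y.r_eqv.symm (h3 ζ hζ).2)))
  obtain ⟨Z3, hZ3, mZ3, cZ3, nZ3⟩ := exists_section μ 3 (by norm_num) Y.r_om
    (fun a b => Y.r_eqv.symm) (fun a b c => Y.r_eqv.trans) mW3 (by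
      rintro η ⟨h1, s, h2, h3⟩
      exact ⟨s, h2, fun ζ hζ => ⟨⟨Str.nb_of_rel h1 (h3 ζ hζ).1 (h3 ζ hζ).2,
        Str.Big.of_rel ⟨s, h2, h3⟩ (h3 ζ hζ).2⟩, (h3 ζ hζ).2⟩⟩)
  -- accounting
  have acc := Y.account μ mS Y.mE subset_rfl ((mW1.union mZ2).union mZ3) (fun e he b => by
    by_cases h0 : ∃ x, Y.r (en e b) (bs x)
    · exact Or.inl h0
    right
    have hnb : en e b ∈ Y.NB := ⟨valid_en.2 he, h0⟩
    by_cases h3 : Y.Big 3 (en e b)
    · obtain ⟨ζ, g1, g2⟩ := cZ3 _ ⟨hnb, h3⟩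
      exact ⟨ζ, Or.inr g1, (hZ3 g1).1.1, g2⟩
    by_cases h2 : Y.Big 2 (en e b)
    · obtain ⟨ζ, g1, g2⟩ := cZ2 _ ⟨⟨hnb, h2⟩, h3⟩
      exact ⟨ζ, Or.inl (Or.inr g1), (hZ2 g1).1.1.1, g2⟩
    · exact ⟨_, Or.inl (Or.inl ⟨hnb, h2⟩), valid_en.2 he, Y.r_eqv.refl _⟩)
  have acc2 : nu μ JN (W1 ∪ Z2 ∪ Z3) ≤ nu μ JN W1 + nu μ JN Z2 + nu μ JN Z3 :=
    (measure_union_le _ _).trans (add_le_add_left (measure_union_le _ _) _)
  -- all ends
  have nbE : Y.NB ⊆ ends Y.E := by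
    rintro η ⟨⟨x, rfl⟩ | h, h2⟩
    · exact absurd ⟨x, Y.r_eqv.refl _⟩ h2
    · exact h
  have tot : nu μ JN Bs + nu μ JN W1 + nu μ JN W2 + nu μ JN W3 ≤ 2 * nu μ ℕ Y.E := by
    rw [← nu_ends (Γ := Γ) μ Y.mE, ← measure_union _ mW1, ← measure_union _ mW2,
      ← measure_union _ mW3]
    · refine measure_mono (union_subset (union_subset (union_subset inter_subset_left ?_) ?_) ?_)
      · exact fun η h => nbE h.1
      · exact fun η h => nbE h.1.1
      · exact fun η h => nbE h.1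
    · refine Set.disjoint_left.2 ?_
      rintro η ((h | h) | h) h'
      · exact h'.1.2 h.2
      · exact h.2 (Str.Big.mono h'.2 (by norm_num))
      · exact h.2 h'.2
    · refine Set.disjoint_left.2 ?_
      rintro η (h | h) h'
      · exact h'.1.1.2 h.2
      · exact h.2 h'.1.2
    · exact Set.disjoint_left.2 fun η h h' => h'.1.2 h.2
  -- leaves
  have lv : nu μ JN W1 ≤ nu μ ℕ (Y.Leaf false) + nu μ ℕ (Y.Leaf true) := by
    refine le_trans (measure_mono (t := (fun e => en e false) '' Y.Leaf false ∪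
      (fun e => en e true) '' Y.Leaf true) ?_) ((measure_union_le _ _).trans (add_le_add
        (nu_image_le μ (om_en (Γ := Γ) μ false) (Y.measurableSet_leaf μ false))
        (nu_image_le μ (om_en (Γ := Γ) μ true) (Y.measurableSet_leaf μ true))))
    rintro η ⟨h1, h2⟩
    obtain ⟨e, he, b, rfl⟩ := nbE h1
    have : e ∈ Y.Leaf b := ⟨he, fun ζ g1 g2 => by_contra fun g3 =>
      h2 (Str.big_two (valid_en.2 he) g1 g2 g3)⟩
    cases b
    · exact Or.inl ⟨e, this, rfl⟩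
    · exact Or.inr ⟨e, this, rfl⟩
  -- ends on cells
  have mEC := Y.measurableSet_EC μ
  have cl : nu μ JN (W2 ∩ ends Y.EC) ≤ 200 * nu μ ℕ Y.Coll := by
    have := nu_le_mul_of_cover (Γ := Γ) μ (K := ZMod 100 × Bool)
      (R := fun p η c => η = en (Y.ed c p.1) p.2)
      (fun p => ((Y.ed_om p.1).fun_comp μ (om_en μ p.2)).flip μ)
      (mW2.inter (measurableSet_ends (Γ := Γ) μ mEC)) (Y.measurableSet_coll μ)
      (by
        rintro _ ⟨⟨-, h3⟩, _, ⟨c, hc, k, rfl⟩, b, rfl⟩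
        refine ⟨(k, b), c, ⟨hc, ?_⟩, rfl⟩
        cases b
        · refine ⟨k, fun ζ g1 g2 => ?_⟩
          by_contra g3
          push Not at g3
          exact h3 (Str.big_three (valid_en.2 (Y.ed_mem c hc k)) (valid_en.2 (Y.ed_mem c hc (k - 1)))
            g1 (Y.r_eqv.symm (Y.corner c hc k)) g2 (by simp) g3.1 g3.2)
        · refine ⟨k + 1, fun ζ g1 g2 => ?_⟩
          have hco := Y.corner c hc (k + 1)
          rw [add_sub_cancel_right] at hco ⊢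
          by_contra g3
          push Not at g3
          exact h3 (Str.big_three (valid_en.2 (Y.ed_mem c hc k)) (valid_en.2 (Y.ed_mem c hc (k + 1)))
            g1 hco (Y.r_eqv.trans hco g2) (by simp) g3.2 g3.1))
      (fun p η₁ _ η₂ _ c _ h1 h2 => h1.trans h2.symm)
    simpa using this
  have ec : 2 * nu μ ℕ Y.EC ≤ nu μ JN Bs + nu μ JN W3 + nu μ JN (W2 ∩ ends Y.EC) := by
    rw [← nu_ends (Γ := Γ) μ mEC]
    refine le_trans (measure_mono (t := Bs ∪ W3 ∪ (W2 ∩ ends Y.EC)) ?_)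
      ((measure_union_le _ _).trans (add_le_add_left (measure_union_le _ _) _))
    rintro _ ⟨_, ⟨c, hc, k, rfl⟩, b, rfl⟩
    have he := Y.ed_mem c hc k
    by_cases h0 : ∃ x, Y.r (en (Y.ed c k) b) (bs x)
    · exact Or.inl (Or.inl ⟨⟨_, he, b, rfl⟩, h0⟩)
    have hnb : en (Y.ed c k) b ∈ Y.NB := ⟨valid_en.2 he, h0⟩
    by_cases h3 : Y.Big 3 (en (Y.ed c k) b)
    · exact Or.inl (Or.inr ⟨hnb, h3⟩)
    refine Or.inr ⟨⟨⟨hnb, ?_⟩, h3⟩, _, ⟨c, hc, k, rfl⟩, b, rfl⟩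
    cases b
    · exact Str.big_two (valid_en.2 he) (valid_en.2 (Y.ed_mem c hc (k - 1)))
        (Y.r_eqv.symm (Y.corner c hc k)) (by simp)
    · have hco := Y.corner c hc (k + 1)
      rw [add_sub_cancel_right] at hco
      exact Str.big_two (valid_en.2 he) (valid_en.2 (Y.ed_mem c hc (k + 1))) hco (by simp)
  have ex := Y.expand μ hX hF
  -- arithmetic
  have fin2 : 2 * nu μ ℕ Y.E ≠ ⊤ := ENNReal.mul_ne_top (by norm_num) (Y.nuE_ne_top μ)
  have fW2 : nu μ JN W2 ≠ ⊤ :=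
    ne_top_of_le_ne_top fin2 (le_trans (le_add_self.trans le_self_add) tot)
  have fW3 : nu μ JN W3 ≠ ⊤ := ne_top_of_le_ne_top fin2 (le_trans le_add_self tot)
  have fW1 : nu μ JN W1 ≠ ⊤ :=
    ne_top_of_le_ne_top fin2 (le_trans ((le_add_self.trans le_self_add).trans le_self_add) tot)
  simp only [Nat.cast_ofNat] at nZ2 nZ3
  have s1 : 3 * (nu μ JN Bs + nu μ JN W1 + nu μ JN W2 + nu μ JN W3) ≤
      6 * nu μ (Fin K) S + 6 * nu μ ℕ Y.C + 6 * nu μ JN W1 + 3 * nu μ JN W2 + 2 * nu μ JN W3 := by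
    calc 3 * (nu μ JN Bs + nu μ JN W1 + nu μ JN W2 + nu μ JN W3) ≤ 3 * (2 * nu μ ℕ Y.E) := by gcongr
      _ ≤ 3 * (2 * (nu μ (Fin K) S + nu μ ℕ Y.C + (nu μ JN W1 + nu μ JN Z2 + nu μ JN Z3))) := by
        gcongr
        exact acc.trans (by gcongr)
      _ = 6 * nu μ (Fin K) S + 6 * nu μ ℕ Y.C + 6 * nu μ JN W1 + 3 * (2 * nu μ JN Z2) +
          2 * (3 * nu μ JN Z3) := by ring
      _ ≤ _ := by gcongr
  have s2 : nu μ JN Bs + nu μ JN W3 ≤ 6 * nu μ (Fin K) S + 6 * nu μ ℕ Y.C + 3 * nu μ JN W1 := by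
    have hne : 3 * nu μ JN W1 + 3 * nu μ JN W2 + 2 * nu μ JN W3 ≠ ⊤ := by
      simp only [ne_eq, ENNReal.add_eq_top, not_or]
      exact ⟨⟨ENNReal.mul_ne_top (by norm_num) fW1, ENNReal.mul_ne_top (by norm_num) fW2⟩,
        ENNReal.mul_ne_top (by norm_num) fW3⟩
    refine ENNReal.le_of_add_le_add_right hne ?_
    calc nu μ JN Bs + nu μ JN W3 + (3 * nu μ JN W1 + 3 * nu μ JN W2 + 2 * nu μ JN W3)
        ≤ 2 * nu μ JN Bs + (nu μ JN Bs + nu μ JN W3 +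
          (3 * nu μ JN W1 + 3 * nu μ JN W2 + 2 * nu μ JN W3)) := le_add_self
      _ = 3 * (nu μ JN Bs + nu μ JN W1 + nu μ JN W2 + nu μ JN W3) := by ring
      _ ≤ _ := s1
      _ = _ := by ring
  calc 12 * nu μ ℕ Y.C = 2 * (6 * nu μ ℕ Y.C) := by ring
    _ ≤ 2 * nu μ ℕ Y.EC := by gcongr
    _ ≤ _ := ec
    _ ≤ 6 * nu μ (Fin K) S + 6 * nu μ ℕ Y.C + 3 * nu μ JN W1 + 200 * nu μ ℕ Y.Coll :=
        add_le_add s2 cl
    _ ≤ _ := by gcongr

/-- the gain -/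
theorem Str.exists_gain (D : GD H v) (hX : Expands v μ) (mS : MeasurableSet S)
    (hS : nu μ (Fin K) S ≤ 1 / 100) (Y : Str H v S) (hF : nu μ ℕ Y.C = 1 / 16) :
    ∃ Y' : Str H v S, Y'.pot μ ≤ Y.pot μ - 1 / 2000 ∧ nu μ ℕ Y'.C ≤ 1 / 16 := by
  have hc := Y.count μ mS hX hF.le
  have fE := Y.nuE_ne_top μ
  have fC := Y.nuC_ne_top μ
  have fL : ∀ b, nu μ ℕ (Y.Leaf b) ≠ ⊤ := fun b =>
    ne_top_of_le_ne_top fE (measure_mono fun e he => he.1)
  have fK : nu μ ℕ Y.Coll ≠ ⊤ := ne_top_of_le_ne_top fC (measure_mono fun e he => he.1)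
  have fS : nu μ (Fin K) S ≠ ⊤ := ne_top_of_le_ne_top (by simp) hS
  have hS' : (nu μ (Fin K) S).toReal ≤ 1 / 100 := by
    have := ENNReal.toReal_mono (by simp) hS
    simpa using this
  have hF' : (nu μ ℕ Y.C).toReal = 1 / 16 := by rw [hF]; simp
  have hc' := ENNReal.toReal_mono (by
    simp only [ne_eq, ENNReal.add_eq_top, not_or]
    exact ⟨⟨⟨ENNReal.mul_ne_top (by norm_num) fS, ENNReal.mul_ne_top (by norm_num) fC⟩,
      ENNReal.mul_ne_top (by norm_num) (ENNReal.add_ne_top.2 ⟨fL _, fL _⟩)⟩,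
      ENNReal.mul_ne_top (by norm_num) fK⟩) hc
  rw [ENNReal.toReal_add, ENNReal.toReal_add, ENNReal.toReal_add] at hc'
  rotate_left
  · exact ENNReal.mul_ne_top (by norm_num) fS
  · exact ENNReal.mul_ne_top (by norm_num) fC
  · exact ENNReal.add_ne_top.2
      ⟨ENNReal.mul_ne_top (by norm_num) fS, ENNReal.mul_ne_top (by norm_num) fC⟩
  · exact ENNReal.mul_ne_top (by norm_num) (ENNReal.add_ne_top.2 ⟨fL _, fL _⟩)
  · exact ENNReal.add_ne_top.2 ⟨ENNReal.add_ne_top.2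
      ⟨ENNReal.mul_ne_top (by norm_num) fS, ENNReal.mul_ne_top (by norm_num) fC⟩,
      ENNReal.mul_ne_top (by norm_num) (ENNReal.add_ne_top.2 ⟨fL _, fL _⟩)⟩
  · exact ENNReal.mul_ne_top (by norm_num) fK
  simp only [ENNReal.toReal_mul, ENNReal.toReal_ofNat, ENNReal.toReal_add (fL false) (fL true),
    hF'] at hc'
  by_cases hL : ∃ b, 1 / 2000 ≤ (nu μ ℕ (Y.Leaf b)).toReal
  · obtain ⟨b, hb⟩ := hL
    obtain ⟨Y', h1, h2⟩ := Y.exists_prune μ b
    refine ⟨Y', ?_, by rw [h2, hF]⟩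
    have h3 : Y.Leaf b ⊆ Y.E := fun e he => he.1
    simp only [Str.pot, h1, h2]
    rw [measure_sdiff h3 (Y.measurableSet_leaf μ b).nullMeasurableSet (fL b),
      ENNReal.toReal_sub_of_le (measure_mono h3) fE]
    linarith
  · push Not at hL
    have h0 := hL false
    have h0' := hL true
    obtain ⟨Y', h1, h2⟩ := Y.exists_collapse μ D
    have h3 : Y.Coll ⊆ Y.C := fun e he => he.1
    refine ⟨Y', ?_, by rw [h1, ← hF]; exact measure_mono sdiff_subset⟩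
    have h4 := ENNReal.toReal_mono fE h2
    rw [ENNReal.toReal_add (Y'.nuE_ne_top μ) (ENNReal.mul_ne_top (by norm_num) fK)] at h4
    simp only [ENNReal.toReal_mul, ENNReal.toReal_ofNat] at h4
    simp only [Str.pot, h1]
    rw [measure_sdiff h3 (Y.measurableSet_coll μ).nullMeasurableSet fK,
      ENNReal.toReal_sub_of_le (measure_mono h3) fC]
    linarith

end Crest.Agent.R191
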