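import Crest.Agent.R191.Str

/-! The initial structure: one arc for every step of the finite graphing. -/

set_option autoImplicit false
set_option linter.unusedVariables false
set_option linter.unusedSectionVars false

namespace Crest.Agent.R191

open MeasureTheory Set
open Finsupp hiding some
open scoped ENNReal

variable {Γ X : Type} [Group Γ] [MulAction Γ X] [MeasurableSpace X]

/-- group version of `eloc` -/
def initEl (v : ZMod 100 → Γ) (g : Γ) (b : Bool) : Γ := if b then av v 1 * g else g

theorem initEl_smul (v : ZMod 100 → Γ) (g : Γ) (b : Bool) (x : X) :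
    eloc v (g • x) b = initEl v g b • x := by
  cases b <;> simp [eloc, initEl, mul_smul]

/-- position after `j` edges of a word -/
def initFin (v : ZMod 100 → Γ) (img : ℕ → Γ) (dir : ℕ → Bool) : ℕ → Γ
  | 0 => 1
  | j + 1 => initEl v (img j) (dir j)

/-- the data of a word for `g` -/
def InitWord (H : Subgroup Γ) (v : ZMod 100 → Γ) (g : Γ) (len : ℕ) (img : ℕ → Γ)
    (dir : ℕ → Bool) : Prop :=
  (∀ j < len, ∃ h ∈ H, initEl v (img j) (!dir j) = h * initFin v img dir j) ∧
    ∃ h ∈ H, g = h * initFin v img dir len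

theorem InitWord.append {H : Subgroup Γ} {v : ZMod 100 → Γ} {g : Γ} {len : ℕ} {img : ℕ → Γ}
    {dir : ℕ → Bool} (w : InitWord H v g len img dir) (y : Γ) (b : Bool)
    (hy : initEl v y (!b) = g) :
    InitWord H v (initEl v y b) (len + 1) (Function.update img len y)
      (Function.update dir len b) := by
  have hfin : ∀ j ≤ len, initFin v (Function.update img len y) (Function.update dir len b) j =
      initFin v img dir j := by
    rintro (_ | j) hj
    · rfl
    · have : j ≠ len := by omega
      simp [initFin, this]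
  refine ⟨fun j hj => ?_, 1, H.one_mem, by simp [initFin]⟩
  rw [hfin j (by omega)]
  by_cases e : j = len
  · subst e
    simpa [hy] using w.2
  · simpa [e] using w.1 j (by omega)

theorem exists_initWord {H : Subgroup Γ} {v : ZMod 100 → Γ} (D : GD H v) (g : Γ) :
    ∃ len img dir, InitWord H v g len img dir := by
  have hg : g ∈ Subgroup.closure ((H : Set Γ) ∪ {av v 1}) := by rw [D.gen]; trivial
  have hH : ∀ h ∈ H, ∀ y, (∃ len img dir, InitWord H v y len img dir) →
      ∃ len img dir, InitWord H v (h * y) len img dir := by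
    rintro h hh y ⟨len, img, dir, w1, h', hh', e⟩
    exact ⟨len, img, dir, w1, h * h', H.mul_mem hh hh', by rw [e, mul_assoc]⟩
  induction hg using Subgroup.closure_induction_left with
  | one => exact ⟨0, fun _ => 1, fun _ => true, fun j hj => absurd hj (Nat.not_lt_zero j), 1,
      H.one_mem, by simp [initFin]⟩
  | mul_left x hx y _ ih =>
    rcases hx with hx | hx
    · exact hH x hx y ih
    · obtain ⟨len, img, dir, w⟩ := ih
      rw [mem_singleton_iff.1 hx]
      exact ⟨_, _, _, w.append y true rfl⟩
  | inv_mul_cancel x hx y _ ih =>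
    rcases hx with hx | hx
    · exact hH x⁻¹ (H.inv_mem hx) y ih
    · obtain ⟨len, img, dir, w⟩ := ih
      rw [mem_singleton_iff.1 hx]
      exact ⟨_, _, _, w.append ((av v 1)⁻¹ * y) false (by simp [initEl])⟩

section Arcs

variable {K : ℕ}

/-- the `j`-th edge of the arc of `s` -/
def initEdg (img : Fin K → ℕ → Γ) (s : It X (Fin K)) (j : ℕ) : It X ℕ :=
  ⟨img s.ix j • s.pt, Nat.pair s.ix j⟩

theorem initEdg_inj {img : Fin K → ℕ → Γ} {s s' : It X (Fin K)} {j j' : ℕ} :
    initEdg img s j = initEdg img s' j' ↔ s = s' ∧ j = j' := by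
  constructor
  · intro h
    obtain ⟨x, i⟩ := s
    obtain ⟨x', i'⟩ := s'
    simp only [initEdg, It.mk.injEq, Nat.pair_eq_pair] at h
    obtain ⟨h1, h2, rfl⟩ := h
    obtain rfl : i = i' := Fin.ext h2
    exact ⟨by rw [MulAction.injective _ h1], rfl⟩
  · rintro ⟨rfl, rfl⟩
    rfl

/-- the node where the arc of `s` arrives after `j` edges -/
def initPrev (img : Fin K → ℕ → Γ) (dir : Fin K → ℕ → Bool) (s : It X (Fin K)) : ℕ → It X JN
  | 0 => bs s.pt
  | j + 1 => en (initEdg img s j) (dir s.ix j)

/-- the node from which the arc of `s` continues after `j` edges -/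
def initNext (γ : Fin K → Γ) (len : Fin K → ℕ) (img : Fin K → ℕ → Γ) (dir : Fin K → ℕ → Bool)
    (s : It X (Fin K)) (j : ℕ) : It X JN :=
  if j < len s.ix then en (initEdg img s j) (!dir s.ix j) else bs (γ s.ix • s.pt)

/-- the edges -/
def initE (S : Set (It X (Fin K))) (len : Fin K → ℕ) (img : Fin K → ℕ → Γ) : Set (It X ℕ) :=
  {e | ∃ j, ∃ s ∈ S, j < len s.ix ∧ initEdg img s j = e}

/-- the generating relation on nodes -/
def initR (H : Subgroup Γ) (S : Set (It X (Fin K))) (γ : Fin K → Γ) (len : Fin K → ℕ)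
    (img : Fin K → ℕ → Γ) (dir : Fin K → ℕ → Bool) (η η' : It X JN) : Prop :=
  (∃ h : H, η' = ⟨(h : Γ) • η.pt, none⟩ ∧ η.ix = none) ∨
    ∃ j, ∃ s, (η = initPrev img dir s j ∧ s ∈ S ∧ j ≤ len s.ix) ∧ η' = initNext γ len img dir s j

/-- sign of a direction -/
def initSg (b : Bool) : ℤ := if b then 1 else -1

/-- the chain of an arc -/
noncomputable def initA (len : Fin K → ℕ) (img : Fin K → ℕ → Γ) (dir : Fin K → ℕ → Bool)
    (s : It X (Fin K)) : It X ℕ →₀ ℤ :=
  ∑ j ∈ Finset.range (len s.ix), single (initEdg img s j) (initSg (dir s.ix j))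

theorem init_bd_apply (ξ : It X ℕ →₀ ℤ) (e : It X ℕ) (b : Bool) :
    bd ξ (en e b) = initSg b * ξ e := by
  classical
  induction ξ using Finsupp.induction_linear with
  | zero => simp
  | add f g hf hg => simp [hf, hg, mul_add]
  | single e' z =>
    by_cases h : e' = e <;> cases b <;> simp [bd1, initSg, h]

variable {H : Subgroup Γ} {v : ZMod 100 → Γ} {S : Set (It X (Fin K))} {γ : Fin K → Γ}
  {len : Fin K → ℕ} {img : Fin K → ℕ → Γ} {dir : Fin K → ℕ → Bool}

theorem initEdg_mem {s : It X (Fin K)} (hs : s ∈ S) {j : ℕ} (hj : j < len s.ix) :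
    initEdg img s j ∈ initE S len img := ⟨j, s, hs, hj, rfl⟩

theorem init_loc (w : ∀ i, InitWord H v (γ i) (len i) (img i) (dir i)) {η η' : It X JN}
    (h : Relation.EqvGen (initR H S γ len img dir) η η') :
    ∃ h ∈ H, nloc v η' = h • nloc v η := by
  induction h with
  | rel η η' h =>
    rcases h with ⟨h, rfl, e⟩ | ⟨j, s, ⟨rfl, hs, hj⟩, rfl⟩
    · obtain ⟨x, i⟩ := η
      obtain rfl : i = none := e
      exact ⟨h, h.2, rfl⟩
    · have h1 : nloc v (initPrev img dir s j) = initFin v (img s.ix) (dir s.ix) j • s.pt := by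
        cases j with
        | zero => simp [initPrev, initFin]
        | succ j => simp [initPrev, initFin, initEdg, initEl_smul]
      rw [h1, initNext]
      split_ifs with hl
      · obtain ⟨h, hh, e⟩ := (w s.ix).1 j hl
        exact ⟨h, hh, by simp [initEdg, initEl_smul, e, mul_smul]⟩
      · obtain rfl : j = len s.ix := by omega
        obtain ⟨h, hh, e⟩ := (w s.ix).2
        exact ⟨h, hh, by simp [e, mul_smul]⟩
  | refl η => exact ⟨1, H.one_mem, by simp⟩
  | symm η η' _ ih =>
    obtain ⟨h, hh, e⟩ := ih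
    exact ⟨h⁻¹, H.inv_mem hh, by rw [e, inv_smul_smul]⟩
  | trans η η' η'' _ _ ih1 ih2 =>
    obtain ⟨h, hh, e⟩ := ih1
    obtain ⟨h', hh', e'⟩ := ih2
    exact ⟨h' * h, H.mul_mem hh' hh, by rw [e', e, mul_smul]⟩

theorem init_base (x : X) {h : Γ} (hh : h ∈ H) :
    Relation.EqvGen (initR H S γ len img dir) (bs x) (bs (h • x)) :=
  .rel _ _ (Or.inl ⟨⟨h, hh⟩, rfl, rfl⟩)

theorem init_conn_prev {s : It X (Fin K)} (hs : s ∈ S) {j : ℕ} (hj : j ≤ len s.ix) :
    Conn (initE S len img) (Relation.EqvGen (initR H S γ len img dir)) (bs s.pt)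
      (initPrev img dir s j) := by
  induction j with
  | zero => exact Conn.refl _ _ _
  | succ j ih =>
    refine (ih (by omega)).trans ((Conn.of_rel (.rel _ _
      (Or.inr ⟨j, s, ⟨rfl, hs, by omega⟩, rfl⟩))).trans ?_)
    rw [initNext, if_pos (by omega)]
    exact Conn.edge _ (initEdg_mem hs hj) _ _

theorem init_conn_step {s : It X (Fin K)} (hs : s ∈ S) :
    Conn (initE S len img) (Relation.EqvGen (initR H S γ len img dir)) (bs s.pt)
      (bs (γ s.ix • s.pt)) := by
  refine (init_conn_prev hs le_rfl).trans (Conn.of_rel (.rel _ _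
    (Or.inr ⟨len s.ix, s, ⟨rfl, hs, le_rfl⟩, ?_⟩)))
  rw [initNext, if_neg (lt_irrefl _)]

theorem init_inner {s : It X (Fin K)} {j : ℕ} (hj : j + 1 < len s.ix) {η η' : It X JN}
    (h : Relation.EqvGen (initR H S γ len img dir) η η') :
    (η = en (initEdg img s j) (dir s.ix j) ∨ η = en (initEdg img s (j + 1)) (!dir s.ix (j + 1))) ↔
    (η' = en (initEdg img s j) (dir s.ix j) ∨
      η' = en (initEdg img s (j + 1)) (!dir s.ix (j + 1))) := by
  induction h with
  | rel η η' h =>
    rcases h with ⟨h, rfl, e⟩ | ⟨j', s', ⟨rfl, hs, hj'⟩, rfl⟩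
    · obtain ⟨x, i⟩ := η
      obtain rfl : i = none := e
      simp [en]
    · have h1 : (initPrev img dir s' j' = en (initEdg img s j) (dir s.ix j) ∨
          initPrev img dir s' j' = en (initEdg img s (j + 1)) (!dir s.ix (j + 1))) ↔
          s' = s ∧ j' = j + 1 := by
        cases j' with
        | zero => simp [initPrev]
        | succ j' =>
          simp only [initPrev, en_inj, initEdg_inj]
          constructor
          · rintro (⟨⟨rfl, rfl⟩, -⟩ | ⟨⟨rfl, rfl⟩, h⟩)
            · exact ⟨rfl, rfl⟩
            · simp at h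
          · rintro ⟨rfl, h⟩
            obtain rfl : j' = j := by omega
            exact Or.inl ⟨⟨rfl, rfl⟩, rfl⟩
      rw [h1, initNext]
      split_ifs with hl
      · simp only [en_inj, initEdg_inj]
        constructor
        · rintro ⟨rfl, rfl⟩
          exact Or.inr ⟨⟨rfl, rfl⟩, rfl⟩
        · rintro (⟨⟨rfl, rfl⟩, h⟩ | ⟨⟨rfl, rfl⟩, -⟩)
          · simp at h
          · exact ⟨rfl, rfl⟩
      · constructor
        · rintro ⟨rfl, rfl⟩
          exact absurd hj hl
        · simp
  | refl η => rfl
  | symm η η' _ ih => exact ih.symm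
  | trans η η' η'' _ _ ih1 ih2 => exact ih1.trans ih2

theorem init_coeff {ξ : It X ℕ →₀ ℤ} (hz : bd ξ ∈ Zs (Relation.EqvGen (initR H S γ len img dir)))
    (s : It X (Fin K)) {j : ℕ} (hj : j < len s.ix) :
    ξ (initEdg img s j) =
      initSg (dir s.ix 0) * ξ (initEdg img s 0) * initSg (dir s.ix j) := by
  classical
  induction j with
  | zero => cases dir s.ix 0 <;> simp [initSg]
  | succ j ih =>
    set p := en (initEdg img s j) (dir s.ix j) with hp
    set q := en (initEdg img s (j + 1)) (!dir s.ix (j + 1)) with hq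
    have hpq : p ≠ q := by simp [hp, hq, initEdg_inj]
    let ψ : (It X JN →₀ ℤ) →ₗ[ℤ] ℤ := lapply p + lapply q
    have hψ : ∀ η, ψ (single η 1) = if η = p ∨ η = q then 1 else 0 := by
      intro η
      simp only [ψ, LinearMap.add_apply, lapply_apply, single_apply]
      by_cases h1 : η = p
      · have h2 : η ≠ q := h1 ▸ hpq
        simp [h1, hpq]
      · by_cases h2 : η = q <;> simp [h1, h2, hpq.symm]
    have hker : Zs (Relation.EqvGen (initR H S γ len img dir)) ≤ LinearMap.ker ψ := by
      refine Zs_le (fun η η' h => ?_) fun x => ?_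
      · rw [LinearMap.mem_ker, map_sub, hψ, hψ, sub_eq_zero]
        exact if_congr (init_inner hj h) rfl rfl
      · rw [LinearMap.mem_ker, hψ, if_neg]
        simp [hp, hq]
    have h1 : bd ξ p + bd ξ q = 0 := hker hz
    rw [hp, hq, init_bd_apply, init_bd_apply, ih (by omega)] at h1
    revert h1
    generalize initSg (dir s.ix 0) * ξ (initEdg img s 0) = c
    cases dir s.ix j <;> cases dir s.ix (j + 1) <;> simp [initSg] <;> intro h1 <;> linarith

theorem initA_apply (s s₀ : It X (Fin K)) {j₀ : ℕ} (hj : j₀ < len s₀.ix) [Decidable (s = s₀)] :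
    initA len img dir s (initEdg img s₀ j₀) = if s = s₀ then initSg (dir s₀.ix j₀) else 0 := by
  classical
  rw [initA, Finsupp.finsetSum_apply]
  split_ifs with h
  · subst h
    rw [Finset.sum_eq_single j₀]
    · simp
    · intro j _ hne
      simp [initEdg_inj, hne]
    · intro h
      exact absurd (Finset.mem_range.2 hj) h
  · exact Finset.sum_eq_zero fun j _ => by simp [initEdg_inj, h]

theorem init_genP (ed : It X ℕ → ZMod 100 → It X ℕ) :
    GenP (initE S len img) (Relation.EqvGen (initR H S γ len img dir)) ∅ ed S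
      (initA len img dir) := by
  classical
  intro ξ hE hz
  refine Submodule.mem_sup_left ?_
  have hinj : Function.Injective fun s : It X (Fin K) => initEdg img s 0 :=
    fun s s' h => (initEdg_inj.1 h).1
  let T : Finset (It X (Fin K)) := (ξ.support.preimage _ hinj.injOn).filter (· ∈ S)
  have hT : ∀ s, s ∈ T ↔ ξ (initEdg img s 0) ≠ 0 ∧ s ∈ S := fun s => by simp [T]
  have key : ξ = ∑ s ∈ T, (initSg (dir s.ix 0) * ξ (initEdg img s 0)) • initA len img dir s := by
    ext e
    rw [Finsupp.finsetSum_apply]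
    by_cases he : e ∈ initE S len img
    · obtain ⟨j₀, s₀, hs₀, hj₀, rfl⟩ := he
      simp only [Finsupp.smul_apply, initA_apply _ s₀ hj₀, smul_eq_mul, mul_ite, mul_zero,
        Finset.sum_ite_eq']
      rw [init_coeff hz s₀ hj₀]
      split_ifs with h
      · rfl
      · have : ξ (initEdg img s₀ 0) = 0 := by_contra fun h' => h ((hT s₀).2 ⟨h', hs₀⟩)
        simp [this]
    · rw [show ξ e = 0 from by_contra fun h => he (hE e h)]
      refine (Finset.sum_eq_zero fun s hs => ?_).symm
      have : initA len img dir s e = 0 := by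
        rw [initA, Finsupp.finsetSum_apply]
        refine Finset.sum_eq_zero fun j hj => single_eq_of_ne fun h => he ?_
        exact ⟨j, s, ((hT s).1 hs).2, Finset.mem_range.1 hj, h.symm⟩
      simp [this]
  rw [key]
  exact Submodule.sum_mem _ fun s hs =>
    Submodule.smul_mem _ _ (Submodule.subset_span ⟨s, ((hT s).1 hs).2, rfl⟩)

variable [Countable Γ] (μ : Measure X) [FPA Γ μ]

include μ in
theorem init_om {J' : Type} {f : It X (Fin K) → It X J'}
    (hf : ∀ i, ∃ (g : Γ) (j' : J'), ∀ x, f ⟨x, i⟩ = ⟨g • x, j'⟩) :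
    OM Γ (fun s ω => ω = f s) := by
  choose g j' h using hf
  refine (OM.exists fun i => (OM.shift (X := X) μ (g i) (fun _ : Fin K => j' i)).and_ix
    (fun i' _ => i' = i)).congr fun ⟨x, i⟩ ω => ?_
  simp [h]

include μ in
theorem init_om_R (hS : MeasurableSet S) : OM Γ (initR H S γ len img dir) := by
  refine OM.or (OM.exists fun h : H => (OM.shift (X := X) μ (h : Γ)
    (fun _ : JN => (none : JN))).and_ix (fun i _ => i = none)) (OM.exists fun j => ?_)
  have h1 : OM Γ (fun s η => η = initPrev img dir s j : It X (Fin K) → _) :=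
    init_om μ fun i => by
      cases j with
      | zero => exact ⟨1, none, fun x => by simp [initPrev, bs]⟩
      | succ j => exact ⟨img i j, some (Nat.pair i j, dir i j), fun x => rfl⟩
  have h2 : OM Γ (fun s η => η = initNext γ len img dir s j : It X (Fin K) → _) :=
    init_om μ fun i => by
      by_cases hl : j < len i
      · exact ⟨img i j, some (Nat.pair i j, !dir i j), fun x => by
          simp [initNext, hl, en, initEdg]⟩
      · exact ⟨γ i, none, fun x => by simp [initNext, hl, bs]⟩
  exact ((h1.flip μ).and_right μ (B := {s | s ∈ S ∧ j ≤ len s.ix})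
    (hS.inter (It.measurableSet_ix fun i => j ≤ len i))).comp μ h2

include μ in
theorem init_mE (hS : MeasurableSet S) : MeasurableSet (initE S len img) := by
  have : initE S len img =
      ⋃ j, (fun s => initEdg img s j) '' {s | s ∈ S ∧ j < len s.ix} := by
    ext e
    simp [initE, and_assoc]
  rw [this]
  refine MeasurableSet.iUnion fun j => OM.measurableSet_image (Γ := Γ) μ
    (init_om μ fun i => ⟨img i j, Nat.pair i j, fun x => rfl⟩)
    (hS.inter (It.measurableSet_ix fun i => j < len i))

include μ in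
theorem init_mc : MC Γ (initA len img dir : It X (Fin K) → _) :=
  MC.of_layers fun i => MC.sum (Finset.range (len i)) fun j _ =>
    MC.single (OM.shift (X := X) μ (img i j) (fun _ : Unit => Nat.pair i j)) (initSg (dir i j))

end Arcs

variable [Countable Γ] {H : Subgroup Γ} {v : ZMod 100 → Γ} {K : ℕ} (μ : Measure X) [FPA Γ μ]

include μ in
theorem exists_init (D : GD H v) (γ : Fin K → Γ) (A : Fin K → Set X) (hA : ∀ i, MeasurableSet (A i))
    (hgen : ∀ x, Relation.EqvGen (RelStep H γ A) x (av v 1 • x)) :
    ∃ Y : Str H v {s : It X (Fin K) | s.pt ∈ A s.ix}, Y.C = ∅ := by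
  choose len img dir w using fun i => exists_initWord D (γ i)
  set S : Set (It X (Fin K)) := {s | s.pt ∈ A s.ix} with hSdef
  have hS : MeasurableSet S := It.measurableSet_iff.2 fun i => hA i
  have hstep : ∀ x y, Relation.EqvGen (RelStep H γ A) x y →
      Conn (initE S len img) (Relation.EqvGen (initR H S γ len img dir)) (bs x) (bs y) := by
    intro x y h
    induction h with
    | rel x y h =>
      rcases h with ⟨h, hh, rfl⟩ | ⟨i, hi, rfl⟩
      · exact Conn.of_rel (init_base x hh)
      · exact init_conn_step (s := ⟨x, i⟩) hi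
    | refl x => exact Conn.refl _ _ _
    | symm x y _ ih => exact ih.symm
    | trans x y z _ _ ih1 ih2 => exact ih1.trans ih2
  have hall : ∀ (g : Γ) (x : X),
      Conn (initE S len img) (Relation.EqvGen (initR H S γ len img dir)) (bs x) (bs (g • x)) := by
    intro g
    have hg : g ∈ Subgroup.closure ((H : Set Γ) ∪ {av v 1}) := by rw [D.gen]; trivial
    induction hg using Subgroup.closure_induction with
    | mem g hg =>
      rcases hg with hg | hg
      · exact fun x => Conn.of_rel (init_base x hg)
      · rw [mem_singleton_iff.1 hg]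
        exact fun x => hstep _ _ (hgen x)
    | one => intro x; rw [one_smul]; exact Conn.refl _ _ _
    | mul g g' _ _ ih ih' => intro x; rw [mul_smul]; exact (ih' x).trans (ih _)
    | inv g _ ih =>
      intro x
      have := ih (g⁻¹ • x)
      rw [smul_inv_smul] at this
      exact this.symm
  have hval : ∀ η, Valid (initE S len img) η →
      Conn (initE S len img) (Relation.EqvGen (initR H S γ len img dir)) (bs η.pt) η := by
    rintro _ (⟨x, rfl⟩ | ⟨_, ⟨j, s, hs, hj, rfl⟩, b, rfl⟩)
    · exact Conn.refl _ _ _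
    · exact (hall (img s.ix j) s.pt).symm.trans ((init_conn_prev (j := j + 1) hs hj).trans
        (Conn.edge _ (initEdg_mem hs hj) _ _))
  refine ⟨{
    L := (Finset.univ.sup fun i => (Finset.range (len i)).sup fun j => Nat.pair i j) + 1
    E := initE S len img
    mE := init_mE μ hS
    bE := ?_
    r := Relation.EqvGen (initR H S γ len img dir)
    r_om := (init_om_R μ hS).eqvGen μ
    r_eqv := Relation.EqvGen.is_equivalence _
    r_loc := fun η η' h => init_loc w h
    r_base := fun x h hh => init_base x hh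
    C := ∅
    mC := MeasurableSet.empty
    bC := fun c hc => hc.elim
    ed := fun c k => ⟨v k • c.pt, 0⟩
    ed_om := fun k => OM.shift μ (v k) (fun _ => 0)
    ed_pt := fun c hc => hc.elim
    ed_mem := fun c hc => hc.elim
    corner := fun c hc => hc.elim
    ed_inj := fun c hc => hc.elim
    conn := ?_
    gen := ⟨_, init_mc μ, init_genP _⟩ }, rfl⟩
  · rintro _ ⟨j, s, -, hj, rfl⟩
    refine Nat.lt_succ_of_le (le_trans ?_ (Finset.le_sup (Finset.mem_univ s.ix)))
    exact Finset.le_sup (f := fun j => Nat.pair s.ix j) (Finset.mem_range.2 hj)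
  · rintro η η' h h' ⟨g, hg⟩
    refine (hval η h).symm.trans (Conn.trans ?_ (hval η' h'))
    rw [hg]
    exact hall g _

end Crest.Agent.R191
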