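import Crest.Agent.R191.MC

/-! Kaplansky type trace inequality for measurable chain maps. -/

set_option autoImplicit false
set_option linter.unusedVariables false
set_option linter.unusedSectionVars false

namespace Crest.Agent.R191

open MeasureTheory Set Finsupp
open scoped ENNReal

namespace Kap

/-- Approximate orthogonal projection argument. -/
theorem proj_lemma {W : Type*} [AddCommGroup W] [Module ℝ W] (B : W →ₗ[ℝ] W →ₗ[ℝ] ℝ)
    (hsym : ∀ a b, B a b = B b a) (hpos : ∀ a, 0 ≤ B a a) (V : Submodule ℝ W) (q : W)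
    (ρ ρ' : W → W) (hadj : ∀ a b, B (ρ' a) b = B a (ρ b))
    (hV : ∀ a ∈ V, ρ a ∈ V) (hV' : ∀ a ∈ V, ρ' a ∈ V) (C : ℝ) (hC0 : 0 ≤ C)
    (hC : ∀ a, B (ρ a) (ρ a) ≤ C * B a a) (hC' : ∀ a, B (ρ' a) (ρ' a) ≤ C * B a a)
    (he : q - ρ q ∈ V) (h0 : ∀ x ∈ V, B q (ρ x) = 0) : 0 ≤ B q (q - ρ q) := by
  set e := q - ρ q with hedef
  let S : Set ℝ := (fun x => B (q - x) (q - x)) '' (V : Set W)
  have hSne : S.Nonempty := ⟨_, 0, V.zero_mem, rfl⟩
  have hSbdd : BddBelow S := ⟨0, by rintro _ ⟨x, -, rfl⟩; exact hpos _⟩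
  set d := sInf S with hd
  have hdle : ∀ x ∈ V, d ≤ B (q - x) (q - x) := fun x hx => csInf_le hSbdd ⟨x, hx, rfl⟩
  have hdq : d ≤ B q q := by simpa using hdle 0 V.zero_mem
  set M := 4 * B q q + 2 with hM
  set K := (1 + B e e) + (1 + M) + 2 * (1 + C * M) with hK
  have hM0 : 0 ≤ M := by have := hpos q; positivity
  have hK0 : 0 < K := by have := hpos e; positivity
  -- for every small `t`
  have key : ∀ t : ℝ, 0 < t → t ≤ 1 → -(t * K) ≤ B q e := by
    intro t ht ht1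
    obtain ⟨_, ⟨x, hx, rfl⟩, hlt⟩ := exists_lt_of_csInf_lt hSne
      (show sInf S < d + t ^ 2 by rw [← hd]; have := pow_pos ht 2; linarith)
    simp only at hlt
    have orth : ∀ y ∈ V, |B (q - x) y| ≤ t * (1 + B y y) := by
      intro y hy
      have h1 : ∀ s : ℝ, d ≤ B (q - x) (q - x) - 2 * s * B (q - x) y + s ^ 2 * B y y := by
        intro s
        have := hdle (x + s • y) (V.add_mem hx (V.smul_mem s hy))
        have e1 : q - (x + s • y) = (q - x) - s • y := by abel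
        rw [e1] at this
        generalize q - x = z at *
        simp only [map_sub, map_smul, LinearMap.sub_apply, LinearMap.smul_apply,
          smul_eq_mul] at this
        rw [hsym y z] at this
        linarith
      have hy0 := hpos y
      have a1 := h1 t
      have a2 := h1 (-t)
      have hty : 0 ≤ t * (t * (1 + B y y)) := by positivity
      rw [abs_le]
      constructor
      · refine le_of_mul_le_mul_left ?_ ht
        nlinarith
      · refine le_of_mul_le_mul_left ?_ ht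
        nlinarith
    have hxx : B x x ≤ M := by
      have h1 := hpos (q + (q - x))
      have e1 : B x x = B (q - (q - x)) (q - (q - x)) := by simp
      generalize q - x = z at *
      simp only [map_sub, map_add, LinearMap.sub_apply, LinearMap.add_apply] at e1 h1
      have : t ^ 2 ≤ 1 := by nlinarith
      linarith
    have o1 := abs_le.1 (orth e he)
    have o2 := abs_le.1 (orth x hx)
    have o3 := abs_le.1 (orth _ (hV' x hx))
    have o4 := abs_le.1 (orth _ (hV x hx))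
    have b3 : t * (1 + B (ρ' x) (ρ' x)) ≤ t * (1 + C * M) := by
      have := hC' x
      have := mul_le_mul_of_nonneg_left hxx hC0
      gcongr
      linarith
    have b4 : t * (1 + B (ρ x) (ρ x)) ≤ t * (1 + C * M) := by
      have := hC x
      have := mul_le_mul_of_nonneg_left hxx hC0
      gcongr
      linarith
    have b2 : t * (1 + B x x) ≤ t * (1 + M) := by gcongr
    simp only [map_sub, LinearMap.sub_apply] at o1 o2 o3 o4
    have e1 : B x e = B q x - B q (ρ' x) := by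
      rw [hedef, map_sub, hsym x q, ← hadj, hsym (ρ' x) q]
    have e2 : B x (ρ' x) = B x (ρ x) := by rw [hsym x (ρ' x), hadj]
    have e3 := h0 x hx
    have e4 := hpos x
    have e5 : t * K = t * (1 + B e e) + t * (1 + M) + 2 * (t * (1 + C * M)) := by rw [hK]; ring
    linarith [o1.1, o1.2, o2.1, o2.2, o3.1, o3.2, o4.1, o4.2]
  by_contra hneg
  push Not at hneg
  have h1 := key (min 1 (-(B q e) / (2 * K))) (lt_min one_pos (by
    apply div_pos <;> linarith)) (min_le_left _ _)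
  have h2 : min 1 (-(B q e) / (2 * K)) * K ≤ -(B q e) / (2 * K) * K := by
    gcongr
    exact min_le_right _ _
  have h3 : -(B q e) / (2 * K) * K = -(B q e) / 2 := by field_simp
  linarith

section ip
variable {α β γ : Type}

/-- the `ℓ²` pairing of finitely supported functions -/
noncomputable def ip : (α →₀ ℝ) →ₗ[ℝ] (α →₀ ℝ) →ₗ[ℝ] ℝ :=
  linearCombination ℝ fun a : α => (Finsupp.lapply a : (α →₀ ℝ) →ₗ[ℝ] ℝ)

theorem ip_single (a : α) (r : ℝ) (η : α →₀ ℝ) : ip (single a r) η = r * η a := by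
  simp [ip]

theorem ip_apply (ξ η : α →₀ ℝ) : ip ξ η = ∑ a ∈ ξ.support, ξ a * η a := by
  simp [ip, linearCombination_apply, Finsupp.sum]

theorem ip_symm (ξ η : α →₀ ℝ) : ip ξ η = ip η ξ := by
  classical
  have : (ip : (α →₀ ℝ) →ₗ[ℝ] (α →₀ ℝ) →ₗ[ℝ] ℝ) = ip.flip := by
    ext a b
    simp [ip_single, single_apply, eq_comm]
  conv_lhs => rw [this]
  rfl

theorem ip_nonneg (ξ : α →₀ ℝ) : 0 ≤ ip ξ ξ := by
  rw [ip_apply]
  exact Finset.sum_nonneg fun a _ => mul_self_nonneg _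

/-- `b` is the transpose of `a` -/
def Adj (a : (α →₀ ℝ) →ₗ[ℝ] (β →₀ ℝ)) (b : (β →₀ ℝ) →ₗ[ℝ] (α →₀ ℝ)) : Prop :=
  ∀ ξ η, ip (a ξ) η = ip ξ (b η)

theorem Adj.symm {a : (α →₀ ℝ) →ₗ[ℝ] (β →₀ ℝ)} {b : (β →₀ ℝ) →ₗ[ℝ] (α →₀ ℝ)} (h : Adj a b) :
    Adj b a := fun η ξ => by rw [ip_symm, ← h, ip_symm]

theorem adj_of_kernel {a : (α →₀ ℝ) →ₗ[ℝ] (β →₀ ℝ)} {b : (β →₀ ℝ) →ₗ[ℝ] (α →₀ ℝ)}
    (h : ∀ x y, a (single x 1) y = b (single y 1) x) : Adj a b := by
  have : (ip.compl₁₂ a LinearMap.id : (α →₀ ℝ) →ₗ[ℝ] (β →₀ ℝ) →ₗ[ℝ] ℝ) =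
      ip.compl₁₂ LinearMap.id b := by
    ext x y
    simp only [LinearMap.comp_apply, lsingle_apply, LinearMap.compl₁₂_apply, LinearMap.id_apply]
    rw [ip_symm, ip_single, ip_single, h]
  intro ξ η
  exact LinearMap.congr_fun₂ this ξ η

/-- bounded for the `ℓ²` norm -/
def Bdd (a : (α →₀ ℝ) →ₗ[ℝ] (β →₀ ℝ)) : Prop :=
  ∃ C : ℝ, 0 ≤ C ∧ ∀ ξ, ip (a ξ) (a ξ) ≤ C * ip ξ ξ

theorem Bdd.add {a b : (α →₀ ℝ) →ₗ[ℝ] (β →₀ ℝ)} (ha : Bdd a) (hb : Bdd b) : Bdd (a + b) := by
  obtain ⟨C, hC, h1⟩ := ha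
  obtain ⟨D, hD, h2⟩ := hb
  refine ⟨2 * C + 2 * D, by positivity, fun ξ => ?_⟩
  have h3 := ip_nonneg (a ξ - b ξ)
  have h4 := h1 ξ
  have h5 := h2 ξ
  simp only [LinearMap.add_apply, map_add, map_sub, LinearMap.sub_apply] at h3 ⊢
  linarith

theorem Bdd.smul {a : (α →₀ ℝ) →ₗ[ℝ] (β →₀ ℝ)} (ha : Bdd a) (r : ℝ) : Bdd (r • a) := by
  obtain ⟨C, hC, h1⟩ := ha
  refine ⟨r ^ 2 * C, by positivity, fun ξ => ?_⟩
  have h4 := mul_le_mul_of_nonneg_left (h1 ξ) (sq_nonneg r)
  simp only [LinearMap.smul_apply, map_smul, smul_eq_mul]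
  linarith

end ip


section nice
variable {Γ X J J' J'' : Type} [Group Γ] [MulAction Γ X] [MeasurableSpace X]

/-- bounded measurable coefficient functions -/
def BM (f : X → ℝ) : Prop := Measurable f ∧ ∃ M : ℝ, ∀ x, |f x| ≤ M

open Classical in
/-- elementary operators -/
noncomputable def elem (g : Γ) (i : J) (j : J') (f : X → ℝ) :
    (It X J →₀ ℝ) →ₗ[ℝ] (It X J' →₀ ℝ) :=
  linearCombination ℝ fun ω : It X J =>
    if ω.ix = i then single (⟨g • ω.pt, j⟩ : It X J') (f ω.pt) else 0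

open Classical in
theorem elem_single (g : Γ) (i : J) (j : J') (f : X → ℝ) (ω : It X J) (r : ℝ) :
    elem g i j f (single ω r) =
      if ω.ix = i then single (⟨g • ω.pt, j⟩ : It X J') (r * f ω.pt) else 0 := by
  rw [elem, linearCombination_single]
  split_ifs <;> simp

open Classical in
theorem elem_kernel (g : Γ) (i : J) (j : J') (f : X → ℝ) (ω : It X J) (ω' : It X J') :
    elem g i j f (single ω 1) ω' =
      if ω.ix = i ∧ ω' = ⟨g • ω.pt, j⟩ then f ω.pt else 0 := by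
  rw [elem_single]
  by_cases h : ω.ix = i
  · simp [h, single_apply, eq_comm]
  · simp [h]

variable (Γ X J J') in
/-- finite sums of elementary operators -/
noncomputable def Nice : Submodule ℝ ((It X J →₀ ℝ) →ₗ[ℝ] (It X J' →₀ ℝ)) :=
  Submodule.span ℝ {a | ∃ (g : Γ) (i : J) (j : J') (f : X → ℝ), BM f ∧ a = elem g i j f}

theorem elem_nice (g : Γ) (i : J) (j : J') {f : X → ℝ} (hf : BM f) :
    elem g i j f ∈ Nice Γ X J J' := Submodule.subset_span ⟨g, i, j, f, hf, rfl⟩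

open Classical in
theorem elem_comp (g h : Γ) (i : J) (j j' : J') (k : J'') (f f' : X → ℝ) :
    elem h j' k f' ∘ₗ elem g i j f =
      elem (h * g) i k (fun x => if j = j' then f x * f' (g • x) else 0) := by
  refine lhom_ext' fun ω => LinearMap.ext_ring ?_
  simp only [LinearMap.comp_apply, lsingle_apply, elem_single]
  by_cases h1 : ω.ix = i
  · by_cases h2 : j = j' <;> simp [h1, h2, elem_single, mul_smul]
  · simp [h1]

theorem elem_adj (g : Γ) (i : J) (j : J') (f : X → ℝ) :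
    Adj (elem g i j f) (elem g⁻¹ j i (fun x => f (g⁻¹ • x))) := by
  classical
  refine adj_of_kernel fun ⟨x, i'⟩ ⟨y, j'⟩ => ?_
  rw [elem_kernel, elem_kernel]
  by_cases h : i' = i ∧ y = g • x ∧ j' = j
  · obtain ⟨rfl, rfl, rfl⟩ := h
    simp
  · rw [if_neg, if_neg]
    · simp only [It.mk.injEq]
      rintro ⟨rfl, rfl, rfl⟩
      exact h ⟨rfl, by simp, rfl⟩
    · simpa using h

theorem elem_one_apply (i : J) (f : X → ℝ) (ξ : It X J →₀ ℝ) (ω : It X J) [Decidable (ω.ix = i)] :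
    elem (1 : Γ) i i f ξ ω = if ω.ix = i then f ω.pt * ξ ω else 0 := by
  classical
  induction ξ using Finsupp.induction_linear with
  | zero => simp
  | add a b ha hb =>
    rw [map_add, Finsupp.add_apply, ha, hb]
    split_ifs <;> simp [mul_add]
  | single a r =>
    rw [elem_single]
    obtain ⟨x, i'⟩ := a
    obtain ⟨y, i''⟩ := ω
    by_cases h1 : i' = i
    · subst h1
      by_cases h2 : i'' = i'
      · subst h2
        by_cases h3 : x = y
        · subst h3
          simp [mul_comm]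
        · simp [h3]
      · simp [h2]
    · by_cases h2 : i'' = i
      · subst h2
        simp [h1]
      · simp [h1, h2]

theorem elem_bdd (g : Γ) (i : J) (j : J') {f : X → ℝ} (hf : BM f) : Bdd (elem g i j f) := by
  classical
  obtain ⟨-, M, hM⟩ := hf
  refine ⟨M ^ 2, sq_nonneg _, fun ξ => ?_⟩
  rw [elem_adj g i j f, ← LinearMap.comp_apply (elem g⁻¹ j i _), elem_comp, inv_mul_cancel,
    ip_apply, ip_apply, Finset.mul_sum]
  refine Finset.sum_le_sum fun ω _ => ?_
  rw [elem_one_apply]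
  have h1 : f ω.pt * f ω.pt ≤ M ^ 2 := by
    have := sq_le_sq' (abs_le.1 (hM ω.pt)).1 (abs_le.1 (hM ω.pt)).2
    linarith
  have h2 := mul_self_nonneg (ξ ω)
  by_cases h3 : ω.ix = i
  · simp only [h3, if_true, inv_smul_smul]
    nlinarith
  · simp only [h3, if_false, mul_zero]
    positivity

theorem Nice.bdd {a : (It X J →₀ ℝ) →ₗ[ℝ] (It X J' →₀ ℝ)} (ha : a ∈ Nice Γ X J J') : Bdd a := by
  induction ha using Submodule.span_induction with
  | mem a h =>
    obtain ⟨g, i, j, f, hf, rfl⟩ := h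
    exact elem_bdd g i j hf
  | zero => exact ⟨0, le_rfl, fun ξ => by simp⟩
  | add a b _ _ ha hb => exact ha.add hb
  | smul r a _ ha => exact ha.smul r

variable (μ : Measure X) [IsProbabilityMeasure μ] [hF : FPA Γ μ]
include hF

theorem BM.shift {f : X → ℝ} (hf : BM f) (g : Γ) : BM fun x => f (g • x) :=
  ⟨hf.1.comp (measurable_gsmul μ g), hf.2.imp fun M hM x => hM _⟩

theorem integral_gsmul (g : Γ) {f : X → ℝ} (hf : Measurable f) :
    ∫ x, f (g • x) ∂μ = ∫ x, f x ∂μ := by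
  conv_rhs => rw [← (FPA.mp (μ := μ) g).map_eq]
  rw [integral_map (measurable_gsmul μ g).aemeasurable hf.aestronglyMeasurable]

omit hF in
theorem BM.mul {f f' : X → ℝ} (hf : BM f) (hf' : BM f') : BM fun x => f x * f' x := by
  obtain ⟨h1, M, hM⟩ := hf
  obtain ⟨h2, M', hM'⟩ := hf'
  refine ⟨h1.mul h2, M * M', fun x => ?_⟩
  rw [abs_mul]
  exact mul_le_mul (hM x) (hM' x) (abs_nonneg _) ((abs_nonneg _).trans (hM x))

omit hF in
theorem BM.ite {f : X → ℝ} (hf : BM f) (P : Prop) [Decidable P] :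
    BM fun x => if P then f x else 0 := by
  by_cases h : P
  · simpa [h] using hf
  · simp only [h, if_false]
    exact ⟨measurable_const, 0, fun _ => by simp⟩

omit hF in
theorem BM.integrable {f : X → ℝ} (hf : BM f) : Integrable f μ := by
  obtain ⟨h1, M, hM⟩ := hf
  exact Integrable.of_bound h1.aestronglyMeasurable M (Filter.Eventually.of_forall hM)

theorem Nice.comp {a : (It X J' →₀ ℝ) →ₗ[ℝ] (It X J'' →₀ ℝ)}
    {b : (It X J →₀ ℝ) →ₗ[ℝ] (It X J' →₀ ℝ)} (ha : a ∈ Nice Γ X J' J'')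
    (hb : b ∈ Nice Γ X J J') : a ∘ₗ b ∈ Nice Γ X J J'' := by
  classical
  induction ha using Submodule.span_induction with
  | mem a h =>
    obtain ⟨g, i, j, f, hf, rfl⟩ := h
    induction hb using Submodule.span_induction with
    | mem b h =>
      obtain ⟨g', i', j', f', hf', rfl⟩ := h
      rw [elem_comp]
      exact elem_nice _ _ _ ((hf'.mul (hf.shift μ g')).ite _)
    | zero => simp
    | add b c _ _ hb hc => rw [LinearMap.comp_add]; exact Submodule.add_mem _ hb hc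
    | smul r b _ hb => rw [LinearMap.comp_smul]; exact Submodule.smul_mem _ _ hb
  | zero => simp
  | add a c _ _ ha hc => rw [LinearMap.add_comp]; exact Submodule.add_mem _ ha hc
  | smul r a _ ha => rw [LinearMap.smul_comp]; exact Submodule.smul_mem _ _ ha

theorem Nice.exists_adj {a : (It X J →₀ ℝ) →ₗ[ℝ] (It X J' →₀ ℝ)} (ha : a ∈ Nice Γ X J J') :
    ∃ b ∈ Nice Γ X J' J, Adj a b := by
  induction ha using Submodule.span_induction with
  | mem a h =>
    obtain ⟨g, i, j, f, hf, rfl⟩ := h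
    exact ⟨_, elem_nice _ _ _ (hf.shift μ g⁻¹), elem_adj g i j f⟩
  | zero => exact ⟨0, Submodule.zero_mem _, fun ξ η => by simp⟩
  | add a c _ _ ha hc =>
    obtain ⟨a', h1, h2⟩ := ha
    obtain ⟨c', h3, h4⟩ := hc
    exact ⟨a' + c', Submodule.add_mem _ h1 h3, fun ξ η => by simp [h2 ξ η, h4 ξ η]⟩
  | smul r a _ ha =>
    obtain ⟨a', h1, h2⟩ := ha
    exact ⟨r • a', Submodule.smul_mem _ _ h1, fun ξ η => by simp [h2 ξ η]⟩

omit hF in
theorem measurableEmbedding_mk (i : J) :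
    MeasurableEmbedding fun x : X => (⟨x, i⟩ : It X J) where
  injective := fun x y e => congrArg It.pt e
  measurable := It.measurable_mk i
  measurableSet_image' := fun s hs => by
    have : (fun x : X => (⟨x, i⟩ : It X J)) '' s = {ω | ω.ix = i} ∩ {ω | ω.pt ∈ s} := by
      ext ⟨x, j⟩
      simp only [mem_image, It.mk.injEq, mem_inter_iff, mem_ofPred_eq]
      constructor
      · rintro ⟨y, h1, rfl, rfl⟩
        exact ⟨rfl, h1⟩
      · rintro ⟨rfl, h1⟩
        exact ⟨x, h1, rfl, rfl⟩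
    rw [this]
    exact (It.measurableSet_ix (· = i)).inter (It.measurableSet_pt hs)

omit hF in
theorem nu_restrict_layer (i : J) :
    (nu μ J).restrict {ω | ω.ix = i} = μ.map fun x : X => (⟨x, i⟩ : It X J) := by
  ext W hW
  rw [Measure.restrict_apply hW, Measure.map_apply (It.measurable_mk i) hW]
  refine Eq.trans ?_ (nu_layer μ (It.slice hW i) i)
  congr 1
  ext ⟨x, j⟩
  simp only [mem_inter_iff, mem_ofPred_eq]
  constructor
  · rintro ⟨h1, rfl⟩
    exact ⟨rfl, h1⟩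
  · rintro ⟨rfl, h1⟩
    exact ⟨h1, rfl⟩

open Classical in
theorem elem_diag (g : Γ) (i j : J) (f : X → ℝ) :
    (fun ω : It X J => elem g i j f (single ω 1) ω) =
      indicator {ω : It X J | ω.ix = i} fun ω => if i = j ∧ g = 1 then f ω.pt else 0 := by
  funext ⟨x, k⟩
  rw [elem_kernel, Set.indicator_apply]
  simp only [It.mk.injEq, mem_ofPred_eq]
  by_cases h1 : k = i
  · subst h1
    simp only [true_and, if_true]
    congr 1
    refine propext ⟨?_, ?_⟩
    · rintro ⟨h2, h3⟩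
      exact ⟨h3, FPA.free (μ := μ) _ _ h2.symm⟩
    · rintro ⟨h2, rfl⟩
      exact ⟨by simp, h2⟩
  · simp [h1]

/-- the trace -/
noncomputable def tr (J : Type) (a : (It X J →₀ ℝ) →ₗ[ℝ] (It X J →₀ ℝ)) : ℝ :=
  ∫ ω, a (single ω 1) ω ∂(nu μ J)

open Classical in
theorem tr_elem (g : Γ) (i j : J) (f : X → ℝ) :
    tr μ J (elem g i j f) = ∫ x, (if i = j ∧ g = 1 then f x else 0) ∂μ := by
  rw [tr, elem_diag μ, integral_indicator (It.measurableSet_ix (· = i)), nu_restrict_layer,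
    (measurableEmbedding_mk i).integral_map]

theorem Nice.integrable {a : (It X J →₀ ℝ) →ₗ[ℝ] (It X J →₀ ℝ)} (ha : a ∈ Nice Γ X J J) :
    Integrable (fun ω => a (single ω 1) ω) (nu μ J) := by
  classical
  induction ha using Submodule.span_induction with
  | mem a h =>
    obtain ⟨g, i, j, f, hf, rfl⟩ := h
    rw [elem_diag μ, integrable_indicator_iff (It.measurableSet_ix (· = i)), IntegrableOn,
      nu_restrict_layer, (measurableEmbedding_mk i).integrable_map_iff]
    exact (hf.ite _).integrable μ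
  | zero => simp
  | add a c _ _ ha hc => exact ha.add hc
  | smul r a _ ha => exact ha.const_mul r

theorem tr_add {a b : (It X J →₀ ℝ) →ₗ[ℝ] (It X J →₀ ℝ)} (ha : a ∈ Nice Γ X J J)
    (hb : b ∈ Nice Γ X J J) : tr μ J (a + b) = tr μ J a + tr μ J b :=
  integral_add (Nice.integrable μ ha) (Nice.integrable μ hb)

omit hF in
theorem tr_smul (r : ℝ) (a : (It X J →₀ ℝ) →ₗ[ℝ] (It X J →₀ ℝ)) :
    tr μ J (r • a) = r * tr μ J a := integral_const_mul r _

theorem tr_comm {a : (It X J' →₀ ℝ) →ₗ[ℝ] (It X J →₀ ℝ)}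
    {b : (It X J →₀ ℝ) →ₗ[ℝ] (It X J' →₀ ℝ)} (ha : a ∈ Nice Γ X J' J)
    (hb : b ∈ Nice Γ X J J') : tr μ J (a ∘ₗ b) = tr μ J' (b ∘ₗ a) := by
  classical
  induction ha using Submodule.span_induction with
  | mem a h =>
    obtain ⟨g, i, j, f, hf, rfl⟩ := h
    induction hb using Submodule.span_induction with
    | mem b h =>
      obtain ⟨g', i', j', f', hf', rfl⟩ := h
      rw [elem_comp, elem_comp, tr_elem μ, tr_elem μ]
      by_cases h1 : g * g' = 1
      · have h2 : g' * g = 1 := by rw [mul_eq_one_iff_eq_inv] at h1; simp [h1]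
        rw [← integral_gsmul μ g' (((hf.mul (hf'.shift μ g)).ite _).ite _).1]
        congr 1
        funext x
        rw [← mul_smul, h1, one_smul, mul_comm]
        rw [h2]
        have e1 : (i = j') = (j' = i) := propext eq_comm
        have e2 : (j = i') = (i' = j) := propext eq_comm
        by_cases h3 : i' = j <;> by_cases h4 : j' = i <;> simp [e1, e2, h3, h4]
      · have h2 : ¬ g' * g = 1 := fun h2 => h1 (by rw [mul_eq_one_iff_eq_inv] at h2; simp [h2])
        simp [h1, h2]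
    | zero => simp [tr]
    | add b c hb' hc' hb hc =>
      have he := elem_nice g i j hf
      rw [LinearMap.comp_add, LinearMap.add_comp, tr_add μ (Nice.comp μ he hb') (Nice.comp μ he hc'),
        tr_add μ (Nice.comp μ hb' he) (Nice.comp μ hc' he), hb, hc]
    | smul r b _ hb => rw [LinearMap.comp_smul, LinearMap.smul_comp, tr_smul, tr_smul, hb]
  | zero => simp [tr]
  | add a c ha' hc' ha hc =>
    rw [LinearMap.comp_add, LinearMap.add_comp, tr_add μ (Nice.comp μ ha' hb) (Nice.comp μ hc' hb),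
      tr_add μ (Nice.comp μ hb ha') (Nice.comp μ hb hc'), ha, hc]
  | smul r a _ ha => rw [LinearMap.comp_smul, LinearMap.smul_comp, tr_smul, tr_smul, ha]

omit hF in
theorem ip_eq_of_adj {a b : (It X J →₀ ℝ) →ₗ[ℝ] (It X J' →₀ ℝ)}
    {a' : (It X J' →₀ ℝ) →ₗ[ℝ] (It X J →₀ ℝ)} (h : Adj a a') (ω : It X J) :
    ip (a (single ω 1)) (b (single ω 1)) = (a' ∘ₗ b) (single ω 1) ω := by
  rw [h, ip_single, one_mul, LinearMap.comp_apply]

theorem Nice.integrable_ip {a b : (It X J →₀ ℝ) →ₗ[ℝ] (It X J' →₀ ℝ)} (ha : a ∈ Nice Γ X J J')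
    (hb : b ∈ Nice Γ X J J') :
    Integrable (fun ω => ip (a (single ω 1)) (b (single ω 1))) (nu μ J) := by
  obtain ⟨a', h1, h2⟩ := Nice.exists_adj μ ha
  simp only [ip_eq_of_adj h2]
  exact Nice.integrable μ (Nice.comp μ h1 hb)

variable (Γ) in
/-- the Hilbert-Schmidt form -/
noncomputable def hs (J : Type) : Nice Γ X J J →ₗ[ℝ] Nice Γ X J J →ₗ[ℝ] ℝ :=
  LinearMap.mk₂ ℝ (fun a b => ∫ ω, ip (a.1 (single ω 1)) (b.1 (single ω 1)) ∂(nu μ J))
    (fun a a' b => by
      rw [← integral_add (Nice.integrable_ip μ a.2 b.2) (Nice.integrable_ip μ a'.2 b.2)]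
      simp)
    (fun r a b => by
      rw [smul_eq_mul, ← integral_const_mul]
      simp)
    (fun a b b' => by
      rw [← integral_add (Nice.integrable_ip μ a.2 b.2) (Nice.integrable_ip μ a.2 b'.2)]
      simp)
    (fun r a b => by
      rw [smul_eq_mul, ← integral_const_mul]
      simp)

theorem hs_apply (a b : Nice Γ X J J) :
    hs Γ μ J a b = ∫ ω, ip (a.1 (single ω 1)) (b.1 (single ω 1)) ∂(nu μ J) := rfl

set_option maxSynthPendingDepth 5 in
/-- Kaplansky's inequality: an idempotent below a projection has a smaller trace. -/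
theorem tr_le_of_idem {q f : (It X J →₀ ℝ) →ₗ[ℝ] (It X J →₀ ℝ)} (hq : q ∈ Nice Γ X J J)
    (hf : f ∈ Nice Γ X J J) (hqa : Adj q q) (hqq : q ∘ₗ q = q) (hqf : q ∘ₗ f = f)
    (hff : f ∘ₗ f = f) : tr μ J f ≤ tr μ J q := by
  obtain ⟨f', hf', hadj⟩ := Nice.exists_adj μ hf
  obtain ⟨C, hC0, hC⟩ := Nice.bdd hf
  obtain ⟨C', hC0', hC'⟩ := Nice.bdd hf'
  let V : Submodule ℝ (Nice Γ X J J) :=
    { carrier := {y | y.1 ∘ₗ f = 0}
      add_mem' := fun {a b} ha hb => by
        simp only [mem_ofPred_eq, Submodule.coe_add] at ha hb ⊢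
        rw [LinearMap.add_comp, ha, hb, add_zero]
      zero_mem' := by simp
      smul_mem' := fun r a ha => by
        simp only [mem_ofPred_eq, Submodule.coe_smul] at ha ⊢
        rw [LinearMap.smul_comp, ha, smul_zero] }
  have hV : ∀ y, y ∈ V ↔ y.1 ∘ₗ f = 0 := fun y => Iff.rfl
  have hbd : ∀ (c : (It X J →₀ ℝ) →ₗ[ℝ] (It X J →₀ ℝ)) (hc : c ∈ Nice Γ X J J) (D : ℝ),
      D ≤ C + C' → (∀ ξ, ip (c ξ) (c ξ) ≤ D * ip ξ ξ) → ∀ a : Nice Γ X J J,
      hs Γ μ J ⟨c ∘ₗ a.1, Nice.comp μ hc a.2⟩ ⟨c ∘ₗ a.1, Nice.comp μ hc a.2⟩ ≤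
        (C + C') * hs Γ μ J a a := by
    intro c hc D hD h a
    rw [hs_apply, hs_apply, ← integral_const_mul]
    refine integral_mono (Nice.integrable_ip μ (Nice.comp μ hc a.2) (Nice.comp μ hc a.2))
      ((Nice.integrable_ip μ a.2 a.2).const_mul _) fun ω => ?_
    exact (h _).trans (mul_le_mul_of_nonneg_right hD (ip_nonneg _))
  have hq' : ∀ a : Nice Γ X J J, hs Γ μ J ⟨q, hq⟩ a = tr μ J (q ∘ₗ a.1) := by
    intro a
    rw [hs_apply, tr]
    simp only [ip_eq_of_adj hqa]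
  have key := proj_lemma (W := Nice Γ X J J) (hs Γ μ J)
    (fun a b => by simp only [hs_apply, ip_symm (a.1 _)])
    (fun a => integral_nonneg fun ω => ip_nonneg _) V ⟨q, hq⟩
    (fun a => ⟨f ∘ₗ a.1, Nice.comp μ hf a.2⟩) (fun a => ⟨f' ∘ₗ a.1, Nice.comp μ hf' a.2⟩)
    (fun a b => by simp only [hs_apply, LinearMap.comp_apply, hadj.symm _ _])
    (fun a ha => by rw [hV] at ha ⊢; simp only [LinearMap.comp_assoc, ha, LinearMap.comp_zero])
    (fun a ha => by rw [hV] at ha ⊢; simp only [LinearMap.comp_assoc, ha, LinearMap.comp_zero])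
    (C + C') (by positivity) (hbd f hf C (by linarith) hC) (hbd f' hf' C' (by linarith) hC')
    (by
      rw [hV]
      simp only [Submodule.coe_sub, LinearMap.sub_comp, LinearMap.comp_assoc, hqf, hff, sub_self])
    (fun x hx => by
      rw [hq']
      rw [hV] at hx
      simp only
      rw [← LinearMap.comp_assoc, hqf, tr_comm μ hf x.2, hx]
      simp [tr])
  rw [map_sub, hq', hq'] at key
  simp only at key
  rw [hqq, ← LinearMap.comp_assoc, hqf, tr_comm μ hf hq, hqf] at key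
  linarith

/-- criterion for being a finite sum of elementary operators -/
theorem nice_of_kernel {a : (It X J →₀ ℝ) →ₗ[ℝ] (It X J' →₀ ℝ)} (F : Finset Γ) (S : Finset J)
    (S' : Finset J')
    (hs : ∀ ω ω', a (single ω 1) ω' ≠ 0 → ω.ix ∈ S ∧ ω'.ix ∈ S' ∧ ∃ g ∈ F, ω'.pt = g • ω.pt)
    (hm : ∀ (g : Γ) (i : J) (j : J'), BM fun x => a (single ⟨x, i⟩ 1) ⟨g • x, j⟩) :
    a ∈ Nice Γ X J J' := by
  classical
  have : a = ∑ p ∈ F ×ˢ S ×ˢ S',
      elem p.1 p.2.1 p.2.2 fun x => a (single ⟨x, p.2.1⟩ 1) ⟨p.1 • x, p.2.2⟩ := by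
    refine lhom_ext' fun ω => LinearMap.ext_ring (Finsupp.ext fun ω' => ?_)
    simp only [LinearMap.comp_apply, lsingle_apply, LinearMap.sum_apply, Finsupp.finsetSum_apply,
      elem_kernel]
    by_cases h0 : a (single ω 1) ω' = 0
    · rw [h0]
      refine (Finset.sum_eq_zero fun p _ => ?_).symm
      split_ifs with h1
      · obtain ⟨h1, h2⟩ := h1
        rw [← h1, ← h2]
        exact h0
      · rfl
    · obtain ⟨h1, h2, g, h3, h4⟩ := hs ω ω' h0
      have e : ω' = ⟨g • ω.pt, ω'.ix⟩ := It.ext h4 rfl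
      rw [Finset.sum_eq_single (g, ω.ix, ω'.ix)]
      · rw [if_pos ⟨rfl, e⟩, ← e]
      · rintro ⟨g', i, j⟩ _ hne
        rw [if_neg]
        rintro ⟨h5, h6⟩
        apply hne
        rw [e] at h6
        simp only [It.mk.injEq] at h5 h6
        rw [smul_inj_of_free μ h6.1, h5, h6.2]
      · intro h5
        exact absurd (by simp [h1, h2, h3]) h5
  rw [this]
  exact Submodule.sum_mem _ fun p _ => elem_nice _ _ _ (hm _ _ _)

/-- integer chains as real chains -/
noncomputable def cst {α : Type} : (α →₀ ℤ) →+ (α →₀ ℝ) :=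
  Finsupp.mapRange.addMonoidHom (Int.castAddHom ℝ)

omit hF in
theorem cst_apply {α : Type} (ξ : α →₀ ℤ) (a : α) : cst ξ a = (ξ a : ℝ) := rfl

omit hF in
theorem cst_single {α : Type} (a : α) (z : ℤ) : cst (single a z) = single a (z : ℝ) := by
  simp [cst]

/-- the operator of a chain map cut down to a set -/
noncomputable def opk (k : It X J → (It X J' →₀ ℤ)) (D : Set (It X J)) :
    (It X J →₀ ℝ) →ₗ[ℝ] (It X J' →₀ ℝ) :=
  linearCombination ℝ (D.indicator fun ω => cst (k ω))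

omit hF in
theorem opk_single (k : It X J → (It X J' →₀ ℤ)) (D : Set (It X J)) (ω : It X J) :
    opk k D (single ω 1) = D.indicator (fun ω => cst (k ω)) ω := by
  simp [opk]

omit hF in
theorem opk_cst (k : It X J → (It X J' →₀ ℤ)) (D : Set (It X J)) (ξ : It X J →₀ ℤ)
    (h : ∀ ω, ξ ω ≠ 0 → ω ∈ D) : opk k D (cst ξ) = cst (linearCombination ℤ k ξ) := by
  conv_lhs => rw [← Finsupp.sum_single ξ]
  rw [linearCombination_apply, Finsupp.sum, Finsupp.sum, map_sum, map_sum, map_sum]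
  refine Finset.sum_congr rfl fun ω hω => ?_
  rw [cst_single, opk, linearCombination_single,
    Set.indicator_of_mem (h ω (Finsupp.mem_support_iff.1 hω)), map_zsmul, Int.cast_smul_eq_zsmul]

theorem opk_nice [Countable Γ] [Countable J'] {k : It X J → (It X J' →₀ ℤ)} (hk : MC Γ k)
    {c : It X J → ((Γ × J') →₀ ℤ)} (hc : ∀ ω, k ω = relCh ω.pt (c ω)) {D : Set (It X J)}
    (hD : MeasurableSet D) (hS : (It.ix '' D).Finite) (hC : (c '' D).Finite) :
    opk k D ∈ Nice Γ X J J' := by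
  classical
  let P : Finset (Γ × J') := hC.toFinset.biUnion fun c₀ => c₀.support
  refine nice_of_kernel μ (P.image Prod.fst) hS.toFinset (P.image Prod.snd) ?_ ?_
  · intro ω ω' h0
    rw [opk_single] at h0
    have hω : ω ∈ D := by
      by_contra h1
      rw [Set.indicator_of_notMem h1] at h0
      exact h0 rfl
    rw [Set.indicator_of_mem hω, cst_apply, Int.cast_ne_zero] at h0
    obtain ⟨g, hg⟩ := hk.orb _ _ h0
    have e : ω' = ⟨g • ω.pt, ω'.ix⟩ := It.ext hg rfl
    rw [hc, e, relCh_apply μ] at h0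
    have hP : (g, ω'.ix) ∈ P := Finset.mem_biUnion.2
      ⟨c ω, hC.mem_toFinset.2 ⟨ω, hω, rfl⟩, Finsupp.mem_support_iff.2 h0⟩
    exact ⟨hS.mem_toFinset.2 ⟨ω, hω, rfl⟩, Finset.mem_image.2 ⟨_, hP, rfl⟩, g,
      Finset.mem_image.2 ⟨_, hP, rfl⟩, hg⟩
  · intro g i j
    have e : (fun x => opk k D (single ⟨x, i⟩ 1) ⟨g • x, j⟩) =
        (D.indicator fun ω => ((k ω ⟨g • ω.pt, j⟩ : ℤ) : ℝ)) ∘ fun x => (⟨x, i⟩ : It X J) := by
      funext x
      rw [opk_single, Function.comp_apply]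
      by_cases h1 : (⟨x, i⟩ : It X J) ∈ D
      · rw [Set.indicator_of_mem h1, Set.indicator_of_mem h1, cst_apply]
      · rw [Set.indicator_of_notMem h1, Set.indicator_of_notMem h1]
        rfl
    rw [e]
    refine ⟨(((measurable_of_countable (fun z : ℤ => (z : ℝ))).comp
      (hk.measurable g j)).indicator hD).comp (It.measurable_mk i),
      ∑ c₀ ∈ hC.toFinset, |((c₀ (g, j) : ℤ) : ℝ)|, fun x => ?_⟩
    rw [Function.comp_apply]
    by_cases h1 : (⟨x, i⟩ : It X J) ∈ D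
    · rw [Set.indicator_of_mem h1, hc, relCh_apply μ]
      exact Finset.single_le_sum (f := fun c₀ : (Γ × J') →₀ ℤ => |((c₀ (g, j) : ℤ) : ℝ)|)
        (fun _ _ => abs_nonneg _) (hC.mem_toFinset.2 ⟨_, h1, rfl⟩)
    · rw [Set.indicator_of_notMem h1, abs_zero]
      exact Finset.sum_nonneg fun _ _ => abs_nonneg _

/-- the projection to a set of items -/
noncomputable def prj (D : Set (It X J)) : (It X J →₀ ℝ) →ₗ[ℝ] (It X J →₀ ℝ) :=
  opk (fun ω => single ω 1) D

omit hF in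
theorem prj_single (D : Set (It X J)) (ω : It X J) :
    prj D (single ω 1) = D.indicator (fun ω => single ω 1) ω := by
  simp [prj, opk_single, cst_single]

theorem prj_nice [Countable Γ] [Countable J] {D : Set (It X J)} (hD : MeasurableSet D)
    (hS : (It.ix '' D).Finite) : prj D ∈ Nice Γ X J J := by
  refine opk_nice μ (MC.single (OM.eq μ) 1) (c := fun ω => single (1, ω.ix) 1) (fun ω => ?_) hD hS
    ?_
  · simp [relCh]
  · refine (hS.image fun i => single ((1 : Γ), i) (1 : ℤ)).subset ?_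
    rintro _ ⟨ω, hω, rfl⟩
    exact ⟨_, ⟨ω, hω, rfl⟩, rfl⟩

omit hF in
theorem prj_adj (D : Set (It X J)) : Adj (prj D) (prj D) := by
  classical
  refine adj_of_kernel fun ω ω' => ?_
  rw [prj_single, prj_single]
  by_cases h : ω = ω'
  · rw [h]
  · by_cases h1 : ω ∈ D <;> by_cases h2 : ω' ∈ D <;> simp [h1, h2, h, Ne.symm h]

omit hF in
theorem tr_prj {D : Set (It X J)} (hD : MeasurableSet D) :
    tr μ J (prj D) = (nu μ J D).toReal := by
  rw [tr, ← measureReal_def, ← integral_indicator_one hD]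
  congr 1
  funext ω
  rw [prj_single]
  by_cases h1 : ω ∈ D <;> simp [h1]

omit hF in
theorem opk_prj (k : It X J → (It X J' →₀ ℤ)) (D : Set (It X J)) :
    opk k D ∘ₗ prj D = opk k D := by
  refine lhom_ext' fun ω => LinearMap.ext_ring ?_
  simp only [LinearMap.comp_apply, lsingle_apply, prj_single]
  by_cases h1 : ω ∈ D
  · rw [Set.indicator_of_mem h1]
  · rw [Set.indicator_of_notMem h1, opk_single, Set.indicator_of_notMem h1, map_zero]

omit hF in
theorem opk_opk (k : It X J → (It X J' →₀ ℤ)) (D : Set (It X J))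
    (k' : It X J' → (It X J'' →₀ ℤ)) (D' : Set (It X J')) (k'' : It X J → (It X J'' →₀ ℤ))
    (h : ∀ ω ∈ D, (∀ ω', k ω ω' ≠ 0 → ω' ∈ D') ∧ linearCombination ℤ k' (k ω) = k'' ω) :
    opk k' D' ∘ₗ opk k D = opk k'' D := by
  refine lhom_ext' fun ω => LinearMap.ext_ring ?_
  simp only [LinearMap.comp_apply, lsingle_apply, opk_single]
  by_cases h1 : ω ∈ D
  · rw [Set.indicator_of_mem h1, Set.indicator_of_mem h1, opk_cst _ _ _ (h ω h1).1, (h ω h1).2]
  · rw [Set.indicator_of_notMem h1, Set.indicator_of_notMem h1, map_zero]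

omit hF in
theorem nu_ne_top {D : Set (It X J)} (hS : (It.ix '' D).Finite) : nu μ J D ≠ ⊤ := by
  have h1 : D ⊆ ⋃ i ∈ It.ix '' D, {ω : It X J | ω.ix = i ∧ ω.pt ∈ (univ : Set X)} := by
    intro ω hω
    simp only [mem_iUnion]
    exact ⟨ω.ix, ⟨ω, hω, rfl⟩, rfl, trivial⟩
  refine ne_top_of_le_ne_top (measure_biUnion_ne_top hS fun i _ => ?_) (measure_mono h1)
  rw [nu_layer μ MeasurableSet.univ]
  exact measure_ne_top _ _

/-- the inequality for truncated data -/
theorem nu_le_trunc [Countable Γ] [Countable J] [Countable J'] {T : It X J' → (It X J →₀ ℤ)}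
    (hT : MC Γ T) {cT : It X J' → ((Γ × J) →₀ ℤ)} (hcT : ∀ ω, T ω = relCh ω.pt (cT ω))
    {U : It X J → (It X J' →₀ ℤ)} (hU : MC Γ U) {cU : It X J → ((Γ × J') →₀ ℤ)}
    (hcU : ∀ ω, U ω = relCh ω.pt (cU ω)) {A : Set (It X J)} {B : Set (It X J')}
    (hA : MeasurableSet A) (hB : MeasurableSet B) (hA1 : (It.ix '' A).Finite)
    (hA2 : (cU '' A).Finite) (hB1 : (It.ix '' B).Finite) (hB2 : (cT '' B).Finite)
    (h : ∀ e ∈ A, (∀ s, U e s ≠ 0 → s ∈ B) ∧ linearCombination ℤ T (U e) = single e 1) :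
    nu μ J A ≤ nu μ J' B := by
  have hu := opk_nice μ hU hcU hA hA1 hA2
  have ht := opk_nice μ hT hcT hB hB1 hB2
  have e1 : opk T B ∘ₗ opk U A = prj A := opk_opk _ _ _ _ _ h
  have e2 : prj B ∘ₗ opk U A = opk U A :=
    opk_opk _ _ _ _ _ fun e he => ⟨(h e he).1, by
      rw [linearCombination_apply]
      simp⟩
  have key := tr_le_of_idem μ (prj_nice μ hB hB1) (Nice.comp μ hu ht) (prj_adj B) (opk_prj _ _)
    (by rw [← LinearMap.comp_assoc, e2])
    (by rw [LinearMap.comp_assoc, ← LinearMap.comp_assoc _ _ (opk T B), e1,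
      ← LinearMap.comp_assoc, opk_prj])
  rw [tr_comm μ hu ht, e1, tr_prj μ hA, tr_prj μ hB] at key
  exact (ENNReal.toReal_le_toReal (nu_ne_top μ hA1) (nu_ne_top μ hB1)).1 key

end nice

end Kap

open Kap in
/-- If every item of `A` is an integer combination of the chains of items of `B`, then
`ν A ≤ ν B`. -/
theorem nu_le_of_span {Γ X J J' : Type} [Group Γ] [Countable Γ] [MulAction Γ X]
    [MeasurableSpace X] [Countable J] [Countable J'] (μ : Measure X) [IsProbabilityMeasure μ]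
    [FPA Γ μ] {T : It X J' → (It X J →₀ ℤ)} (hT : MC Γ T) {A : Set (It X J)} {B : Set (It X J')}
    (hA : MeasurableSet A) (hB : MeasurableSet B)
    (h : ∀ e ∈ A, Finsupp.single e 1 ∈ Submodule.span ℤ (T '' B)) : nu μ J A ≤ nu μ J' B := by
  classical
  obtain ⟨U, hU, hU2⟩ := MC.solve μ hT (MC.single (OM.eq (J := J) μ) 1) hB
  obtain ⟨cT, hcT1, hcT⟩ := hT.exists_rel μ
  obtain ⟨cU, hcU1, hcU⟩ := hU.exists_rel μ
  obtain ⟨rA, hrA⟩ := exists_injective_nat (J × ((Γ × J') →₀ ℤ))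
  obtain ⟨rB, hrB⟩ := exists_injective_nat (J' × ((Γ × J) →₀ ℤ))
  have meas : ∀ {K L : Type} [Countable K] [Countable L] (c : It X K → L)
      (hc : ∀ c₀, MeasurableSet {ω | c ω = c₀}) (r : K × L → ℕ) (n : ℕ),
      MeasurableSet {ω : It X K | r (ω.ix, c ω) < n} := by
    intro K L _ _ c hc r n
    have : {ω : It X K | r (ω.ix, c ω) < n} =
        ⋃ c₀, {ω | c ω = c₀} ∩ {ω | r (ω.ix, c₀) < n} := by
      ext ω; simp
    rw [this]
    exact MeasurableSet.iUnion fun c₀ => (hc c₀).inter (It.measurableSet_ix fun i => r (i, c₀) < n)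
  have fin : ∀ {K L : Type} (c : It X K → L) (r : K × L → ℕ) (hr : Function.Injective r) (n : ℕ)
      (D : Set (It X K)) (hD : ∀ ω ∈ D, r (ω.ix, c ω) < n),
      (It.ix '' D).Finite ∧ (c '' D).Finite := by
    intro K L c r hr n D hD
    have h1 : (r ⁻¹' Iio n).Finite := (finite_Iio n).preimage hr.injOn
    refine ⟨(h1.image Prod.fst).subset ?_, (h1.image Prod.snd).subset ?_⟩
    · rintro _ ⟨ω, hω, rfl⟩
      exact ⟨_, hD ω hω, rfl⟩
    · rintro _ ⟨ω, hω, rfl⟩
      exact ⟨_, hD ω hω, rfl⟩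
  let Bn : ℕ → Set (It X J') := fun n => B ∩ {s | rB (s.ix, cT s) < n}
  have hBn : ∀ n, MeasurableSet (Bn n) := fun n => hB.inter (meas cT hcT1 rB n)
  let An : ℕ → Set (It X J) := fun n =>
    (A ∩ {e | rA (e.ix, cU e) < n}) ∩ {e | ∀ s, U e s ≠ 0 → s ∈ Bn n}
  have hAn : ∀ n, MeasurableSet (An n) := fun n =>
    (hA.inter (meas cU hcU1 rA n)).inter (hU.om_support.measurableSet_all_mem μ (hBn n))
  have hmono : Monotone An := by
    rintro n m hnm e ⟨⟨h1, h2⟩, h3⟩
    exact ⟨⟨h1, lt_of_lt_of_le h2 hnm⟩, fun s hs => ⟨(h3 s hs).1, lt_of_lt_of_le (h3 s hs).2 hnm⟩⟩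
  have hU : A ⊆ ⋃ n, An n := by
    intro e he
    refine mem_iUnion.2 ⟨max (rA (e.ix, cU e)) ((U e).support.sup fun s => rB (s.ix, cT s)) + 1,
      ⟨he, Nat.lt_succ_of_le (le_max_left _ _)⟩, fun s hs => ⟨(hU2 e (h e he)).1 s hs, ?_⟩⟩
    exact Nat.lt_succ_of_le (le_trans (Finset.le_sup (f := fun s => rB (s.ix, cT s))
      (Finsupp.mem_support_iff.2 hs)) (le_max_right _ _))
  refine (measure_mono hU).trans ?_
  rw [hmono.measure_iUnion]
  refine iSup_le fun n => le_trans ?_ (measure_mono (inter_subset_left : Bn n ⊆ B))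
  obtain ⟨a1, a2⟩ := fin cU rA hrA n (An n) fun e he => he.1.2
  obtain ⟨b1, b2⟩ := fin cT rB hrB n (Bn n) fun s hs => hs.2
  exact nu_le_trunc μ hT hcT ‹MC Γ U› hcU (hAn n) (hBn n) a1 a2 b1 b2
    fun e he => ⟨he.2, (hU2 e (h e he.1.1)).2⟩

end Crest.Agent.R191
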