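import Crest.Agent.R191.MT

/-! Measurable chain maps. -/

set_option autoImplicit false
set_option linter.unusedVariables false
set_option linter.unusedSectionVars false

namespace Crest.Agent.R191

open MeasureTheory Set Finsupp
open scoped ENNReal

variable {Γ X J J' J'' : Type} [Group Γ] [MulAction Γ X] [MeasurableSpace X]

/-- the chain described by relative coordinates from the base point `x` -/
noncomputable def relCh (x : X) (c : (Γ × J) →₀ ℤ) : It X J →₀ ℤ :=
  c.mapDomain fun p => ⟨p.1 • x, p.2⟩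

theorem MC.of_pieces {ι : Type} [Countable ι] {c : It X J → ι}
    (hc : ∀ i, MeasurableSet {ω | c ω = i}) {k : ι → It X J → (It X J' →₀ ℤ)}
    (hk : ∀ i, MC Γ (k i)) : MC Γ (fun ω => k (c ω) ω) where
  orb := fun ω ω' e => (hk _).orb _ _ e
  meas := fun g j z => by
    have : {ω | k (c ω) ω ⟨g • ω.pt, j⟩ = z} =
        ⋃ i, {ω | c ω = i} ∩ {ω | k i ω ⟨g • ω.pt, j⟩ = z} := by
      ext ω; simp
    rw [this]
    exact MeasurableSet.iUnion fun i => (hc i).inter ((hk i).meas g j z)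

theorem MC.zero : MC Γ (fun _ : It X J => (0 : It X J' →₀ ℤ)) where
  orb := fun ω ω' e => absurd rfl e
  meas := fun g j z => by
    by_cases h : (0 : ℤ) = z <;> simp [h]

theorem MC.ite {k k' : It X J → (It X J' →₀ ℤ)} (hk : MC Γ k) (hk' : MC Γ k') {P : It X J → Prop}
    [DecidablePred P] (hP : MeasurableSet {ω | P ω}) :
    MC Γ (fun ω => if P ω then k ω else k' ω) := by
  have := MC.of_pieces (Γ := Γ) (c := fun ω => decide (P ω)) (k := fun b => if b then k else k')
    (fun b => by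
      cases b
      · convert hP.compl using 1
        ext ω; simp
      · convert hP using 1
        ext ω; simp)
    (fun b => by cases b <;> simpa)
  convert this using 2 with ω
  by_cases h : P ω <;> simp [h]

theorem MC.measurable {k : It X J → (It X J' →₀ ℤ)} (hk : MC Γ k) (g : Γ) (j : J') :
    Measurable fun ω => k ω ⟨g • ω.pt, j⟩ :=
  measurable_to_countable' fun z => hk.meas g j z

theorem MC.of_measurable {k : It X J → (It X J' →₀ ℤ)}
    (orb : ∀ ω ω', k ω ω' ≠ 0 → ∃ g : Γ, ω'.pt = g • ω.pt)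
    (h : ∀ (g : Γ) (j : J'), Measurable fun ω => k ω ⟨g • ω.pt, j⟩) : MC Γ k :=
  ⟨orb, fun g j z => h g j (measurableSet_singleton z)⟩

theorem MC.add {k k' : It X J → (It X J' →₀ ℤ)} (hk : MC Γ k) (hk' : MC Γ k') :
    MC Γ (fun ω => k ω + k' ω) := by
  refine MC.of_measurable (fun ω ω' e => ?_) fun g j => (hk.measurable g j).add (hk'.measurable g j)
  by_cases h : k ω ω' = 0
  · exact hk'.orb _ _ (by simpa [h] using e)
  · exact hk.orb _ _ h

theorem MC.smul {k : It X J → (It X J' →₀ ℤ)} (hk : MC Γ k) (z : ℤ) :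
    MC Γ (fun ω => z • k ω) := by
  refine MC.of_measurable (fun ω ω' e => hk.orb _ _ fun h => e (by simp [h])) fun g j => ?_
  exact (hk.measurable g j).const_mul z

theorem MC.neg {k : It X J → (It X J' →₀ ℤ)} (hk : MC Γ k) : MC Γ (fun ω => - k ω) := by
  simpa using hk.smul (-1)

theorem MC.sub {k k' : It X J → (It X J' →₀ ℤ)} (hk : MC Γ k) (hk' : MC Γ k') :
    MC Γ (fun ω => k ω - k' ω) := by
  simpa [sub_eq_add_neg] using hk.add hk'.neg

theorem MC.sum {ι : Type*} (s : Finset ι) {k : ι → It X J → (It X J' →₀ ℤ)}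
    (hk : ∀ i ∈ s, MC Γ (k i)) : MC Γ (fun ω => ∑ i ∈ s, k i ω) := by
  classical
  induction s using Finset.induction_on with
  | empty => simpa using MC.zero
  | insert a s ha ih =>
    simp only [Finset.sum_insert ha]
    exact (hk a (by simp)).add (ih fun i hi => hk i (by simp [hi]))

theorem MC.single {f : It X J → It X J'} (hf : OM Γ (fun ω ω' => ω' = f ω)) (z : ℤ) :
    MC Γ (fun ω => Finsupp.single (f ω) z) := by
  classical
  refine MC.of_measurable (fun ω ω' e => hf.orb _ _ ?_) fun g j => ?_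
  · by_contra h
    exact e (single_eq_of_ne h)
  · simp only [single_apply]
    refine Measurable.ite ?_ measurable_const measurable_const
    convert hf.meas g j using 1
    ext ω
    exact eq_comm

/-- the support relation of a measurable chain map -/
theorem MC.om_support {k : It X J → (It X J' →₀ ℤ)} (hk : MC Γ k) :
    OM Γ (fun ω ω' => k ω ω' ≠ 0) :=
  ⟨hk.orb, fun g j => (hk.meas g j 0).compl⟩

theorem MC.om_eq {k : It X J → (It X J' →₀ ℤ)} (hk : MC Γ k) {z : ℤ} (hz : z ≠ 0) :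
    OM Γ (fun ω ω' => k ω ω' = z) :=
  ⟨fun ω ω' e => hk.orb _ _ (e ▸ hz), fun g j => hk.meas g j z⟩

/-- a chain map on a sum of label types -/
theorem MC.sumElim {k : It X J → (It X J'' →₀ ℤ)} {k' : It X J' → (It X J'' →₀ ℤ)} (hk : MC Γ k)
    (hk' : MC Γ k') : MC Γ (fun ω : It X (J ⊕ J') =>
      Sum.elim (fun j => k ⟨ω.pt, j⟩) (fun j => k' ⟨ω.pt, j⟩) ω.ix) where
  orb := fun ⟨x, j⟩ ω' e => by
    cases j with
    | inl j => exact hk.orb _ _ e
    | inr j => exact hk'.orb _ _ e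
  meas := fun g j z => It.measurableSet_iff.2 fun i => by
    cases i with
    | inl i => exact It.slice (hk.meas g j z) i
    | inr i => exact It.slice (hk'.meas g j z) i

/-- it is enough to check layer by layer -/
theorem MC.of_layers {k : It X J → (It X J'' →₀ ℤ)}
    (h : ∀ j, MC Γ (fun ω : It X Unit => k ⟨ω.pt, j⟩)) : MC Γ k where
  orb := fun ⟨x, j⟩ ω' e => (h j).orb ⟨x, ()⟩ _ e
  meas := fun g j z => It.measurableSet_iff.2 fun i => It.slice ((h i).meas g j z) ()

section
variable [Countable Γ] [Countable J'] (μ : Measure X) [h : FPA Γ μ]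
include h

theorem relCh_inj (x : X) : Function.Injective fun p : Γ × J => (⟨p.1 • x, p.2⟩ : It X J) := by
  intro p q e
  simp only [It.mk.injEq] at e
  exact Prod.ext (smul_inj_of_free μ e.1) e.2

theorem relCh_apply (x : X) (c : (Γ × J) →₀ ℤ) (g : Γ) (j : J) :
    relCh x c ⟨g • x, j⟩ = c (g, j) :=
  mapDomain_apply (relCh_inj μ x) c (g, j)

omit h in
theorem relCh_orb (x : X) (c : (Γ × J) →₀ ℤ) (ω' : It X J) (e : relCh x c ω' ≠ 0) :
    ∃ g : Γ, ω'.pt = g • x := by
  classical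
  have := mapDomain_support (Finsupp.mem_support_iff.2 e)
  simp only [Finset.mem_image] at this
  obtain ⟨p, -, rfl⟩ := this
  exact ⟨p.1, rfl⟩

theorem MC.relCh_const (c : (Γ × J') →₀ ℤ) : MC Γ (fun ω : It X J => relCh ω.pt c) :=
  MC.of_measurable (fun ω ω' e => relCh_orb _ _ _ e) fun g j => by
    simp only [relCh_apply μ]
    exact measurable_const

theorem MC.measurableSet_eq {k k' : It X J → (It X J' →₀ ℤ)} (hk : MC Γ k) (hk' : MC Γ k') :
    MeasurableSet {ω | k ω = k' ω} := by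
  have : {ω | k ω = k' ω} =
      ⋂ (g : Γ) (j : J'), {ω | k ω ⟨g • ω.pt, j⟩ = k' ω ⟨g • ω.pt, j⟩} := by
    ext ω
    simp only [mem_ofPred_eq, mem_iInter]
    refine ⟨fun e g j => by rw [e], fun e => ?_⟩
    ext ω'
    by_cases h1 : ∃ g : Γ, ω'.pt = g • ω.pt
    · obtain ⟨g, hg⟩ := h1
      have e2 : ω' = ⟨g • ω.pt, ω'.ix⟩ := It.ext hg rfl
      rw [e2]; exact e g _
    · have e1 : k ω ω' = 0 := by_contra fun h2 => h1 (hk.orb _ _ h2)
      have e2 : k' ω ω' = 0 := by_contra fun h2 => h1 (hk'.orb _ _ h2)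
      rw [e1, e2]
  rw [this]
  exact MeasurableSet.iInter fun g => MeasurableSet.iInter fun j =>
    measurableSet_eq_fun (hk.measurable g j) (hk'.measurable g j)

theorem exists_relCh (x : X) (ξ : It X J →₀ ℤ) (hξ : ∀ ω', ξ ω' ≠ 0 → ∃ g : Γ, ω'.pt = g • x) :
    ∃ c : (Γ × J) →₀ ℤ, ξ = relCh x c := by
  refine ⟨ξ.comapDomain _ (relCh_inj μ x).injOn, ?_⟩
  ext ω'
  by_cases h1 : ∃ g : Γ, ω'.pt = g • x
  · obtain ⟨g, hg⟩ := h1
    have e2 : ω' = ⟨g • x, ω'.ix⟩ := It.ext hg rfl
    rw [e2, relCh_apply μ]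
    simp
  · have e1 : ξ ω' = 0 := by_contra fun h2 => h1 (hξ _ h2)
    rw [e1]
    by_contra h2
    exact h1 (relCh_orb _ _ _ (Ne.symm h2))

theorem MC.exists_rel {k : It X J → (It X J' →₀ ℤ)} (hk : MC Γ k) :
    ∃ c : It X J → ((Γ × J') →₀ ℤ), (∀ c₀, MeasurableSet {ω | c ω = c₀}) ∧
      ∀ ω, k ω = relCh ω.pt (c ω) := by
  choose c hc using fun ω => exists_relCh μ ω.pt (k ω) (hk.orb ω)
  refine ⟨c, fun c₀ => ?_, hc⟩
  convert hk.measurableSet_eq μ (MC.relCh_const μ c₀) using 1
  ext ω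
  simp only [mem_ofPred_eq]
  rw [hc]
  exact (mapDomain_injective (relCh_inj μ ω.pt)).eq_iff.symm

theorem MC.comp_fun {f : It X J → It X J'} (hf : OM Γ (fun ω ω' => ω' = f ω))
    {k : It X J' → (It X J'' →₀ ℤ)} (hk : MC Γ k) : MC Γ (fun ω => k (f ω)) where
  orb := (hf.comap_left μ hk.om_support).orb
  meas := fun g j z => by
    by_cases hz : z = 0
    · subst hz
      convert ((hf.comap_left μ hk.om_support).meas g j).compl using 1
      ext ω; simp
    · exact (hf.comap_left μ (hk.om_eq hz)).meas g j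

omit h in
theorem lc_relCh (k : It X J' → (It X J'' →₀ ℤ)) (x : X) (c : (Γ × J') →₀ ℤ) :
    linearCombination ℤ k (relCh x c) = ∑ p ∈ c.support, c p • k ⟨p.1 • x, p.2⟩ := by
  rw [relCh, linearCombination_mapDomain, linearCombination_apply, Finsupp.sum]
  rfl

/-- composition of measurable chain maps -/
theorem MC.bind {k : It X J → (It X J' →₀ ℤ)} (hk : MC Γ k)
    {k' : It X J' → (It X J'' →₀ ℤ)} (hk' : MC Γ k') :
    MC Γ (fun ω => linearCombination ℤ k' (k ω)) := by
  obtain ⟨c, hc1, hc2⟩ := hk.exists_rel μ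
  have := MC.of_pieces (Γ := Γ) hc1
    (k := fun c₀ ω => linearCombination ℤ k' (relCh ω.pt c₀)) fun c₀ => by
      simp only [lc_relCh]
      exact MC.sum _ fun p _ => (hk'.comp_fun μ (OM.shift μ p.1 fun _ => p.2)).smul _
  simpa only [hc2] using this

theorem MC.mapDomain {k : It X J → (It X J' →₀ ℤ)} (hk : MC Γ k) {f : It X J' → It X J''}
    (hf : OM Γ (fun ω ω' => ω' = f ω)) : MC Γ (fun ω => (k ω).mapDomain f) := by
  convert hk.bind μ (MC.single hf 1) using 2 with ω
  rw [linearCombination_apply, Finsupp.mapDomain]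
  simp

/-- Linear equations that can be solved can be solved measurably. -/
theorem MC.solve [Countable J''] {T : It X J' → (It X J'' →₀ ℤ)} (hT : MC Γ T)
    {ξ : It X J → (It X J'' →₀ ℤ)} (hξ : MC Γ ξ) {B : Set (It X J')} (hB : MeasurableSet B) :
    ∃ U : It X J → (It X J' →₀ ℤ), MC Γ U ∧ ∀ ω, ξ ω ∈ Submodule.span ℤ (T '' B) →
      (∀ ω', U ω ω' ≠ 0 → ω' ∈ B) ∧ linearCombination ℤ T (U ω) = ξ ω := by
  classical
  obtain ⟨c, hc1, hc2⟩ := exists_measurable_choice (α := It X J) (ι := (Γ × J') →₀ ℤ)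
    (P := fun ω c₀ => (∀ ω', relCh ω.pt c₀ ω' ≠ 0 → ω' ∈ B) ∧
      linearCombination ℤ T (relCh ω.pt c₀) = ξ ω) fun c₀ =>
    ((MC.relCh_const μ c₀).om_support.measurableSet_all_mem μ hB).inter
      (((MC.relCh_const μ c₀).bind μ hT).measurableSet_eq μ hξ)
  refine ⟨fun ω => relCh ω.pt (c ω),
    MC.of_pieces hc1 (k := fun c₀ ω => relCh ω.pt c₀) fun c₀ => MC.relCh_const μ c₀, ?_⟩
  intro ω hω
  apply hc2
  obtain ⟨l, hl1, hl2⟩ := (Finsupp.mem_span_image_iff_linearCombination ℤ).1 hω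
  let O : It X J' → Prop := fun ω' => ∃ g : Γ, ω'.pt = g • ω.pt
  obtain ⟨c₀, hc₀⟩ := exists_relCh μ ω.pt (l.filter O) (fun ω' e => by
    by_contra h1
    exact e (filter_apply_neg _ _ h1))
  refine ⟨c₀, ?_, ?_⟩
  · intro ω' e
    rw [← hc₀] at e
    refine hl1 (Finsupp.mem_support_iff.2 fun h1 => e ?_)
    simp [filter_apply, h1]
  · rw [← hc₀]
    ext ω''
    by_cases h1 : ∃ g : Γ, ω''.pt = g • ω.pt
    · rw [← hl2]
      conv_rhs => rw [← filter_add_filter_not l O]
      rw [map_add, Finsupp.add_apply, left_eq_add, linearCombination_apply, Finsupp.sum,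
        Finsupp.finsetSum_apply]
      refine Finset.sum_eq_zero fun b hb => ?_
      have hb' : ¬ O b := by
        simp only [support_filter, Finset.mem_filter] at hb
        exact hb.2
      have : T b ω'' = 0 := by
        by_contra h2
        obtain ⟨g, hg⟩ := hT.orb _ _ h2
        obtain ⟨g', hg'⟩ := h1
        exact hb' ⟨g⁻¹ * g', by rw [mul_smul, ← hg', hg, inv_smul_smul]⟩
      simp [this]
    · have e1 : ξ ω ω'' = 0 := by_contra fun h2 => h1 (hξ.orb _ _ h2)
      rw [e1, linearCombination_apply, Finsupp.sum, Finsupp.finsetSum_apply]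
      refine Finset.sum_eq_zero fun b hb => ?_
      have hb' : O b := by
        simp only [support_filter, Finset.mem_filter] at hb
        exact hb.2
      have : T b ω'' = 0 := by
        by_contra h2
        obtain ⟨g, hg⟩ := hT.orb _ _ h2
        obtain ⟨g', hg'⟩ := hb'
        exact h1 ⟨g * g', by rw [mul_smul, ← hg', hg]⟩
      simp [this]

end

end Crest.Agent.R191
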