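import Crest.Agent.R191.Defs

/-! Mass transport toolkit for items over a free measure preserving action. -/

set_option autoImplicit false
set_option linter.unusedVariables false
set_option linter.unusedSectionVars false

namespace Crest.Agent.R191

open MeasureTheory Set
open scoped ENNReal

variable {Γ X J J' J'' : Type} [Group Γ] [MulAction Γ X] [MeasurableSpace X]

theorem It.measurableSet_iff {W : Set (It X J)} :
    MeasurableSet W ↔ ∀ j, MeasurableSet {x | (⟨x, j⟩ : It X J) ∈ W} := by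
  change MeasurableSet[⨅ j : J, _] W ↔ _
  rw [MeasurableSpace.measurableSet_iInf]
  rfl

theorem It.measurable_mk (j : J) : Measurable (fun x : X => (⟨x, j⟩ : It X J)) :=
  fun _ hW => It.measurableSet_iff.1 hW j

theorem It.slice {W : Set (It X J)} (hW : MeasurableSet W) (j : J) :
    MeasurableSet {x | (⟨x, j⟩ : It X J) ∈ W} := It.measurableSet_iff.1 hW j

theorem It.measurable_of_slices {β : Type} [MeasurableSpace β] {f : It X J → β}
    (h : ∀ j, Measurable fun x => f ⟨x, j⟩) : Measurable f :=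
  fun _ hs => It.measurableSet_iff.2 fun j => h j hs

theorem It.measurable_pt : Measurable (It.pt : It X J → X) :=
  It.measurable_of_slices fun _ => measurable_id

theorem It.measurableSet_pt {A : Set X} (hA : MeasurableSet A) :
    MeasurableSet {ω : It X J | ω.pt ∈ A} := It.measurable_pt hA

theorem It.measurableSet_ix (P : J → Prop) : MeasurableSet {ω : It X J | P ω.ix} :=
  It.measurableSet_iff.2 fun j => by
    by_cases h : P j <;> simp [h]

theorem nu_apply (μ : Measure X) {W : Set (It X J)} (hW : MeasurableSet W) :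
    nu μ J W = ∑' j, μ {x | (⟨x, j⟩ : It X J) ∈ W} := by
  rw [nu, Measure.sum_apply _ hW]
  congr 1
  funext j
  rw [Measure.map_apply (It.measurable_mk j) hW]
  rfl

theorem nu_layer (μ : Measure X) {A : Set X} (hA : MeasurableSet A) (j : J) :
    nu μ J {ω | ω.ix = j ∧ ω.pt ∈ A} = μ A := by
  classical
  have hm : MeasurableSet {ω : It X J | ω.ix = j ∧ ω.pt ∈ A} :=
    (It.measurableSet_ix (· = j)).inter (It.measurableSet_pt hA)
  rw [nu_apply μ hm, tsum_eq_single j]
  · simp
  · intro j' hj'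
    simp [hj']

theorem nu_unit (μ : Measure X) {A : Set X} (hA : MeasurableSet A) :
    nu μ Unit {ω | ω.pt ∈ A} = μ A := by
  rw [← nu_layer μ hA ()]
  simp

section
variable (μ : Measure X) [h : FPA Γ μ]
include h

theorem measurable_gsmul (g : Γ) : Measurable fun x : X => g • x := (FPA.mp (μ := μ) g).measurable

theorem smul_inj_of_free {g g' : Γ} {x : X} (e : g • x = g' • x) : g = g' := by
  have : (g'⁻¹ * g) • x = x := by rw [mul_smul, e, inv_smul_smul]
  have := FPA.free (μ := μ) _ _ this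
  rw [inv_mul_eq_one] at this
  exact this.symm

theorem measure_preimage_gsmul (g : Γ) {A : Set X} (hA : MeasurableSet A) :
    μ {x | g • x ∈ A} = μ A :=
  (FPA.mp (μ := μ) g).measure_preimage hA.nullMeasurableSet

theorem It.measurable_shift (g : Γ) (f : J → J') :
    Measurable fun ω : It X J => (⟨g • ω.pt, f ω.ix⟩ : It X J') :=
  It.measurable_of_slices fun j => (It.measurable_mk (f j)).comp (measurable_gsmul μ g)

theorem It.measurableSet_shift (g : Γ) (j : J') {W : Set (It X J')} (hW : MeasurableSet W) :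
    MeasurableSet {ω : It X J | (⟨g • ω.pt, j⟩ : It X J') ∈ W} :=
  It.measurable_shift μ g (fun _ => j) hW

theorem measurableSet_smul_eq (g g' : Γ) : MeasurableSet {x : X | g • x = g' • x} := by
  by_cases e : g = g'
  · simp [e]
  · have : {x : X | g • x = g' • x} = ∅ := by
      ext x
      simp only [mem_ofPred_eq, mem_empty_iff_false, iff_false]
      exact fun e' => e (smul_inj_of_free μ e')
    simp [this]

/-- The graph of a translation with relabelling is orbit-measurable. -/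
theorem OM.shift (g : Γ) (f : J → J') :
    OM Γ (fun (ω : It X J) (ω' : It X J') => ω' = ⟨g • ω.pt, f ω.ix⟩) where
  orb := fun ω ω' e => ⟨g, by rw [e]⟩
  meas := fun g' j => by
    have : {ω : It X J | (⟨g' • ω.pt, j⟩ : It X J') = ⟨g • ω.pt, f ω.ix⟩} =
        {ω | ω.pt ∈ {x : X | g' • x = g • x}} ∩ {ω | j = f ω.ix} := by
      ext ω; simp
    rw [this]
    exact (It.measurableSet_pt (measurableSet_smul_eq μ g' g)).inter
      (It.measurableSet_ix fun i => j = f i)

theorem OM.eq : OM Γ (fun (ω ω' : It X J) => ω' = ω) := by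
  have := OM.shift (X := X) μ (1 : Γ) (fun j : J => j)
  simpa using this

theorem OM.meas2 {R : It X J → It X J' → Prop} (hR : OM Γ R) (g g' : Γ) (j : J) (j' : J') :
    MeasurableSet {x : X | R ⟨g • x, j⟩ ⟨g' • x, j'⟩} := by
  have := measurable_gsmul μ g (It.slice (hR.meas (g' * g⁻¹) j') j)
  simpa [mul_smul] using this

theorem OM.flip {R : It X J → It X J' → Prop} (hR : OM Γ R) :
    OM Γ (fun ω' ω => R ω ω') where
  orb := fun ω' ω e => by
    obtain ⟨g, hg⟩ := hR.orb _ _ e
    exact ⟨g⁻¹, by rw [hg, inv_smul_smul]⟩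
  meas := fun g j => It.measurableSet_iff.2 fun j' => by
    simpa using hR.meas2 μ g 1 j j'

theorem OM.and_right {R : It X J → It X J' → Prop} (hR : OM Γ R) {B : Set (It X J')}
    (hB : MeasurableSet B) : OM Γ (fun ω ω' => R ω ω' ∧ ω' ∈ B) where
  orb := fun ω ω' e => hR.orb _ _ e.1
  meas := fun g j => (hR.meas g j).inter (It.measurableSet_shift μ g j hB)

end

theorem OM.and_left {R : It X J → It X J' → Prop} (hR : OM Γ R) {A : Set (It X J)}
    (hA : MeasurableSet A) : OM Γ (fun ω ω' => ω ∈ A ∧ R ω ω') where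
  orb := fun ω ω' e => hR.orb _ _ e.2
  meas := fun g j => hA.inter (hR.meas g j)

theorem OM.and {R S : It X J → It X J' → Prop} (hR : OM Γ R) (hS : OM Γ S) :
    OM Γ (fun ω ω' => R ω ω' ∧ S ω ω') where
  orb := fun ω ω' e => hR.orb _ _ e.1
  meas := fun g j => (hR.meas g j).inter (hS.meas g j)

theorem OM.and_not {R S : It X J → It X J' → Prop} (hR : OM Γ R) (hS : OM Γ S) :
    OM Γ (fun ω ω' => R ω ω' ∧ ¬ S ω ω') where
  orb := fun ω ω' e => hR.orb _ _ e.1
  meas := fun g j => (hR.meas g j).inter (hS.meas g j).compl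

/-- intersect with a condition on the two labels -/
theorem OM.and_ix {R : It X J → It X J' → Prop} (hR : OM Γ R) (P : J → J' → Prop) :
    OM Γ (fun ω ω' => R ω ω' ∧ P ω.ix ω'.ix) where
  orb := fun ω ω' e => hR.orb _ _ e.1
  meas := fun g j => (hR.meas g j).inter (It.measurableSet_ix fun i => P i j)

theorem OM.or {R S : It X J → It X J' → Prop} (hR : OM Γ R) (hS : OM Γ S) :
    OM Γ (fun ω ω' => R ω ω' ∨ S ω ω') where
  orb := fun ω ω' e => e.elim (hR.orb _ _) (hS.orb _ _)
  meas := fun g j => (hR.meas g j).union (hS.meas g j)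

theorem OM.exists {ι : Sort*} [Countable ι] {R : ι → It X J → It X J' → Prop}
    (hR : ∀ i, OM Γ (R i)) : OM Γ (fun ω ω' => ∃ i, R i ω ω') where
  orb := fun ω ω' ⟨i, e⟩ => (hR i).orb _ _ e
  meas := fun g j => by
    rw [ofPred_exists]
    exact MeasurableSet.iUnion fun i => (hR i).meas g j

theorem OM.congr {R S : It X J → It X J' → Prop} (hR : OM Γ R) (e : ∀ ω ω', S ω ω' ↔ R ω ω') :
    OM Γ S := by
  have : S = R := by funext ω ω'; exact propext (e ω ω')
  rwa [this]

theorem OM.false : OM Γ (fun (_ : It X J) (_ : It X J') => False) where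
  orb := fun _ _ e => e.elim
  meas := fun _ _ => by simp

section
variable [Countable Γ] [Countable J']

/-- existential quantification along an orbit-measurable relation -/
theorem OM.measurableSet_ex {R : It X J → It X J' → Prop} (hR : OM Γ R) :
    MeasurableSet {ω | ∃ ω', R ω ω'} := by
  have : {ω | ∃ ω', R ω ω'} = ⋃ (g : Γ) (j : J'), {ω | R ω ⟨g • ω.pt, j⟩} := by
    ext ω
    simp only [mem_ofPred_eq, mem_iUnion]
    constructor
    · rintro ⟨ω', e⟩
      obtain ⟨g, hg⟩ := hR.orb _ _ e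
      exact ⟨g, ω'.ix, by rw [← hg]; exact e⟩
    · rintro ⟨g, j, e⟩
      exact ⟨_, e⟩
  rw [this]
  exact MeasurableSet.iUnion fun g => MeasurableSet.iUnion fun j => hR.meas g j

variable (μ : Measure X) [h : FPA Γ μ]
include h

theorem OM.measurableSet_ex_mem {R : It X J → It X J' → Prop} (hR : OM Γ R) {B : Set (It X J')}
    (hB : MeasurableSet B) : MeasurableSet {ω | ∃ ω', R ω ω' ∧ ω' ∈ B} :=
  (hR.and_right μ hB).measurableSet_ex

theorem OM.measurableSet_all_mem {R : It X J → It X J' → Prop} (hR : OM Γ R) {B : Set (It X J')}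
    (hB : MeasurableSet B) : MeasurableSet {ω | ∀ ω', R ω ω' → ω' ∈ B} := by
  have := (hR.measurableSet_ex_mem μ hB.compl).compl
  convert this using 1
  ext ω
  simp

theorem OM.comp {R : It X J → It X J' → Prop} {S : It X J' → It X J'' → Prop} (hR : OM Γ R)
    (hS : OM Γ S) : OM Γ (fun ω ω'' => ∃ ω', R ω ω' ∧ S ω' ω'') where
  orb := fun ω ω'' ⟨ω', e1, e2⟩ => by
    obtain ⟨g, hg⟩ := hR.orb _ _ e1
    obtain ⟨g', hg'⟩ := hS.orb _ _ e2
    exact ⟨g' * g, by rw [hg', hg, mul_smul]⟩
  meas := fun g j => by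
    have : {ω : It X J | ∃ ω', R ω ω' ∧ S ω' ⟨g • ω.pt, j⟩} =
        ⋃ (g' : Γ) (j' : J'), {ω | R ω ⟨g' • ω.pt, j'⟩} ∩
          {ω | ω.pt ∈ {x : X | S ⟨g' • x, j'⟩ ⟨g • x, j⟩}} := by
      ext ω
      simp only [mem_ofPred_eq, mem_iUnion, mem_inter_iff]
      constructor
      · rintro ⟨ω', e1, e2⟩
        obtain ⟨g', hg'⟩ := hR.orb _ _ e1
        exact ⟨g', ω'.ix, by rw [← hg']; exact e1, by rw [← hg']; exact e2⟩
      · rintro ⟨g', j', e1, e2⟩
        exact ⟨_, e1, e2⟩
    rw [this]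
    exact MeasurableSet.iUnion fun g' => MeasurableSet.iUnion fun j' =>
      (hR.meas g' j').inter (It.measurableSet_pt (hS.meas2 μ g' g j' j))

/-- `∀ ω', R ω ω' → S ω' ω''`, restricted to an orbit-measurable relation `T`. -/
theorem OM.and_all {R : It X J → It X J' → Prop} {S : It X J' → It X J'' → Prop}
    {T : It X J → It X J'' → Prop} (hT : OM Γ T) (hR : OM Γ R)
    (hS : OM Γ S) : OM Γ (fun ω ω'' => T ω ω'' ∧ ∀ ω', R ω ω' → S ω' ω'') where
  orb := fun ω ω'' e => hT.orb _ _ e.1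
  meas := fun g j => by
    refine (hT.meas g j).inter ?_
    have : {ω : It X J | ∀ ω', R ω ω' → S ω' ⟨g • ω.pt, j⟩} =
        ⋂ (g' : Γ) (j' : J'), {ω | R ω ⟨g' • ω.pt, j'⟩}ᶜ ∪
          {ω | ω.pt ∈ {x : X | S ⟨g' • x, j'⟩ ⟨g • x, j⟩}} := by
      ext ω
      simp only [mem_ofPred_eq, mem_iInter, mem_union, mem_compl_iff]
      constructor
      · intro e g' j'
        by_cases e1 : R ω ⟨g' • ω.pt, j'⟩
        · exact Or.inr (e _ e1)
        · exact Or.inl e1
      · intro e ω' e1
        obtain ⟨g', hg'⟩ := hR.orb _ _ e1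
        have e2 : ω' = ⟨g' • ω.pt, ω'.ix⟩ := It.ext hg' rfl
        rcases e g' ω'.ix with e3 | e3
        · exact absurd (e2 ▸ e1) e3
        · exact e2 ▸ e3
    change MeasurableSet {ω : It X J | ∀ ω', R ω ω' → S ω' ⟨g • ω.pt, j⟩}
    rw [this]
    exact MeasurableSet.iInter fun g' => MeasurableSet.iInter fun j' =>
      (hR.meas g' j').compl.union (It.measurableSet_pt (hS.meas2 μ g' g j' j))

end

/-- `n`-step version of a relation -/
def RelPow {α : Type} (R : α → α → Prop) : ℕ → α → α → Prop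
  | 0, a, b => b = a
  | n + 1, a, b => ∃ c, RelPow R n a c ∧ R c b

theorem reflTransGen_iff_relPow {α : Type} {R : α → α → Prop} {a b : α} :
    Relation.ReflTransGen R a b ↔ ∃ n, RelPow R n a b := by
  constructor
  · intro e
    induction e with
    | refl => exact ⟨0, rfl⟩
    | tail _ e2 ih =>
      obtain ⟨n, hn⟩ := ih
      exact ⟨n + 1, _, hn, e2⟩
  · rintro ⟨n, hn⟩
    induction n generalizing b with
    | zero => cases hn; exact .refl
    | succ n ih =>
      obtain ⟨c, h1, h2⟩ := hn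
      exact (ih h1).tail h2

theorem eqvGen_iff_reflTransGen {α : Type} {R : α → α → Prop} {a b : α} :
    Relation.EqvGen R a b ↔ Relation.ReflTransGen (fun x y => R x y ∨ R y x) a b := by
  constructor
  · intro e
    induction e with
    | rel x y e => exact .single (Or.inl e)
    | refl x => exact .refl
    | symm x y _ ih =>
      clear * - ih
      induction ih with
      | refl => exact .refl
      | tail _ e2 ih => exact .head e2.symm ih
    | trans x y z _ _ ih1 ih2 => exact ih1.trans ih2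
  · intro e
    induction e with
    | refl => exact .refl _
    | tail _ e2 ih =>
      rcases e2 with e2 | e2
      · exact ih.trans _ _ _ (.rel _ _ e2)
      · exact ih.trans _ _ _ (.symm _ _ (.rel _ _ e2))

section
variable [Countable Γ] [Countable J] (μ : Measure X) [h : FPA Γ μ]
include h

theorem OM.relPow {R : It X J → It X J → Prop} (hR : OM Γ R) (n : ℕ) : OM Γ (RelPow R n) := by
  induction n with
  | zero => exact OM.eq μ
  | succ n ih => exact ih.comp μ hR

theorem OM.reflTransGen {R : It X J → It X J → Prop} (hR : OM Γ R) :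
    OM Γ (Relation.ReflTransGen R) :=
  (OM.exists fun n => hR.relPow μ n).congr fun _ _ => reflTransGen_iff_relPow

theorem OM.eqvGen {R : It X J → It X J → Prop} (hR : OM Γ R) : OM Γ (Relation.EqvGen R) :=
  ((hR.or (hR.flip μ)).reflTransGen μ).congr fun _ _ => eqvGen_iff_reflTransGen

end

/-- Measurable choice from a countable type. -/
theorem exists_measurable_choice {α ι : Type} [MeasurableSpace α] [Countable ι] [Nonempty ι]
    {P : α → ι → Prop} (hP : ∀ i, MeasurableSet {a | P a i}) :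
    ∃ c : α → ι, (∀ i, MeasurableSet {a | c a = i}) ∧ ∀ a, (∃ i, P a i) → P a (c a) := by
  classical
  obtain ⟨e, he⟩ := exists_surjective_nat ι
  have hex : ∀ a, ∃ n, (∃ i, P a i) → P a (e n) := by
    intro a
    by_cases h : ∃ i, P a i
    · obtain ⟨i, hi⟩ := h
      obtain ⟨n, rfl⟩ := he i
      exact ⟨n, fun _ => hi⟩
    · exact ⟨0, fun h' => absurd h' h⟩
  have hm : ∀ n, MeasurableSet {a | (∃ i, P a i) → P a (e n)} := by
    intro n
    have h1 : MeasurableSet {a | ∃ i, P a i} := by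
      rw [ofPred_exists]; exact MeasurableSet.iUnion hP
    convert h1.compl.union (hP (e n)) using 1
    ext a
    simp only [mem_ofPred_eq, mem_union, mem_compl_iff]
    tauto
  have hf : Measurable fun a => Nat.find (hex a) := measurable_find hex hm
  refine ⟨fun a => e (Nat.find (hex a)), fun i => ?_, fun a => Nat.find_spec (hex a)⟩
  exact hf (show MeasurableSet {n | e n = i} from MeasurableSet.of_discrete)

section
variable [Countable Γ] [Countable J'] (μ : Measure X) [h : FPA Γ μ]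
include h

/-- Measurable selection: a function with orbit-measurable graph inside `R`. -/
theorem OM.select [Nonempty J'] {R : It X J → It X J' → Prop} (hR : OM Γ R) :
    ∃ f : It X J → It X J', OM Γ (fun ω ω' => ω' = f ω) ∧ ∀ ω, (∃ ω', R ω ω') → R ω (f ω) := by
  obtain ⟨c, hc1, hc2⟩ := exists_measurable_choice (α := It X J) (ι := Γ × J')
    (P := fun ω p => R ω ⟨p.1 • ω.pt, p.2⟩) fun p => hR.meas p.1 p.2
  refine ⟨fun ω => ⟨(c ω).1 • ω.pt, (c ω).2⟩, ⟨fun ω ω' e => ⟨(c ω).1, by rw [e]⟩, ?_⟩, ?_⟩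
  · intro g j
    convert hc1 (g, j) using 1
    ext ω
    simp only [It.mk.injEq, mem_ofPred_eq]
    constructor
    · rintro ⟨e1, e2⟩
      exact Prod.ext (smul_inj_of_free μ e1).symm e2.symm
    · intro e
      simp [e]
  · rintro ω ⟨ω', e⟩
    obtain ⟨g, hg⟩ := hR.orb _ _ e
    exact hc2 ω ⟨(g, ω'.ix), by rw [← hg]; exact e⟩

/-- A function with orbit-measurable graph is measurable. -/
theorem OM.measurable {f : It X J → It X J'} (hf : OM Γ (fun ω ω' => ω' = f ω)) :
    Measurable f := by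
  intro B hB
  convert hf.measurableSet_ex_mem μ hB using 1
  ext ω
  simp

/-- pulling a relation back along a function with orbit-measurable graph -/
theorem OM.comap_left {f : It X J → It X J'} (hf : OM Γ (fun ω ω' => ω' = f ω))
    {S : It X J' → It X J'' → Prop} (hS : OM Γ S) : OM Γ (fun ω ω'' => S (f ω) ω'') :=
  (hf.comp μ hS).congr fun ω ω'' => by simp

theorem OM.comap_right {f : It X J → It X J'} (hf : OM Γ (fun ω ω' => ω' = f ω))
    {S : It X J'' → It X J' → Prop} (hS : OM Γ S) : OM Γ (fun ω'' ω => S ω'' (f ω)) :=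
  (hf.comap_left μ (hS.flip μ)).flip μ

theorem OM.fun_comp {f : It X J → It X J'} (hf : OM Γ (fun ω ω' => ω' = f ω))
    {f' : It X J' → It X J''} (hf' : OM Γ (fun ω ω' => ω' = f' ω)) :
    OM Γ (fun ω ω' => ω' = f' (f ω)) := hf.comap_left μ hf'

/-- the set where a relation holds between two functions with orbit-measurable graph -/
theorem OM.measurableSet_rel [Countable J''] {f : It X J → It X J'}
    (hf : OM Γ (fun ω ω' => ω' = f ω)) {f' : It X J → It X J''}
    (hf' : OM Γ (fun ω ω' => ω' = f' ω)) {S : It X J' → It X J'' → Prop} (hS : OM Γ S) :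
    MeasurableSet {ω | S (f ω) (f' ω)} := by
  convert (hf'.and (hf.comap_left μ hS)).measurableSet_ex using 1
  ext ω
  simp

end

section
variable [Countable Γ] [Countable J] [Countable J'] (μ : Measure X) [h : FPA Γ μ]
include h

/-- Mass transport: if every item of `A` is related to an item of `B`, and no item of `B` is
related to two items of `A`, then `ν A ≤ ν B`. -/
theorem nu_le_of_inj {R : It X J → It X J' → Prop} (hR : OM Γ R) {A : Set (It X J)}
    {B : Set (It X J')} (hA : MeasurableSet A) (hB : MeasurableSet B)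
    (hex : ∀ ω ∈ A, ∃ ω' ∈ B, R ω ω')
    (hinj : ∀ ω₁ ∈ A, ∀ ω₂ ∈ A, ∀ ω' ∈ B, R ω₁ ω' → R ω₂ ω' → ω₁ = ω₂) :
    nu μ J A ≤ nu μ J' B := by
  classical
  have hR' : OM Γ (fun ω ω' => (ω ∈ A ∧ R ω ω') ∧ ω' ∈ B) := (hR.and_left hA).and_right μ hB
  set R' := fun ω ω' => (ω ∈ A ∧ R ω ω') ∧ ω' ∈ B with hR'def
  let P : J → Γ → J' → Set X := fun j g j' => {x | R' ⟨x, j⟩ ⟨g • x, j'⟩}
  let Q : J → Γ → J' → Set X := fun j g j' => {y | R' ⟨g⁻¹ • y, j⟩ ⟨y, j'⟩}
  have hQm : ∀ j g j', MeasurableSet (Q j g j') := fun j g j' => by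
    have := hR'.meas2 μ g⁻¹ 1 j j'
    simp only [one_smul] at this
    exact this
  have hPQ : ∀ j g j', μ (P j g j') = μ (Q j g j') := fun j g j' => by
    rw [← measure_preimage_gsmul μ g (hQm j g j')]
    congr 1
    ext x
    simp [P, Q]
  rw [nu_apply μ hA, nu_apply μ hB]
  calc ∑' j, μ {x | (⟨x, j⟩ : It X J) ∈ A}
      ≤ ∑' j, ∑' g, ∑' j', μ (P j g j') := by
        refine ENNReal.tsum_le_tsum fun j => ?_
        refine le_trans (measure_mono (t := ⋃ g, ⋃ j', P j g j') ?_) ?_
        · intro x hx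
          obtain ⟨ω', hω', e⟩ := hex _ hx
          obtain ⟨g, hg⟩ := hR.orb _ _ e
          have e2 : ω' = ⟨g • x, ω'.ix⟩ := It.ext hg rfl
          simp only [mem_iUnion]
          exact ⟨g, ω'.ix, ⟨hx, e2 ▸ e⟩, e2 ▸ hω'⟩
        · exact (measure_iUnion_le _).trans
            (ENNReal.tsum_le_tsum fun g => measure_iUnion_le _)
    _ = ∑' j', ∑' p : J × Γ, μ (Q p.1 p.2 j') := by
        simp_rw [hPQ]
        rw [← ENNReal.tsum_prod' (f := fun p : J × Γ => ∑' j', μ (Q p.1 p.2 j')), ENNReal.tsum_comm]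
    _ ≤ ∑' j', μ {y | (⟨y, j'⟩ : It X J') ∈ B} := by
        refine ENNReal.tsum_le_tsum fun j' => ?_
        rw [← measure_iUnion]
        · refine measure_mono ?_
          intro y hy
          simp only [mem_iUnion] at hy
          obtain ⟨p, hp⟩ := hy
          exact hp.2
        · intro p q hpq
          refine Set.disjoint_left.2 fun y hp hq => hpq ?_
          have := hinj _ hp.1.1 _ hq.1.1 _ hp.2 hp.1.2 hq.1.2
          simp only [It.mk.injEq] at this
          exact Prod.ext this.2 (inv_injective (smul_inj_of_free μ this.1))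
        · exact fun p => hQm p.1 p.2 j'

/-- several copies: `card K * ν A ≤ ν B` -/
theorem mul_nu_le_of_inj {K : Type} [Fintype K] {R : K → It X J → It X J' → Prop}
    (hR : ∀ k, OM Γ (R k)) {A : Set (It X J)}
    {B : Set (It X J')} (hA : MeasurableSet A) (hB : MeasurableSet B)
    (hex : ∀ k, ∀ ω ∈ A, ∃ ω' ∈ B, R k ω ω')
    (hinj : ∀ k₁ k₂, ∀ ω₁ ∈ A, ∀ ω₂ ∈ A, ∀ ω' ∈ B, R k₁ ω₁ ω' → R k₂ ω₂ ω' → k₁ = k₂ ∧ ω₁ = ω₂) :
    Fintype.card K * nu μ J A ≤ nu μ J' B := by
  let A' : Set (It X (J × K)) := {ω | (⟨ω.pt, ω.ix.1⟩ : It X J) ∈ A}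
  have hA' : MeasurableSet A' := It.measurableSet_iff.2 fun p => It.slice hA p.1
  have e1 : nu μ (J × K) A' = Fintype.card K * nu μ J A := by
    rw [nu_apply μ hA', nu_apply μ hA, ENNReal.tsum_prod', ← ENNReal.tsum_mul_left]
    congr 1
    funext j
    simp [A', tsum_fintype]
  rw [← e1]
  refine nu_le_of_inj (Γ := Γ) μ (R := fun ω ω' => R ω.ix.2 ⟨ω.pt, ω.ix.1⟩ ω') ?_ hA' hB ?_ ?_
  · refine ⟨fun ω ω' e => (hR _).orb _ _ e, fun g j => It.measurableSet_iff.2 fun p => ?_⟩
    exact It.slice ((hR p.2).meas g j) p.1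
  · exact fun ω hω => hex _ _ hω
  · intro ω₁ h₁ ω₂ h₂ ω' h' e₁ e₂
    obtain ⟨e3, e4⟩ := hinj _ _ _ h₁ _ h₂ _ h' e₁ e₂
    simp only [It.mk.injEq] at e4
    exact It.ext e4.1 (Prod.ext e4.2 e3)

/-- covering by finitely many injective relations: `ν A ≤ card K * ν B` -/
theorem nu_le_mul_of_cover {K : Type} [Fintype K] {R : K → It X J → It X J' → Prop}
    (hR : ∀ k, OM Γ (R k)) {A : Set (It X J)}
    {B : Set (It X J')} (hA : MeasurableSet A) (hB : MeasurableSet B)
    (hex : ∀ ω ∈ A, ∃ k, ∃ ω' ∈ B, R k ω ω')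
    (hinj : ∀ k, ∀ ω₁ ∈ A, ∀ ω₂ ∈ A, ∀ ω' ∈ B, R k ω₁ ω' → R k ω₂ ω' → ω₁ = ω₂) :
    nu μ J A ≤ Fintype.card K * nu μ J' B := by
  let A' : K → Set (It X J) := fun k => A ∩ {ω | ∃ ω', R k ω ω' ∧ ω' ∈ B}
  have hA' : ∀ k, MeasurableSet (A' k) := fun k => hA.inter ((hR k).measurableSet_ex_mem μ hB)
  calc nu μ J A ≤ nu μ J (⋃ k, A' k) := by
        refine measure_mono fun ω hω => ?_
        obtain ⟨k, ω', h1, h2⟩ := hex ω hω
        exact mem_iUnion.2 ⟨k, hω, ω', h2, h1⟩
    _ ≤ ∑ k, nu μ J (A' k) := measure_iUnion_fintype_le _ _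
    _ ≤ ∑ _k : K, nu μ J' B := by
        refine Finset.sum_le_sum fun k _ => nu_le_of_inj μ (hR k) (hA' k) hB ?_ ?_
        · rintro ω ⟨-, ω', h1, h2⟩
          exact ⟨ω', h2, h1⟩
        · exact fun ω₁ h₁ ω₂ h₂ => hinj k ω₁ h₁.1 ω₂ h₂.1
    _ = _ := by simp

/-- image under a function with orbit-measurable graph is measurable -/
theorem OM.measurableSet_image {f : It X J → It X J'} (hf : OM Γ (fun ω ω' => ω' = f ω))
    {A : Set (It X J)} (hA : MeasurableSet A) : MeasurableSet (f '' A) := by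
  convert (hf.flip μ).measurableSet_ex_mem μ hA using 1
  ext ω'
  simp only [mem_image, mem_ofPred_eq]
  constructor
  · rintro ⟨ω, h1, h2⟩; exact ⟨ω, h2.symm, h1⟩
  · rintro ⟨ω, h1, h2⟩; exact ⟨ω, h2, h1.symm⟩

theorem nu_image_le {f : It X J → It X J'} (hf : OM Γ (fun ω ω' => ω' = f ω))
    {A : Set (It X J)} (hA : MeasurableSet A) : nu μ J' (f '' A) ≤ nu μ J A := by
  refine nu_le_of_inj μ (hf.flip μ) (hf.measurableSet_image μ hA) hA ?_ ?_
  · rintro _ ⟨ω, h1, rfl⟩; exact ⟨ω, h1, rfl⟩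
  · intro ω₁ _ ω₂ _ ω' _ e1 e2; rw [e1, e2]

theorem nu_le_of_injOn {f : It X J → It X J'} (hf : OM Γ (fun ω ω' => ω' = f ω))
    {A : Set (It X J)} {B : Set (It X J')} (hA : MeasurableSet A) (hB : MeasurableSet B)
    (hm : MapsTo f A B) (hi : InjOn f A) : nu μ J A ≤ nu μ J' B := by
  refine nu_le_of_inj μ hf hA hB (fun ω hω => ⟨f ω, hm hω, rfl⟩) ?_
  intro ω₁ h₁ ω₂ h₂ ω' _ e1 e2
  exact hi h₁ h₂ (e1.symm.trans e2)

end

end Crest.Agent.R191
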