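import Crest.Agent.R191.Str

/-! Paths in structures and the use of the Greendlinger type property. -/

set_option autoImplicit false
set_option linter.unusedVariables false
set_option linter.unusedSectionVars false

namespace Crest.Agent.R191

open MeasureTheory Set
open scoped ENNReal

variable {Γ X : Type} [Group Γ] [MulAction Γ X] [MeasurableSpace X]
  {H : Subgroup Γ} {v : ZMod 100 → Γ} {K : ℕ} {S : Set (It X (Fin K))}

/-- the end where a directed edge starts -/
def sta (d : It X ℕ × Bool) : It X JN := en d.1 (!d.2)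

/-- the end where a directed edge finishes -/
def fin (d : It X ℕ × Bool) : It X JN := en d.1 d.2

/-- directed edge paths -/
def Str.Path (Y : Str H v S) : It X JN → List (It X ℕ × Bool) → It X JN → Prop
  | η, [], η' => Y.r η η'
  | η, d :: l, η' => d.1 ∈ Y.E ∧ Y.r η (sta d) ∧ Y.Path (fin d) l η'

theorem Str.Path.left {Y : Str H v S} {η₀ η η' : It X JN} {l : List (It X ℕ × Bool)}
    (h0 : Y.r η₀ η) (h : Y.Path η l η') : Y.Path η₀ l η' := by
  cases l with
  | nil => exact Y.r_eqv.trans h0 h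
  | cons d l => exact ⟨h.1, Y.r_eqv.trans h0 h.2.1, h.2.2⟩

theorem Str.Path.append {Y : Str H v S} {η ζ η' : It X JN} {l l' : List (It X ℕ × Bool)}
    (h : Y.Path η l ζ) (h' : Y.Path ζ l' η') : Y.Path η (l ++ l') η' := by
  induction l generalizing η with
  | nil => exact Str.Path.left h h'
  | cons d l ih => exact ⟨h.1, h.2.1, ih h.2.2⟩

theorem Str.Path.right {Y : Str H v S} {η η' η₁ : It X JN} {l : List (It X ℕ × Bool)}
    (h : Y.Path η l η') (h1 : Y.r η' η₁) : Y.Path η l η₁ := by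
  simpa using h.append (l' := []) h1

theorem Str.Path.split {Y : Str H v S} {η η' : It X JN} {l l' : List (It X ℕ × Bool)}
    {d : It X ℕ × Bool} (h : Y.Path η (l ++ d :: l') η') :
    Y.Path η l (sta d) ∧ d.1 ∈ Y.E ∧ Y.Path (fin d) l' η' := by
  induction l generalizing η with
  | nil => exact ⟨h.2.1, h.1, h.2.2⟩
  | cons d' l ih =>
    obtain ⟨h1, h2, h3⟩ := ih h.2.2
    exact ⟨⟨h.1, h.2.1, h1⟩, h2, h3⟩

theorem Str.path_of_conn (Y : Str H v S) {η η' : It X JN} (h : Conn Y.E Y.r η η') :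
    ∃ l, Y.Path η l η' := by
  rw [Conn, eqvGen_iff_reflTransGen] at h
  induction h with
  | refl => exact ⟨[], Y.r_eqv.refl _⟩
  | tail _ h2 ih =>
    obtain ⟨l, hl⟩ := ih
    rcases h2 with (h2 | ⟨e, he, rfl, rfl⟩) | (h2 | ⟨e, he, rfl, rfl⟩)
    · exact ⟨l, hl.right h2⟩
    · exact ⟨_, hl.append (l' := [(e, true)]) ⟨he, Y.r_eqv.refl _, Y.r_eqv.refl _⟩⟩
    · exact ⟨l, hl.right (Y.r_eqv.symm h2)⟩
    · exact ⟨_, hl.append (l' := [(e, false)]) ⟨he, Y.r_eqv.refl _, Y.r_eqv.refl _⟩⟩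

theorem Str.Mor.path {Y Y' : Str H v S} (h : Y.Mor Y') {η η' : It X JN}
    {l : List (It X ℕ × Bool)} (hη : Valid Y.E η) (hη' : Valid Y.E η') (hp : Y.Path η l η') :
    ∃ l', Y'.Path η l' η' ∧ l'.length = l.length := by
  obtain ⟨f, hf, hr⟩ := h
  induction l generalizing η with
  | nil => exact ⟨[], hr _ _ hη hη' hp, rfl⟩
  | cons d l ih =>
    obtain ⟨h1, h2, h3⟩ := hp
    obtain ⟨l', hl', hlen⟩ := ih (valid_en.2 h1) h3
    obtain ⟨g1, g2, g3⟩ := hf _ h1
    refine ⟨(f d.1, d.2) :: l', ⟨g1, ?_, ?_⟩, by simp [hlen]⟩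
    · exact Y'.r_eqv.trans (hr _ _ hη (valid_en.2 h1) h2) (g3 _)
    · exact Str.Path.left (Y'.r_eqv.symm (g3 _)) hl'

/-- the base points `x` and `a x` are joined by a path of length at most `k` -/
def Str.Short (Y : Str H v S) (x : X) (k : ℕ) : Prop :=
  ∃ l, Y.Path (bs x) l (bs (av v 1 • x)) ∧ l.length ≤ k

/-- the base points `x` and `a x` are joined by a path of length at most `k` through an arc -/
def Str.Ready (Y : Str H v S) (x : X) (k : ℕ) (p : ZMod 100) : Prop :=
  ∃ σ e, Y.Arc p σ e ∧ ∃ l1 l2 : List (It X ℕ × Bool), l1.length + l2.length + 99 ≤ k ∧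
    ((Y.Path (bs x) l1 (en (e (p + 1)) false) ∧
        Y.Path (en (e (p - 1)) true) l2 (bs (av v 1 • x))) ∨
      (Y.Path (bs x) l1 (en (e (p - 1)) true) ∧
        Y.Path (en (e (p + 1)) false) l2 (bs (av v 1 • x))))

theorem Str.Short.mono {Y : Str H v S} {x : X} {k k' : ℕ} (h : Y.Short x k) (hk : k ≤ k') :
    Y.Short x k' := by
  obtain ⟨l, h1, h2⟩ := h
  exact ⟨l, h1, h2.trans hk⟩

theorem Str.exists_short (Y : Str H v S) (x : X) : ∃ k, Y.Short x k := by
  obtain ⟨l, hl⟩ := Y.path_of_conn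
    (Y.conn (bs x) (bs (av v 1 • x)) (valid_bs _ _) (valid_bs _ _) ⟨av v 1, rfl⟩)
  exact ⟨_, l, hl, le_rfl⟩

theorem Str.Mor.short {Y Y' : Str H v S} (h : Y.Mor Y') {x : X} {k : ℕ} (hs : Y.Short x k) :
    Y'.Short x k := by
  obtain ⟨l, h1, h2⟩ := hs
  obtain ⟨l', g1, g2⟩ := h.path (valid_bs _ _) (valid_bs _ _) h1
  exact ⟨l', g1, g2 ▸ h2⟩

theorem Str.Mor.done {Y Y' : Str H v S} (h : Y.Mor Y') {x : X} (hs : Y.Done x) : Y'.Done x := by
  obtain ⟨f, hf, hr⟩ := h
  obtain ⟨e, he, h1, h2, h3⟩ := hs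
  obtain ⟨g1, g2, g3⟩ := hf e he
  refine ⟨f e, g1, g2.trans h1, ?_, ?_⟩
  · exact Y'.r_eqv.trans (hr _ _ (valid_bs _ _) (valid_en.2 he) h2) (g3 _)
  · exact Y'.r_eqv.trans (Y'.r_eqv.symm (g3 _)) (hr _ _ (valid_en.2 he) (valid_bs _ _) h3)

theorem zmod_add_one_ne (p : ZMod 100) : p + 1 ≠ p := by
  intro h
  have : (1 : ZMod 100) = 0 := by simpa using h
  exact absurd this (by decide)

theorem zmod_sub_one_ne (p : ZMod 100) : p - 1 ≠ p := by
  intro h
  have : (1 : ZMod 100) = 0 := by simpa using h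
  exact absurd this (by decide)

theorem Str.Mor.ready {Y Y' : Str H v S} (h : Y.Mor Y') {x : X} {k : ℕ} {p : ZMod 100}
    (hs : Y.Ready x k p) : Y'.Ready x k p := by
  obtain ⟨σ, e, ha, l1, l2, hlen, hp⟩ := hs
  have hm := h
  obtain ⟨f, hf, hr⟩ := h
  have v1 := (ha.1 _ (zmod_add_one_ne p)).1
  have v2 := (ha.1 _ (zmod_sub_one_ne p)).1
  refine ⟨σ, fun i => f (e i), ⟨fun i hi => ?_, fun i hi hi' => ?_⟩, ?_⟩
  · obtain ⟨g1, g2⟩ := ha.1 i hi
    exact ⟨(hf _ g1).1, (hf _ g1).2.1.trans g2⟩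
  · have g1 := (ha.1 i hi).1
    have g2 := (ha.1 _ hi').1
    exact Y'.r_eqv.trans (Y'.r_eqv.symm ((hf _ g2).2.2 _)) (Y'.r_eqv.trans
      (hr _ _ (valid_en.2 g2) (valid_en.2 g1) (ha.2 i hi hi')) ((hf _ g1).2.2 _))
  · rcases hp with ⟨p1, p2⟩ | ⟨p1, p2⟩
    · obtain ⟨l1', g1, g2⟩ := hm.path (valid_bs _ _) (valid_en.2 v1) p1
      obtain ⟨l2', g3, g4⟩ := hm.path (valid_en.2 v2) (valid_bs _ _) p2
      exact ⟨l1', l2', by omega, Or.inl ⟨g1.right ((hf _ v1).2.2 _),
        Str.Path.left (Y'.r_eqv.symm ((hf _ v2).2.2 _)) g3⟩⟩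
    · obtain ⟨l1', g1, g2⟩ := hm.path (valid_bs _ _) (valid_en.2 v2) p1
      obtain ⟨l2', g3, g4⟩ := hm.path (valid_en.2 v1) (valid_bs _ _) p2
      exact ⟨l1', l2', by omega, Or.inr ⟨g1.right ((hf _ v2).2.2 _),
        Str.Path.left (Y'.r_eqv.symm ((hf _ v1).2.2 _)) g3⟩⟩

/-- after closing the arcs, ready points have a shorter path -/
theorem Str.Mor.short_of_ready {Y Y' : Str H v S} (h : Y.Mor Y') {x : X} {k : ℕ} {p : ZMod 100}
    (hc : ∀ σ e, Y.Arc p σ e → ∃ f ∈ Y'.E, Y'.r (en (e (p - 1)) true) (en f false) ∧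
      Y'.r (en f true) (en (e (p + 1)) false))
    (hs : Y.Ready x (k + 1) p) : Y'.Short x k := by
  obtain ⟨σ, e, ha, l1, l2, hlen, hp⟩ := hs
  obtain ⟨f, hf, c1, c2⟩ := hc σ e ha
  have v1 := (ha.1 _ (zmod_add_one_ne p)).1
  have v2 := (ha.1 _ (zmod_sub_one_ne p)).1
  rcases hp with ⟨p1, p2⟩ | ⟨p1, p2⟩
  · obtain ⟨l1', g1, g2⟩ := h.path (valid_bs _ _) (valid_en.2 v1) p1
    obtain ⟨l2', g3, g4⟩ := h.path (valid_en.2 v2) (valid_bs _ _) p2
    refine ⟨l1' ++ (f, false) :: l2', g1.append ⟨hf, Y'.r_eqv.symm c2, ?_⟩, ?_⟩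
    · exact Str.Path.left (Y'.r_eqv.symm c1) g3
    · simp only [List.length_append, List.length_cons]; omega
  · obtain ⟨l1', g1, g2⟩ := h.path (valid_bs _ _) (valid_en.2 v2) p1
    obtain ⟨l2', g3, g4⟩ := h.path (valid_en.2 v1) (valid_bs _ _) p2
    refine ⟨l1' ++ (f, true) :: l2', g1.append ⟨hf, c1, ?_⟩, ?_⟩
    · exact Str.Path.left c2 g3
    · simp only [List.length_append, List.length_cons]; omega

theorem Str.Path.at {Y : Str H v S} {η η' : It X JN} {l : List (It X ℕ × Bool)}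
    (h : Y.Path η l η') {i : ℕ} (hi : i < l.length) :
    Y.Path η (l.take i) (sta l[i]) ∧ l[i].1 ∈ Y.E ∧ Y.Path (fin l[i]) (l.drop (i + 1)) η' := by
  have e : l = l.take i ++ l[i] :: l.drop (i + 1) := by simp
  rw [e] at h
  exact h.split

theorem Str.Path.adj {Y : Str H v S} {η η' : It X JN} {l : List (It X ℕ × Bool)}
    (h : Y.Path η l η') {i : ℕ} (hi : i + 1 < l.length) : Y.r (fin l[i]) (sta l[i + 1]) := by
  have h1 := (h.at (i := i) (by omega)).2.2
  rw [List.drop_eq_getElem_cons hi] at h1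
  exact h1.2.1

theorem zmod_shift (p : ZMod 100) (i : ZMod 100) (hi : i ≠ p) :
    ∃ t : ℕ, t ≤ 98 ∧ i = p + 1 + (t : ZMod 100) := by
  refine ⟨(i - p - 1).val, ?_, by simp⟩
  have h1 := ZMod.val_lt (i - p - 1)
  by_contra h2
  have h3 : (i - p - 1).val = 99 := by omega
  have h4 : i - p - 1 = ((99 : ℕ) : ZMod 100) := by rw [← h3]; simp
  apply hi
  have h5 : ((99 : ℕ) : ZMod 100) = -1 := by decide
  rw [h5] at h4
  linear_combination h4

theorem zmod_shift_inj {p : ZMod 100} {t t' : ℕ} (ht : t ≤ 98) (ht' : t' ≤ 98)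
    (h : p + 1 + (t : ZMod 100) = p + 1 + (t' : ZMod 100)) : t = t' := by
  have h1 : (t : ZMod 100) = t' := by simpa using h
  have := congrArg ZMod.val h1
  rwa [ZMod.val_cast_of_lt (by omega), ZMod.val_cast_of_lt (by omega)] at this

/-- an arc given by 99 edges listed forwards -/
theorem Str.arc_of_seq (Y : Str H v S) (p : ZMod 100) (σ : X) (w : ℕ → It X ℕ)
    (h1 : ∀ t, t ≤ 98 → w t ∈ Y.E ∧ (w t).pt = v (p + 1 + (t : ZMod 100)) • σ)
    (h2 : ∀ t, t + 1 ≤ 98 → Y.r (en (w t) true) (en (w (t + 1)) false)) :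
    ∃ e, Y.Arc p σ e ∧ e (p + 1) = w 0 ∧ e (p - 1) = w 98 := by
  have key : ∀ t : ℕ, t ≤ 98 → (p + 1 + (t : ZMod 100) - p - 1).val = t := by
    intro t ht
    have : p + 1 + (t : ZMod 100) - p - 1 = t := by ring
    rw [this, ZMod.val_cast_of_lt (by omega)]
  refine ⟨fun i => w (i - p - 1).val, ⟨fun i hi => ?_, fun i hi hi' => ?_⟩, ?_, ?_⟩
  · obtain ⟨t, ht, rfl⟩ := zmod_shift p i hi
    simp only [key t ht]
    exact h1 t ht
  · obtain ⟨t, ht, e1⟩ := zmod_shift p i hi
    obtain ⟨t', ht', e2⟩ := zmod_shift p _ hi'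
    have e3 : t = t' + 1 := by
      have h3 : t' + 1 ≤ 98 := by
        by_contra h4
        have h5 : t' = 98 := by omega
        subst h5
        apply hi
        have h6 : ((98 : ℕ) : ZMod 100) = -2 := by decide
        rw [h6] at e2
        linear_combination e2
      refine zmod_shift_inj (p := p) ht h3 ?_
      push_cast
      linear_combination e2 - e1
    subst e3
    simp only
    rw [e2, key t' ht', e1, key _ ht]
    exact h2 t' ht
  · have := key 0 (by omega)
    simp only [Nat.cast_zero, add_zero] at this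
    simp only [this]
  · have h6 : p - 1 = p + 1 + ((98 : ℕ) : ZMod 100) := by
      have h7 : ((98 : ℕ) : ZMod 100) = -2 := by decide
      rw [h7]; ring
    simp only [h6, key 98 le_rfl]

/-- In a folded structure a shortest path is a single edge or runs through an arc. -/
theorem Str.progress (hGL : GLProp H v X) (Y : Str H v S) (hF : Y.Folded) {x : X} {k : ℕ}
    (hs : Y.Short x k) : Y.Done x ∨ ∃ p, Y.Ready x k p := by
  induction k with
  | zero =>
    exfalso
    obtain ⟨l, hl, hlen⟩ := hs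
    have : l = [] := List.length_eq_zero_iff.1 (by omega)
    subst this
    obtain ⟨h, hh, e⟩ := Y.r_loc _ _ hl
    rcases hGL 0 (fun _ => (x, false)) (fun j hj => by omega) ⟨h, hh, e⟩
      (fun j _ hj => by omega) with ⟨h1, _⟩ | ⟨j, p, ε, σ, h1, h2, _⟩ <;> omega
  | succ k ih =>
    by_cases hk : Y.Short x k
    · rcases ih hk with h | ⟨p, σ, e, ha, l1, l2, hlen, hp⟩
      · exact Or.inl h
      · exact Or.inr ⟨p, σ, e, ha, l1, l2, by omega, hp⟩
    obtain ⟨l, hl, hlen⟩ := hs
    have hlen' : l.length = k + 1 := by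
      by_contra h
      exact hk ⟨l, hl, by omega⟩
    let d : ℕ → X × Bool := fun j =>
      if h : 1 ≤ j ∧ j - 1 < l.length then ((l[j - 1]'h.2).1.pt, (l[j - 1]'h.2).2) else (x, false)
    have d0 : d 0 = (x, false) := by simp [d]
    have ds : ∀ i (hi : i < l.length), d (i + 1) = (l[i].1.pt, l[i].2) := by
      intro i hi
      simp [d, hi]
    have first : Y.r (bs x) (sta (l[0]'(by omega))) := by
      simpa [Str.Path] using (hl.at (i := 0) (by omega)).1
    have last : Y.r (fin (l[k]'(by omega))) (bs (av v 1 • x)) := by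
      have := (hl.at (i := k) (by omega)).2.2
      rw [List.drop_of_length_le (by omega)] at this
      exact this
    have hadj : ∀ j < k + 1, DAdj H v (d j) (d (j + 1)) := by
      intro j hj
      cases j with
      | zero =>
        rw [d0, ds 0 (by omega)]
        exact Y.r_loc _ _ first
      | succ i =>
        rw [ds i (by omega), ds (i + 1) (by omega)]
        exact Y.r_loc _ _ (hl.adj (by omega))
    have hclose : DAdj H v (d (k + 1)) (d 0) := by
      rw [d0, ds k (by omega)]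
      exact Y.r_loc _ _ last
    have hred : ∀ j, 1 ≤ j → j < k + 1 → d (j + 1) ≠ ((d j).1, !(d j).2) := by
      intro j h1 h2 h3
      obtain ⟨i, rfl⟩ : ∃ i, j = i + 1 := ⟨j - 1, by omega⟩
      rw [ds i (by omega), ds (i + 1) (by omega)] at h3
      simp only [Prod.mk.injEq] at h3
      have a1 := hl.at (i := i) (by omega)
      have a2 := hl.at (i := i + 1) (by omega)
      have a3 := hl.adj (i := i) (by omega)
      simp only [sta, fin, h3.2, Bool.not_not] at a1 a2 a3
      have e := hF _ a1.2.1 _ a2.2.1 _ h3.1.symm a3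
      rw [← e] at a2
      refine hk ⟨_, a1.1.append a2.2.2, ?_⟩
      simp only [List.length_append, List.length_take, List.length_drop]
      omega
    rcases hGL (k + 1) d hadj hclose hred with ⟨h1, h2⟩ | ⟨j, p, ε, σ, h1, h2, h3⟩
    · left
      have hk0 : k = 0 := by omega
      subst hk0
      rw [d0, ds 0 (by omega)] at h2
      simp only [Prod.mk.injEq, Bool.not_false] at h2
      refine ⟨(l[0]'(by omega)).1, (hl.at (i := 0) (by omega)).2.1, h2.1, ?_, ?_⟩
      · simpa [sta, h2.2] using first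
      · simpa [fin, h2.2] using last
    · right
      obtain ⟨i, rfl⟩ : ∃ i, j = i + 1 := ⟨j - 1, by omega⟩
      have h4 : ∀ t (ht : t ≤ 98), (l[i + t]'(by omega)).1.pt =
          v (if ε then p + 1 + (t : ZMod 100) else p - 1 - (t : ZMod 100)) • σ ∧
            (l[i + t]'(by omega)).2 = ε := by
        intro t ht
        have := h3 t ht
        rw [show i + 1 + t = (i + t) + 1 by ring, ds _ (by omega)] at this
        simpa using this
      have a1 := (hl.at (i := i) (by omega)).1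
      have a2 := (hl.at (i := i + 98) (by omega)).2.2
      have hl1 : (l.take i).length + (l.drop (i + 98 + 1)).length + 99 ≤ k + 1 := by
        simp only [List.length_take, List.length_drop]
        omega
      let u : ℕ → It X ℕ := fun t => (l.getD (i + t) (⟨x, 0⟩, false)).1
      have hu : ∀ t (ht : t ≤ 98), u t = (l[i + t]'(by omega)).1 := by
        intro t ht
        simp only [u]
        rw [List.getD_eq_getElem]
      have hE : ∀ t (ht : t ≤ 98), u t ∈ Y.E := fun t ht => by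
        rw [hu t ht]; exact (hl.at (i := i + t) (by omega)).2.1
      have hA : ∀ t (ht : t + 1 ≤ 98), Y.r (en (u t) ε) (en (u (t + 1)) (!ε)) := by
        intro t ht
        have := hl.adj (i := i + t) (by omega)
        rw [hu t (by omega), hu (t + 1) ht]
        simp only [fin, sta, (h4 t (by omega)).2] at this
        have e2 := (h4 (t + 1) ht).2
        simp only [← add_assoc] at e2 ⊢
        rw [e2] at this
        exact this
      have b1 : Y.Path (bs x) (l.take i) (en (u 0) (!ε)) := by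
        rw [hu 0 (by omega)]
        have e2 := (h4 0 (by omega)).2
        simp only [add_zero] at e2 ⊢
        simpa only [sta, e2] using a1
      have b2 : Y.Path (en (u 98) ε) (l.drop (i + 98 + 1)) (bs (av v 1 • x)) := by
        rw [hu 98 le_rfl]
        simpa only [fin, (h4 98 le_rfl).2] using a2
      cases ε with
      | true =>
        obtain ⟨e, ha, e1, e2⟩ := Y.arc_of_seq p σ u
          (fun t ht => ⟨hE t ht, by rw [hu t ht]; simpa using (h4 t ht).1⟩) hA
        exact ⟨p, σ, e, ha, _, _, hl1, Or.inl ⟨e1 ▸ b1, e2 ▸ b2⟩⟩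
      | false =>
        obtain ⟨e, ha, e1, e2⟩ := Y.arc_of_seq p σ (fun t => u (98 - t))
          (fun t ht => ⟨hE _ (by omega), by
            rw [hu _ (by omega)]
            have := (h4 (98 - t) (by omega)).1
            simp only [Bool.false_eq_true, if_false] at this
            rw [this]
            congr 2
            rw [Nat.cast_sub ht]
            have h7 : ((98 : ℕ) : ZMod 100) = -2 := by decide
            rw [h7]; ring⟩)
          (fun t ht => by
            have := hA (98 - (t + 1)) (by omega)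
            rw [show 98 - (t + 1) + 1 = 98 - t by omega] at this
            exact Y.r_eqv.symm this)
        exact ⟨p, σ, e, ha, _, _, hl1, Or.inr ⟨e2 ▸ b1, e1 ▸ b2⟩⟩

end Crest.Agent.R191
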