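import Crest.Agent.R191.Section

/-! The relative cost lemma (one half of Gaboriau's induction formula plus a truncation). -/

set_option autoImplicit false
set_option linter.unusedVariables false
set_option linter.unusedSectionVars false

namespace Crest.Agent.R191

open MeasureTheory Set Crest.Dynamics
open scoped ENNReal

namespace Relcost

variable {Γ X : Type} [Group Γ] [MulAction Γ X] [MeasurableSpace X]

/-- a function to a countable type with measurable fibres may be substituted into a family of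
measurable predicates -/
theorem measurableSet_dep {ι : Type} [Countable ι] {f : X → ι}
    (hf : ∀ i, MeasurableSet {x | f x = i}) {S : ι → X → Prop}
    (hS : ∀ i, MeasurableSet {x | S i x}) : MeasurableSet {x | S (f x) x} := by
  have : {x | S (f x) x} = ⋃ i, {x | f x = i} ∩ {x | S i x} := by
    ext x
    simp only [mem_ofPred_eq, mem_iUnion, mem_inter_iff]
    exact ⟨fun h => ⟨_, rfl, h⟩, fun ⟨i, h1, h2⟩ => h1 ▸ h2⟩
  rw [this]
  exact MeasurableSet.iUnion fun i => (hf i).inter (hS i)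

theorem measurableSet_lt_nat {f g : X → ℕ} (hf : Measurable f) (hg : Measurable g) :
    MeasurableSet {x | f x < g x} := measurableSet_lt hf hg

/-- the balls around `M` in the graph of `Φ` -/
def Lev (Φ : ℕ → Γ × Set X) (M : Set X) : ℕ → Set X
  | 0 => M
  | n + 1 => Lev Φ M n ∪ ({x | ∃ i, x ∈ (Φ i).2 ∧ (Φ i).1 • x ∈ Lev Φ M n} ∪
      {x | ∃ i, (Φ i).1⁻¹ • x ∈ (Φ i).2 ∧ (Φ i).1⁻¹ • x ∈ Lev Φ M n})

theorem lev_eqv (Φ : ℕ → Γ × Set X) (M : Set X) {x y : X}
    (h : Relation.EqvGen (GraphingStep Φ) x y) :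
    (∃ n, x ∈ Lev Φ M n) ↔ ∃ n, y ∈ Lev Φ M n := by
  induction h with
  | rel x y e =>
    obtain ⟨i, hx, rfl⟩ := e
    constructor
    · rintro ⟨n, hn⟩
      refine ⟨n + 1, Or.inr (Or.inr ⟨i, ?_, ?_⟩)⟩ <;> simpa
    · rintro ⟨n, hn⟩
      exact ⟨n + 1, Or.inr (Or.inl ⟨i, hx, hn⟩)⟩
  | refl x => rfl
  | symm x y _ ih => exact ih.symm
  | trans x y z _ _ ih1 ih2 => exact ih1.trans ih2

/-- the parent property of the choice `p = (i, dir)` at `x` -/
def Par (Φ : ℕ → Γ × Set X) (δ : X → ℕ) (x : X) (p : ℕ × Bool) : Prop :=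
  (p.2 = true ∧ x ∈ (Φ p.1).2 ∧ δ ((Φ p.1).1 • x) < δ x) ∨
    (p.2 = false ∧ (Φ p.1).1⁻¹ • x ∈ (Φ p.1).2 ∧ δ ((Φ p.1).1⁻¹ • x) < δ x)

section
variable [Countable Γ] (μ : Measure X) [hF : FPA Γ μ]
include hF

theorem measurableSet_lev {Φ : ℕ → Γ × Set X} (hΦ : ∀ i, MeasurableSet (Φ i).2) {M : Set X}
    (hM : MeasurableSet M) (n : ℕ) : MeasurableSet (Lev Φ M n) := by
  induction n with
  | zero => exact hM
  | succ n ih =>
    refine ih.union (MeasurableSet.union ?_ ?_)
    · rw [ofPred_exists]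
      exact MeasurableSet.iUnion fun i => (hΦ i).inter (measurable_gsmul μ _ ih)
    · rw [ofPred_exists]
      exact MeasurableSet.iUnion fun i =>
        (measurable_gsmul μ _ (hΦ i)).inter (measurable_gsmul μ _ ih)

theorem exists_parent {Φ : ℕ → Γ × Set X} (hΦ : ∀ i, MeasurableSet (Φ i).2) {M : Set X}
    (hM : MeasurableSet M) (hc : ∀ x, ∃ y ∈ M, Relation.EqvGen (GraphingStep Φ) x y) :
    ∃ (δ : X → ℕ) (c : X → ℕ × Bool), (∀ p, MeasurableSet {x | c x = p}) ∧
      ∀ x, x ∉ M → Par Φ δ x (c x) := by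
  classical
  have hL : ∀ x, ∃ n, x ∈ Lev Φ M n := fun x => by
    obtain ⟨y, hy, e⟩ := hc x
    exact (lev_eqv Φ M e).2 ⟨0, hy⟩
  let δ : X → ℕ := fun x => Nat.find (hL x)
  have hδ : Measurable δ := measurable_find hL fun n => measurableSet_lev μ hΦ hM n
  have hP : ∀ p, MeasurableSet {x | Par Φ δ x p} := fun p => by
    refine MeasurableSet.union ((MeasurableSet.const _).inter ((hΦ p.1).inter ?_))
      ((MeasurableSet.const _).inter ((measurable_gsmul μ _ (hΦ p.1)).inter ?_))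
    · exact measurableSet_lt_nat (hδ.comp (measurable_gsmul μ _)) hδ
    · exact measurableSet_lt_nat (hδ.comp (measurable_gsmul μ _)) hδ
  obtain ⟨c, hc1, hc2⟩ := exists_measurable_choice hP
  refine ⟨δ, c, hc1, fun x hx => hc2 x ?_⟩
  have h1 : x ∈ Lev Φ M (δ x) := Nat.find_spec (hL x)
  have h2 : ∀ n, n < δ x → x ∉ Lev Φ M n := fun n hn => Nat.find_min (hL x) hn
  have h3 : ∀ y n, y ∈ Lev Φ M n → δ y ≤ n := fun y n hn => Nat.find_min' (hL y) hn
  rcases hd : δ x with _ | n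
  · rw [hd] at h1; exact absurd h1 hx
  · rw [hd] at h1
    rcases h1 with h1 | ⟨i, h1, h4⟩ | ⟨i, h1, h4⟩
    · exact absurd h1 (h2 n (by omega))
    · exact ⟨(i, true), Or.inl ⟨rfl, h1, by have := h3 _ _ h4; simp only; omega⟩⟩
    · exact ⟨(i, false), Or.inr ⟨rfl, h1, by have := h3 _ _ h4; simp only; omega⟩⟩

/-- the root map of a measurable forest -/
theorem exists_root {M : Set X} (hM : MeasurableSet M) (δ : X → ℕ) {π : X → Γ}
    (hπ : ∀ g, MeasurableSet {x | π x = g}) (h0 : ∀ x ∈ M, π x = 1)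
    (h1 : ∀ x, x ∉ M → δ (π x • x) < δ x) :
    ∃ ρ : X → Γ, (∀ g, MeasurableSet {x | ρ x = g}) ∧ (∀ x ∈ M, ρ x • x = x) ∧
      ∀ x, ρ (π x • x) • π x • x = ρ x • x := by
  classical
  let q : X → X := fun x => π x • x
  let ρn : ℕ → X → Γ := fun n => Nat.rec (fun _ => 1) (fun _ f x => f (q x) * π x) n
  have hρ0 : ∀ x, ρn 0 x = 1 := fun _ => rfl
  have hρs : ∀ n x, ρn (n + 1) x = ρn n (q x) * π x := fun _ _ => rfl
  have hit : ∀ n x, ρn n x • x = q^[n] x := by
    intro n
    induction n with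
    | zero => intro x; simp [hρ0]
    | succ n ih => intro x; rw [hρs, mul_smul, Function.iterate_succ_apply, ← ih]
  have hm : ∀ n g, MeasurableSet {x | ρn n x = g} := by
    intro n
    induction n with
    | zero => intro g; exact MeasurableSet.const ((1 : Γ) = g)
    | succ n ih =>
      intro g
      have : MeasurableSet {x | (fun k x => ρn n (k • x) = g * k⁻¹) (π x) x} :=
        measurableSet_dep hπ fun k => measurable_gsmul μ k (ih (g * k⁻¹))
      convert this using 2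
      ext x
      simp only [hρs, q, eq_mul_inv_iff_mul_eq]
  have hex : ∀ n x, δ x ≤ n → q^[n] x ∈ M ∨ False := by
    intro n
    induction n with
    | zero =>
      intro x hx
      by_contra hc
      have := h1 x (by simpa using hc)
      omega
    | succ n ih =>
      intro x hx
      by_cases hxM : x ∈ M
      · have : q x = x := by simp [q, h0 x hxM]
        rw [Function.iterate_fixed this]
        exact Or.inl hxM
      · have := h1 x hxM
        rw [Function.iterate_succ_apply]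
        exact ih _ (by simp only [q]; omega)
  have hex' : ∀ x, ∃ n, ρn n x • x ∈ M := fun x =>
    ⟨δ x, by rw [hit]; simpa using hex _ x le_rfl⟩
  have hfix : ∀ x a b, q^[a] x ∈ M → q^[b] x ∈ M → q^[a] x = q^[b] x := by
    have key : ∀ x a k, q^[a] x ∈ M → q^[k + a] x = q^[a] x := fun x a k ha => by
      rw [Function.iterate_add_apply]
      exact Function.iterate_fixed (by simp [q, h0 _ ha]) k
    intro x a b ha hb
    rcases le_total a b with h | h
    · obtain ⟨k, rfl⟩ := Nat.exists_eq_add_of_le' h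
      exact (key x a k ha).symm
    · obtain ⟨k, rfl⟩ := Nat.exists_eq_add_of_le' h
      exact key x b k hb
  have hnm : Measurable fun x => Nat.find (hex' x) :=
    measurable_find hex' fun n =>
      measurableSet_dep (S := fun k x => k • x ∈ M) (hm n) fun k => measurable_gsmul μ k hM
  refine ⟨fun x => ρn (Nat.find (hex' x)) x, fun g => ?_, fun x hx => ?_, fun x => ?_⟩
  · exact measurableSet_dep (S := fun n x => ρn n x = g)
      (fun n => hnm (measurableSet_singleton n)) fun n => hm n g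
  · have := Nat.find_spec (hex' x)
    rw [hit] at this ⊢
    exact hfix x _ 0 this hx
  · have e1 := Nat.find_spec (hex' x)
    have e2 := Nat.find_spec (hex' (q x))
    change ρn (Nat.find (hex' (q x))) (q x) • q x = _
    rw [hit] at e1 e2 ⊢
    rw [hit, ← Function.iterate_succ_apply] at *
    exact hfix x _ _ e2 e1

/-- Induction of a graphing on a complete section. -/
theorem exists_induced {Φ : ℕ → Γ × Set X} (hΦ : ∀ i, MeasurableSet (Φ i).2) {M : Set X}
    (hM : MeasurableSet M) (hc : ∀ x, ∃ y ∈ M, Relation.EqvGen (GraphingStep Φ) x y) :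
    ∃ Ψ : ℕ → Γ × Set X, (∀ i, MeasurableSet (Ψ i).2) ∧
      graphingCost μ Ψ + μ Mᶜ ≤ graphingCost μ Φ ∧
      ∀ x ∈ M, ∀ y ∈ M, Relation.EqvGen (GraphingStep Φ) x y →
        Relation.EqvGen (GraphingStep Ψ) x y := by
  classical
  obtain ⟨δ, c, hcm, hcp⟩ := exists_parent μ hΦ hM hc
  -- the parent map
  let s : ℕ × Bool → Γ := fun p => if p.2 then (Φ p.1).1 else (Φ p.1).1⁻¹
  let π : X → Γ := fun x => if x ∈ M then 1 else s (c x)
  have hπ : ∀ g, MeasurableSet {x | π x = g} := fun g => by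
    have h1 : MeasurableSet {x | (fun p (_ : X) => s p = g) (c x) x} :=
      measurableSet_dep (S := fun p (_ : X) => s p = g) hcm fun p => MeasurableSet.const _
    have : {x | π x = g} = (M ∩ {_x | (1 : Γ) = g}) ∪ (Mᶜ ∩ {x | s (c x) = g}) := by
      ext x
      by_cases hx : x ∈ M <;> simp [π, hx]
    rw [this]
    exact (hM.inter (MeasurableSet.const _)).union (hM.compl.inter h1)
  have hπ0 : ∀ x ∈ M, π x = 1 := fun x hx => if_pos hx
  have hπ1 : ∀ x, x ∉ M → δ (π x • x) < δ x := fun x hx => by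
    have e : π x = s (c x) := if_neg hx
    rcases hcp x hx with ⟨h1, -, h2⟩ | ⟨h1, -, h2⟩ <;> simpa [e, s, h1] using h2
  obtain ⟨ρ, hρm, hρ0, hρ1⟩ := exists_root μ hM δ hπ hπ0 hπ1
  -- tree edges
  let T : ℕ → Set X := fun i => (Φ i).2 ∩
    ({y | y ∉ M ∧ c y = (i, true)} ∪ {y | (Φ i).1 • y ∉ M ∧ c ((Φ i).1 • y) = (i, false)})
  have hT : ∀ i, MeasurableSet (T i) := fun i =>
    (hΦ i).inter ((hM.compl.inter (hcm _)).union
      (measurable_gsmul μ (Φ i).1 (hM.compl.inter (hcm _))))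
  have hTr : ∀ i, ∀ y ∈ T i, ρ ((Φ i).1 • y) • (Φ i).1 • y = ρ y • y := by
    rintro i y ⟨-, ⟨h1, h2⟩ | ⟨h1, h2⟩⟩
    · have := hρ1 y
      simpa [π, h1, h2, s] using this
    · have := hρ1 ((Φ i).1 • y)
      simpa [π, h1, h2, s] using this.symm
  -- the tree edges have measure at least `μ Mᶜ`
  have hTm : μ Mᶜ ≤ ∑' i, μ (T i) := by
    have hB : MeasurableSet {ω : It X ℕ | ω.pt ∈ T ω.ix} := It.measurableSet_iff.2 fun i => hT i
    rw [← nu_unit μ hM.compl]
    refine le_trans ?_ (nu_apply μ hB).le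
    let R : It X Unit → It X ℕ → Prop := fun ω ω' => ∃ i : ℕ,
      (ω ∈ {ω : It X Unit | ω.pt ∈ {x | c x = (i, true)}} ∧
          ω' = ⟨(1 : Γ) • ω.pt, (fun _ => i) ω.ix⟩) ∨
        (ω ∈ {ω : It X Unit | ω.pt ∈ {x | c x = (i, false)}} ∧
          ω' = ⟨(Φ i).1⁻¹ • ω.pt, (fun _ => i) ω.ix⟩)
    have hR : OM Γ R := OM.exists fun i =>
      ((OM.shift μ (1 : Γ) (fun _ : Unit => i)).and_left (It.measurableSet_pt (hcm _))).or
        ((OM.shift μ (Φ i).1⁻¹ (fun _ : Unit => i)).and_left (It.measurableSet_pt (hcm _)))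
    refine nu_le_of_inj μ hR (It.measurableSet_pt hM.compl) hB ?_ ?_
    · rintro ⟨x, u⟩ hx
      have hx' : x ∉ M := hx
      rcases hcp x hx' with ⟨h1, h2, -⟩ | ⟨h1, h2, -⟩
      · have e : c x = ((c x).1, true) := Prod.ext rfl h1
        exact ⟨⟨(1 : Γ) • x, (c x).1⟩, ⟨by simpa using h2, Or.inl ⟨by simpa using hx', by simpa using e⟩⟩,
          (c x).1, Or.inl ⟨e, rfl⟩⟩
      · have e : c x = ((c x).1, false) := Prod.ext rfl h1
        exact ⟨⟨(Φ (c x).1).1⁻¹ • x, (c x).1⟩,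
          ⟨h2, Or.inr ⟨by simpa using hx', by simpa using e⟩⟩, (c x).1, Or.inr ⟨e, rfl⟩⟩
    · rintro ⟨x, u⟩ hx ⟨y, u'⟩ hy ω' - ⟨i, e1⟩ ⟨j, e2⟩
      have hx' : x ∉ M := hx
      have hy' : y ∉ M := hy
      have px := hcp x hx'
      have py := hcp y hy'
      refine It.ext ?_ rfl
      simp only [mem_ofPred_eq, one_smul] at e1 e2 ⊢
      rcases e1 with ⟨c1, rfl⟩ | ⟨c1, rfl⟩ <;> rcases e2 with ⟨c2, e2⟩ | ⟨c2, e2⟩ <;>
        simp only [It.mk.injEq] at e2 <;> obtain ⟨e2, rfl⟩ := e2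
      · exact e2
      · subst e2
        simp [Par, c1, c2] at px py
        omega
      · subst e2
        simp [Par, c1, c2] at px py
        omega
      · exact smul_left_cancel _ e2
  -- the new graphing
  let D : ℕ × Γ × Γ → Set X := fun j =>
    ((Φ j.1).2 \ T j.1) ∩ ({y | ρ y = j.2.1} ∩ {y | ρ ((Φ j.1).1 • y) = j.2.2})
  have hD : ∀ j, MeasurableSet (D j) := fun j =>
    ((hΦ _).diff (hT _)).inter ((hρm _).inter (measurable_gsmul μ (Φ j.1).1 (hρm _)))
  obtain ⟨e⟩ : Nonempty (ℕ ≃ ℕ × Γ × Γ) := nonempty_equiv_of_countable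
  let Ψ : ℕ → Γ × Set X := fun n =>
    ((e n).2.2 * (Φ (e n).1).1 * (e n).2.1⁻¹, {z | (e n).2.1⁻¹ • z ∈ D (e n)})
  refine ⟨Ψ, fun n => measurable_gsmul μ _ (hD _), ?_, ?_⟩
  · have h1 : graphingCost μ Ψ = ∑' i, μ ((Φ i).2 \ T i) := by
      unfold graphingCost
      have : ∀ n, μ (Ψ n).2 = μ (D (e n)) := fun n => measure_preimage_gsmul μ _ (hD _)
      simp_rw [this]
      rw [e.tsum_eq (fun j => μ (D j)), ENNReal.tsum_prod']
      congr 1
      funext i
      rw [← measure_iUnion (f := fun p : Γ × Γ => D (i, p))]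
      · congr 1
        ext y
        simp only [mem_iUnion, D, mem_inter_iff, mem_ofPred_eq]
        exact ⟨fun ⟨p, h, _⟩ => h, fun h => ⟨(_, _), h, rfl, rfl⟩⟩
      · intro p q hpq
        refine Set.disjoint_left.2 fun y hp hq => hpq ?_
        exact Prod.ext (hp.2.1.symm.trans hq.2.1) (hp.2.2.symm.trans hq.2.2)
      · exact fun p => hD _
    rw [h1]
    refine (add_le_add le_rfl hTm).trans ?_
    rw [← ENNReal.tsum_add]
    refine ENNReal.tsum_le_tsum fun i => ?_
    rw [← measure_sdiff_add_inter (Φ i).2 (hT i)]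
    exact add_le_add le_rfl (measure_mono fun y hy => ⟨hy.1, hy⟩)
  · have key : ∀ x y, Relation.EqvGen (GraphingStep Φ) x y →
        Relation.EqvGen (GraphingStep Ψ) (ρ x • x) (ρ y • y) := by
      intro x y h
      induction h with
      | rel x y h =>
        obtain ⟨i, hx, rfl⟩ := h
        by_cases hxT : x ∈ T i
        · rw [hTr i x hxT]; exact .refl _
        · refine .rel _ _ ⟨e.symm (i, ρ x, ρ ((Φ i).1 • x)), ?_, ?_⟩
          · simp only [Ψ, Equiv.apply_symm_apply, mem_ofPred_eq, inv_smul_smul]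
            exact ⟨⟨hx, hxT⟩, rfl, rfl⟩
          · simp [Ψ, mul_smul]
      | refl x => exact .refl _
      | symm x y _ ih => exact ih.symm _ _
      | trans x y z _ _ ih1 ih2 => exact ih1.trans _ _ _ ih2
    intro x hx y hy h
    have := key x y h
    rwa [hρ0 x hx, hρ0 y hy] at this

/-- measurability of the generated equivalence relation along a group element -/
theorem measurableSet_eqvGen {R : X → X → Prop} (h1 : ∀ x y, R x y → ∃ g : Γ, y = g • x)
    (h2 : ∀ g : Γ, MeasurableSet {x | R x (g • x)}) (g : Γ) :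
    MeasurableSet {x | Relation.EqvGen R x (g • x)} := by
  have hR : OM Γ (fun ω ω' : It X Unit => R ω.pt ω'.pt) :=
    ⟨fun ω ω' e => h1 _ _ e, fun g _ => It.measurableSet_pt (h2 g)⟩
  have := It.slice ((hR.eqvGen μ).meas g ()) ()
  convert this using 2
  ext x
  constructor
  · intro h
    have : ∀ a b, Relation.EqvGen R a b →
        Relation.EqvGen (fun ω ω' : It X Unit => R ω.pt ω'.pt) ⟨a, ()⟩ ⟨b, ()⟩ := by
      intro a b h
      induction h with
      | rel x y h => exact .rel _ _ h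
      | refl x => exact .refl _
      | symm x y _ ih => exact ih.symm _ _
      | trans x y z _ _ ih1 ih2 => exact ih1.trans _ _ _ ih2
    exact this _ _ h
  · intro h
    have : ∀ a b : It X Unit, Relation.EqvGen (fun ω ω' : It X Unit => R ω.pt ω'.pt) a b →
        Relation.EqvGen R a.pt b.pt := by
      intro a b h
      induction h with
      | rel x y h => exact .rel _ _ h
      | refl x => exact .refl _
      | symm x y _ ih => exact ih.symm _ _
      | trans x y z _ _ ih1 ih2 => exact ih1.trans _ _ _ ih2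
    exact this _ _ h

/-- truncation of a countable graphing to a finite one -/
theorem exists_truncation [IsFiniteMeasure μ] (H : Subgroup Γ) (b : Γ) {Ψ : ℕ → Γ × Set X}
    (hΨ : ∀ i, MeasurableSet (Ψ i).2) {N : Set X} (hN : μ N = 0)
    (h : ∀ x, x ∉ N → Relation.EqvGen
      (fun y z => (∃ h ∈ H, z = h • y) ∨ GraphingStep Ψ y z) x (b • x))
    {eps : ℝ≥0∞} (heps : 0 < eps) :
    ∃ (K : ℕ) (γ : Fin K → Γ) (A : Fin K → Set X), (∀ i, MeasurableSet (A i)) ∧
      ∑ i, μ (A i) ≤ graphingCost μ Ψ + eps ∧ ∀ x, Relation.EqvGen (RelStep H γ A) x (b • x) := by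
  classical
  let R : ℕ → X → X → Prop := fun K y z =>
    (∃ h ∈ H, z = h • y) ∨ ∃ i < K, y ∈ (Ψ i).2 ∧ z = (Ψ i).1 • y
  have hmono : ∀ K K', K ≤ K' → ∀ x y, Relation.EqvGen (R K) x y → Relation.EqvGen (R K') x y := by
    intro K K' hK x y h
    refine Relation.EqvGen.mono ?_ _ _ h
    rintro y z (h | ⟨i, hi, h⟩)
    · exact Or.inl h
    · exact Or.inr ⟨i, hi.trans_le hK, h⟩
  have hex : ∀ x y, Relation.EqvGen (fun y z => (∃ h ∈ H, z = h • y) ∨ GraphingStep Ψ y z) x y →
      ∃ K, Relation.EqvGen (R K) x y := by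
    intro x y h
    induction h with
    | rel x y h =>
      rcases h with h | ⟨i, h⟩
      · exact ⟨0, .rel _ _ (Or.inl h)⟩
      · exact ⟨i + 1, .rel _ _ (Or.inr ⟨i, Nat.lt_succ_self i, h⟩)⟩
    | refl x => exact ⟨0, .refl _⟩
    | symm x y _ ih => obtain ⟨K, ih⟩ := ih; exact ⟨K, ih.symm _ _⟩
    | trans x y z _ _ ih1 ih2 =>
      obtain ⟨K1, ih1⟩ := ih1
      obtain ⟨K2, ih2⟩ := ih2
      exact ⟨max K1 K2, (hmono _ _ (le_max_left _ _) _ _ ih1).trans _ _ _
        (hmono _ _ (le_max_right _ _) _ _ ih2)⟩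
  let G : ℕ → Set X := fun K => {x | Relation.EqvGen (R K) x (b • x)}ᶜ
  have hG : ∀ K, MeasurableSet (G K) := fun K => by
    refine (measurableSet_eqvGen μ ?_ (fun g => ?_) b).compl
    · rintro x y (⟨h, -, e⟩ | ⟨i, -, -, e⟩)
      · exact ⟨h, e⟩
      · exact ⟨_, e⟩
    · refine MeasurableSet.union (s₁ := {x : X | ∃ h ∈ H, g • x = h • x}) ?_ ?_
      · rw [ofPred_exists]
        exact MeasurableSet.iUnion fun h =>
          (MeasurableSet.const _).inter (measurableSet_smul_eq μ g h)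
      · change MeasurableSet {x : X | ∃ i < K, x ∈ (Ψ i).2 ∧ g • x = (Ψ i).1 • x}
        rw [ofPred_exists]
        exact MeasurableSet.iUnion fun i =>
          (MeasurableSet.const _).inter ((hΨ i).inter (measurableSet_smul_eq μ g _))
  have hanti : Antitone G := fun K K' hK x hx hx' => hx (hmono _ _ hK _ _ hx')
  have hlim := tendsto_measure_iInter_atTop (μ := μ) (fun K => (hG K).nullMeasurableSet) hanti
    ⟨0, measure_ne_top _ _⟩
  have h0 : μ (⋂ K, G K) = 0 := by
    refine measure_mono_null (fun x hx => ?_) hN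
    by_contra hxN
    obtain ⟨K, hK⟩ := hex _ _ (h x hxN)
    exact mem_iInter.1 hx K hK
  rw [h0] at hlim
  obtain ⟨K, hK⟩ := (hlim.eventually (ge_mem_nhds heps)).exists
  refine ⟨K + 1, Fin.snoc (α := fun _ => Γ) (fun i => (Ψ i).1) b,
    Fin.snoc (α := fun _ => Set X) (fun i => (Ψ i).2) (G K), ?_, ?_, ?_⟩
  · intro i
    induction i using Fin.lastCases with
    | last => simpa using hG K
    | cast i => simpa using hΨ i
  · rw [Fin.sum_univ_castSucc]
    simp only [Fin.snoc_castSucc, Fin.snoc_last]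
    refine add_le_add ?_ hK
    rw [Fin.sum_univ_eq_sum_range (fun i => μ (Ψ i).2) K]
    exact ENNReal.sum_le_tsum _
  · intro x
    by_cases hx : x ∈ G K
    · exact .rel _ _ (Or.inr ⟨Fin.last K, by simpa using hx, by simp⟩)
    · have hx' : Relation.EqvGen (R K) x (b • x) := by simpa [G] using hx
      refine Relation.EqvGen.mono ?_ _ _ hx'
      rintro y z (h | ⟨i, hi, h1, h2⟩)
      · exact Or.inl h
      · exact Or.inr ⟨Fin.castSucc ⟨i, hi⟩, by rw [Fin.snoc_castSucc]; exact h1,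
          by rw [Fin.snoc_castSucc]; exact h2⟩

end

/-- The relative cost lemma, with the orbit section as a hypothesis. -/
theorem relcost_of_section [Countable Γ] (μ : Measure X) [IsProbabilityMeasure μ] [FPA Γ μ]
    (H : Subgroup Γ)
    (hsec : ∀ d : ℕ, 0 < d → ∃ M : Set X, MeasurableSet M ∧ (∀ x, ∃ h ∈ H, h • x ∈ M) ∧
      (d : ℝ≥0∞) * μ M ≤ 1)
    (b : Γ) (m : ℝ≥0∞) (hm : actionCost Γ X μ < 1 + m) :
    ∃ (K : ℕ) (γ : Fin K → Γ) (A : Fin K → Set X), (∀ i, MeasurableSet (A i)) ∧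
      ∑ i, μ (A i) ≤ m ∧ ∀ x, Relation.EqvGen (RelStep H γ A) x (b • x) := by
  classical
  obtain ⟨c, ⟨Φ, ⟨hΦ, N, hN0, hN⟩, rfl⟩, hc⟩ := sInf_lt_iff.1 hm
  obtain ⟨r, hr0, hr⟩ := ENNReal.lt_iff_exists_add_pos_lt.1 hc
  set eps : ℝ≥0∞ := (r : ℝ≥0∞) / 2 with heps
  have heps0 : 0 < eps := ENNReal.half_pos (by exact_mod_cast hr0.ne')
  have heps2 : eps + eps = r := ENNReal.add_halves _
  obtain ⟨d, hd0, hd⟩ := ENNReal.exists_nat_pos_inv_mul_lt (a := 1) ENNReal.one_ne_top heps0.ne'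
  obtain ⟨M, hM, hMx, hMd⟩ := hsec d hd0
  have hMe : μ M ≤ eps := by
    refine le_trans ?_ hd.le
    have hd1 : (d : ℝ≥0∞) ≠ 0 := by exact_mod_cast hd0.ne'
    calc μ M = (d : ℝ≥0∞)⁻¹ * (d * μ M) := by
          rw [← mul_assoc, ENNReal.inv_mul_cancel hd1 (ENNReal.natCast_ne_top d), one_mul]
      _ ≤ _ := by gcongr
  let N' : Set X := ⋃ g : Γ, {x | g • x ∈ toMeasurable μ N}
  have hN'm : MeasurableSet N' :=
    MeasurableSet.iUnion fun g => measurable_gsmul μ g (measurableSet_toMeasurable μ N)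
  have hN'0 : μ N' = 0 := measure_iUnion_null fun g => by
    rw [measure_preimage_gsmul μ g (measurableSet_toMeasurable μ N), measure_toMeasurable, hN0]
  have hN'N : ∀ x, x ∉ N' → ∀ g : Γ, g • x ∉ N := fun x hx g hg =>
    hx (mem_iUnion.2 ⟨g, subset_toMeasurable μ N hg⟩)
  obtain ⟨Ψ, hΨ, hcost, hgen⟩ := exists_induced μ hΦ (hM.union hN'm) (fun x => by
    by_cases hx : x ∈ N'
    · exact ⟨x, Or.inr hx, .refl _⟩
    · obtain ⟨h, -, hh⟩ := hMx x
      exact ⟨h • x, Or.inl hh, hN x (by simpa using hN'N x hx 1) h⟩)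
  obtain ⟨K, γ, A, hA, hsum, hrel⟩ := exists_truncation μ H b hΨ hN'0 (fun x hx => by
    obtain ⟨h, hH, hh⟩ := hMx x
    obtain ⟨h', hH', hh'⟩ := hMx (b • x)
    have e1 := hN (h • x) (hN'N x hx h) (h' * b * h⁻¹)
    simp only [mul_smul, inv_smul_smul] at e1
    have e2 := hgen _ (Or.inl hh) _ (Or.inl hh') e1
    refine .trans _ _ _ (.rel _ _ (Or.inl ⟨h, hH, rfl⟩)) (.trans _ _ _ ?_
      (.symm _ _ (.rel _ _ (Or.inl ⟨h', hH', rfl⟩))))
    exact Relation.EqvGen.mono (fun _ _ h => Or.inr h) _ _ e2) heps0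
  refine ⟨K, γ, A, hA, hsum.trans ?_, hrel⟩
  have h1 : 1 ≤ μ (M ∪ N')ᶜ + eps := by
    calc (1 : ℝ≥0∞) = μ (M ∪ N') + μ (M ∪ N')ᶜ := by
          rw [measure_add_measure_compl (hM.union hN'm), measure_univ]
      _ ≤ eps + μ (M ∪ N')ᶜ := by
          gcongr
          exact (measure_union_le _ _).trans (by rw [hN'0, add_zero]; exact hMe)
      _ = _ := add_comm _ _
  have h2 : 1 + (graphingCost μ Ψ + eps) ≤ 1 + m := by
    calc 1 + (graphingCost μ Ψ + eps) ≤ (μ (M ∪ N')ᶜ + eps) + (graphingCost μ Ψ + eps) := by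
          gcongr
      _ = (graphingCost μ Ψ + μ (M ∪ N')ᶜ) + (eps + eps) := by ring
      _ ≤ graphingCost μ Φ + r := by rw [heps2]; gcongr
      _ ≤ 1 + m := hr.le
  exact (ENNReal.add_le_add_iff_left ENNReal.one_ne_top).1 h2

end Relcost

/-- The relative cost lemma: if the action has cost less than `1 + m` and `H` contains an element of
infinite order, then finitely many partial maps of total measure at most `m` together with `H`
join every point `x` to `b • x`. -/
theorem relcost {Γ X : Type} [Group Γ] [Countable Γ] [MulAction Γ X] [MeasurableSpace X]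
    [StandardBorelSpace X] (μ : Measure X) [IsProbabilityMeasure μ] [FPA Γ μ] (H : Subgroup Γ)
    (t : Γ) (htH : t ∈ H) (ht : Function.Injective fun k : ℤ => t ^ k) (b : Γ) (m : ℝ≥0∞)
    (hm : Crest.Dynamics.actionCost Γ X μ < 1 + m) :
    ∃ (K : ℕ) (γ : Fin K → Γ) (A : Fin K → Set X), (∀ i, MeasurableSet (A i)) ∧
      ∑ i, μ (A i) ≤ m ∧ ∀ x, Relation.EqvGen (RelStep H γ A) x (b • x) := by
  refine Relcost.relcost_of_section μ H (fun d hd => ?_) b m hm
  obtain ⟨M, h1, h2, h3⟩ := exists_orbit_section μ t ht d hd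
  exact ⟨M, h1, fun x => (h2 x).elim fun k hk => ⟨t ^ k, H.zpow_mem htH k, hk⟩, h3⟩

end Crest.Agent.R191
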