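import Crest.Agent.R191.Gain
import Crest.Agent.R191.Progress
import Crest.Agent.R191.Fold
import Crest.Agent.R191.Attach
import Crest.Agent.R191.Init
import Crest.Agent.R191.Relcost

/-! The lower bound for the cost of an expanding action. -/

set_option autoImplicit false
set_option linter.unusedVariables false
set_option linter.unusedSectionVars false

namespace Crest.Agent.R191

open MeasureTheory Set
open scoped ENNReal

variable {Γ X : Type} [Group Γ] [Countable Γ] [Infinite Γ] [MulAction Γ X] [MeasurableSpace X]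
  [StandardBorelSpace X]
  {H : Subgroup Γ} {v : ZMod 100 → Γ} {K : ℕ} {S : Set (It X (Fin K))}

/-- path properties pass from `Y` to `Y'` -/
def Str.Le (Y Y' : Str H v S) : Prop :=
  ∀ x, (∀ k, Y.Short x k → Y'.Short x k) ∧ (Y.Done x → Y'.Done x) ∧
    ∀ k p, Y.Ready x k p → Y'.Ready x k p

theorem Str.Le.refl (Y : Str H v S) : Y.Le Y := fun _ => ⟨fun _ h => h, id, fun _ _ h => h⟩

theorem Str.Le.trans {Y Y' Y'' : Str H v S} (h : Y.Le Y') (h' : Y'.Le Y'') : Y.Le Y'' :=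
  fun x => ⟨fun k g => (h' x).1 k ((h x).1 k g), fun g => (h' x).2.1 ((h x).2.1 g),
    fun k p g => (h' x).2.2 k p ((h x).2.2 k p g)⟩

theorem Str.Mor.le {Y Y' : Str H v S} (h : Y.Mor Y') : Y.Le Y' :=
  fun _ => ⟨fun _ g => h.short g, h.done, fun _ _ g => h.ready g⟩

variable (μ : Measure X) [IsProbabilityMeasure μ] [FPA Γ μ]

/-- a structure with cells of measure exactly `1/16` can be reached -/
def Str.Full (Y : Str H v S) : Prop :=
  ∃ Y' : Str H v S, nu μ ℕ Y'.C = 1 / 16 ∧ Y'.pot μ ≤ Y.pot μ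

theorem Str.Full.of_le {Y Y' : Str H v S} (h : Y'.Full μ) (hp : Y'.pot μ ≤ Y.pot μ) :
    Y.Full μ := by
  obtain ⟨Y'', h1, h2⟩ := h
  exact ⟨Y'', h1, h2.trans hp⟩

theorem Str.substep (D : GD H v) (Y : Str H v S) (hF : nu μ ℕ Y.C ≤ 1 / 16) (p : ZMod 100) :
    Y.Full μ ∨ ∃ Y' : Str H v S, nu μ ℕ Y'.C ≤ 1 / 16 ∧ Y'.pot μ ≤ Y.pot μ ∧ Y.Le Y' ∧
      ∀ x k, Y.Ready x (k + 1) p → Y'.Short x k := by
  obtain ⟨Y1, f1, m1, p1, c1⟩ := Y.exists_fold μ
  have mA := Y1.measurableSet_att μ p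
  by_cases h : nu μ ℕ Y1.C + nu μ ℕ (Y1.Att p) ≤ 1 / 16
  · obtain ⟨Y2, m2, p2, c2, cl⟩ := Y1.exists_attach μ D f1 p subset_rfl mA
    refine Or.inr ⟨Y2, c2 ▸ h, p2 ▸ p1, m1.le.trans m2.le, fun x k hr => ?_⟩
    exact m2.short_of_ready (fun σ e ha => cl σ e ha id) (m1.ready hr)
  · left
    have hfin : nu μ ℕ (Y1.Att p) ≠ ⊤ := by
      refine ne_top_of_le_ne_top (Y1.nuE_ne_top μ) (measure_mono ?_)
      rintro _ ⟨⟨σ, e, ha, rfl⟩, -⟩
      exact (ha.1 _ (zmod_add_one_ne p)).1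
    obtain ⟨A, hA, mA', nA⟩ := exists_subset_nu_eq (Γ := Γ) μ mA hfin
      (s := 1 / 16 - nu μ ℕ Y1.C) (by
        rw [tsub_le_iff_left]
        exact (not_le.1 h).le)
    obtain ⟨Y2, m2, p2, c2, -⟩ := Y1.exists_attach μ D f1 p hA mA'
    refine ⟨Y2, ?_, p2 ▸ p1⟩
    rw [c2, nA, add_tsub_cancel_of_le (c1.trans hF)]

theorem Str.substeps (D : GD H v) (l : List (ZMod 100)) (Y : Str H v S)
    (hF : nu μ ℕ Y.C ≤ 1 / 16) :
    Y.Full μ ∨ ∃ Y' : Str H v S, nu μ ℕ Y'.C ≤ 1 / 16 ∧ Y'.pot μ ≤ Y.pot μ ∧ Y.Le Y' ∧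
      ∀ p ∈ l, ∀ x k, Y.Ready x (k + 1) p → Y'.Short x k := by
  induction l with
  | nil => exact Or.inr ⟨Y, hF, le_rfl, Str.Le.refl Y, by simp⟩
  | cons q l ih =>
    rcases ih with h | ⟨Y1, c1, p1, l1, r1⟩
    · exact Or.inl h
    rcases Y1.substep μ D c1 q with h | ⟨Y2, c2, p2, l2, r2⟩
    · exact Or.inl (h.of_le μ p1)
    refine Or.inr ⟨Y2, c2, p2.trans p1, l1.trans l2, fun p hp x k hr => ?_⟩
    rcases List.mem_cons.1 hp with rfl | hp
    · exact r2 x k ((l1 x).2.2 _ _ hr)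
    · exact (l2 x).1 k (r1 p hp x k hr)

theorem Str.rounds (D : GD H v) (hGL : GLProp H v X) (n : ℕ) (Y : Str H v S)
    (hF : nu μ ℕ Y.C ≤ 1 / 16) :
    Y.Full μ ∨ ∃ Y' : Str H v S, nu μ ℕ Y'.C ≤ 1 / 16 ∧ Y'.pot μ ≤ Y.pot μ ∧ Y.Le Y' ∧
      ∀ x, Y.Short x n → Y'.Done x := by
  induction n generalizing Y with
  | zero =>
    obtain ⟨Y1, f1, m1, p1, c1⟩ := Y.exists_fold μ
    refine Or.inr ⟨Y1, c1.trans hF, p1, m1.le, fun x hx => ?_⟩
    rcases Y1.progress hGL f1 (m1.short hx) with h | ⟨p, σ, e, -, l1, l2, h, -⟩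
    · exact h
    · omega
  | succ n ih =>
    obtain ⟨Y1, f1, m1, p1, c1⟩ := Y.exists_fold μ
    rcases Y1.substeps μ D Finset.univ.toList (c1.trans hF) with h | ⟨Y2, c2, p2, l2, r2⟩
    · exact Or.inl (h.of_le μ p1)
    rcases ih Y2 c2 with h | ⟨Y3, c3, p3, l3, r3⟩
    · exact Or.inl (h.of_le μ (p2.trans p1))
    refine Or.inr ⟨Y3, c3, p3.trans (p2.trans p1), (m1.le.trans l2).trans l3, fun x hx => ?_⟩
    rcases Y1.progress hGL f1 (m1.short hx) with h | ⟨p, h⟩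
    · exact (l3 x).2.1 ((l2 x).2.1 h)
    · exact r3 x (r2 p (by simp) x n h)

theorem Str.full (D : GD H v) (hGL : GLProp H v X) (mS : MeasurableSet S)
    (hS : nu μ (Fin K) S ≤ 1 / 100) (Y : Str H v S) (hF : nu μ ℕ Y.C ≤ 1 / 16) : Y.Full μ := by
  have hmono : Monotone fun n : ℕ => {x | Y.Short x n} := fun n m h x hx => hx.mono h
  have huniv : (⋃ n : ℕ, {x | Y.Short x n}) = univ :=
    eq_univ_of_forall fun x => mem_iUnion.2 (Y.exists_short x)
  have h1 := hmono.measure_iUnion (μ := μ)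
  rw [huniv, measure_univ] at h1
  have h2 : (1 / 100 + 1 / 16 : ℝ≥0∞) < ⨆ n : ℕ, μ {x | Y.Short x n} := by
    rw [← h1]
    calc (1 / 100 + 1 / 16 : ℝ≥0∞) < 1 / 2 + 1 / 2 := by
          apply ENNReal.add_lt_add
          · simp only [one_div]
            exact ENNReal.inv_lt_inv.2 (by norm_num)
          · simp only [one_div]
            exact ENNReal.inv_lt_inv.2 (by norm_num)
      _ = 1 := ENNReal.add_halves 1
  obtain ⟨n, hn⟩ := lt_iSup_iff.1 h2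
  rcases Y.rounds μ D hGL n hF with h | ⟨Y', c1, -, -, r1⟩
  · exact h
  · exfalso
    have h3 := Y'.done_le μ mS
    have h4 : μ {x | Y.Short x n} ≤ μ {x | Y'.Done x} := measure_mono fun x hx => r1 x hx
    exact absurd (hn.trans_le (h4.trans (h3.trans (add_le_add hS c1)))) (lt_irrefl _)

theorem Str.false (D : GD H v) (hGL : GLProp H v X) (hX : Expands v μ) (mS : MeasurableSet S)
    (hS : nu μ (Fin K) S ≤ 1 / 100) (Y : Str H v S) (hF : nu μ ℕ Y.C ≤ 1 / 16) : False := by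
  have key : ∀ n : ℕ, ∃ Y' : Str H v S, nu μ ℕ Y'.C ≤ 1 / 16 ∧
      Y'.pot μ ≤ Y.pot μ - n / 2000 := by
    intro n
    induction n with
    | zero => exact ⟨Y, hF, by simp⟩
    | succ n ih =>
      obtain ⟨Y1, c1, p1⟩ := ih
      obtain ⟨Y2, c2, p2⟩ := Y1.full μ D hGL mS hS c1
      obtain ⟨Y3, p3, c3⟩ := Y2.exists_gain μ D hX mS hS c2
      refine ⟨Y3, c3, ?_⟩
      push_cast
      linarith
  obtain ⟨n, hn⟩ := exists_nat_gt (2000 * Y.pot μ)
  obtain ⟨Y', -, h⟩ := key n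
  have := Y'.pot_nonneg μ
  linarith

/-- The lower bound. -/
theorem lower (D : GD H v) (hGL : GLProp H v X) (hX : Expands v μ) (t : Γ) (htH : t ∈ H)
    (ht : Function.Injective fun k : ℤ => t ^ k) :
    1 + 1 / 100 ≤ Crest.Dynamics.actionCost Γ X μ := by
  by_contra h
  obtain ⟨K, γ, A, hA, hm, hgen⟩ := relcost μ H t htH ht (av v 1) (1 / 100) (not_le.1 h)
  obtain ⟨Y, hY⟩ := exists_init μ D γ A hA hgen
  have mS : MeasurableSet {s : It X (Fin K) | s.pt ∈ A s.ix} :=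
    It.measurableSet_iff.2 fun i => hA i
  refine Y.false μ D hGL hX mS ?_ (by simp [hY])
  rw [nu_apply μ mS, tsum_fintype]
  exact hm

end Crest.Agent.R191
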