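import Crest.Agent.R191.MC

/-! Measured graph structures over the orbits. -/

set_option autoImplicit false
set_option linter.unusedVariables false
set_option linter.unusedSectionVars false

namespace Crest.Agent.R191

open MeasureTheory Set
open Finsupp hiding some
open scoped ENNReal

/-- labels of nodes: `none` for a base point, `some (i, b)` for an end of an edge -/
abbrev JN : Type := Option (ℕ × Bool)

variable {Γ X : Type} [Group Γ] [MulAction Γ X] [MeasurableSpace X]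

/-- the tail (`false`) or head (`true`) of an edge -/
def en (e : It X ℕ) (b : Bool) : It X JN := ⟨e.pt, some (e.ix, b)⟩

/-- a base node -/
def bs (x : X) : It X JN := ⟨x, none⟩

/-- location of a node -/
def nloc (v : ZMod 100 → Γ) (η : It X JN) : X :=
  match η.ix with
  | none => η.pt
  | some p => eloc v η.pt p.2

@[simp] theorem nloc_bs (v : ZMod 100 → Γ) (x : X) : nloc v (bs x) = x := rfl
@[simp] theorem nloc_en (v : ZMod 100 → Γ) (e : It X ℕ) (b : Bool) :
    nloc v (en e b) = eloc v e.pt b := rfl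
@[simp] theorem en_pt (e : It X ℕ) (b : Bool) : (en e b).pt = e.pt := rfl
@[simp] theorem bs_pt (x : X) : (bs x).pt = x := rfl
@[simp] theorem en_inj {e e' : It X ℕ} {b b' : Bool} : en e b = en e' b' ↔ e = e' ∧ b = b' := by
  constructor
  · intro h
    simp only [en, It.mk.injEq, Option.some.injEq, Prod.mk.injEq] at h
    exact ⟨It.ext h.1 h.2.1, h.2.2⟩
  · rintro ⟨rfl, rfl⟩; rfl
@[simp] theorem en_ne_bs (e : It X ℕ) (b : Bool) (x : X) : en e b ≠ bs x := by simp [en, bs]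
@[simp] theorem bs_ne_en (e : It X ℕ) (b : Bool) (x : X) : bs x ≠ en e b := by simp [en, bs]
@[simp] theorem bs_inj {x y : X} : bs x = bs y ↔ x = y := by simp [bs]

theorem node_cases (η : It X JN) : (∃ x, η = bs x) ∨ ∃ e b, η = en e b := by
  obtain ⟨x, _ | ⟨i, b⟩⟩ := η
  · exact Or.inl ⟨x, rfl⟩
  · exact Or.inr ⟨⟨x, i⟩, b, rfl⟩

/-- boundary of an edge -/
noncomputable def bd1 (e : It X ℕ) : It X JN →₀ ℤ := single (en e true) 1 - single (en e false) 1

/-- boundary of a chain of edges -/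
noncomputable def bd : (It X ℕ →₀ ℤ) →ₗ[ℤ] (It X JN →₀ ℤ) := linearCombination ℤ bd1

@[simp] theorem bd_single (e : It X ℕ) (z : ℤ) : bd (single e z) = z • bd1 e := by
  simp [bd]

/-- the relations imposed on nodes: equivalent nodes are equal, base nodes vanish -/
noncomputable def Zs (r : It X JN → It X JN → Prop) : Submodule ℤ (It X JN →₀ ℤ) :=
  Submodule.span ℤ ({ζ | ∃ η η', r η η' ∧ ζ = single η 1 - single η' 1} ∪
    {ζ | ∃ x, ζ = single (bs x) 1})

theorem Zs_rel {r : It X JN → It X JN → Prop} {η η' : It X JN} (h : r η η') :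
    single η 1 - single η' 1 ∈ Zs r := Submodule.subset_span (Or.inl ⟨η, η', h, rfl⟩)

theorem Zs_bs (r : It X JN → It X JN → Prop) (x : X) : single (bs x) 1 ∈ Zs r :=
  Submodule.subset_span (Or.inr ⟨x, rfl⟩)

theorem Zs_le {r : It X JN → It X JN → Prop} {P : Submodule ℤ (It X JN →₀ ℤ)}
    (h1 : ∀ η η', r η η' → single η 1 - single η' 1 ∈ P) (h2 : ∀ x, single (bs x) 1 ∈ P) :
    Zs r ≤ P := by
  refine Submodule.span_le.2 ?_
  rintro _ (⟨η, η', h, rfl⟩ | ⟨x, rfl⟩)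
  · exact h1 _ _ h
  · exact h2 x

/-- boundary chain of a cell -/
noncomputable def cbd (ed : It X ℕ → ZMod 100 → It X ℕ) (c : It X ℕ) : It X ℕ →₀ ℤ :=
  ∑ k, single (ed c k) 1

/-- valid nodes: base nodes and ends of edges of `E` -/
def Valid (E : Set (It X ℕ)) (η : It X JN) : Prop := (∃ x, η = bs x) ∨ ∃ e ∈ E, ∃ b, η = en e b

theorem valid_bs (E : Set (It X ℕ)) (x : X) : Valid E (bs x) := Or.inl ⟨x, rfl⟩

@[simp] theorem valid_en {E : Set (It X ℕ)} {e : It X ℕ} {b : Bool} :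
    Valid E (en e b) ↔ e ∈ E := by
  constructor
  · rintro (⟨x, h⟩ | ⟨e', he', b', h⟩)
    · exact absurd h (en_ne_bs _ _ _)
    · rw [(en_inj.1 h).1]; exact he'
  · exact fun h => Or.inr ⟨e, h, b, rfl⟩

/-- a step in the graph: stay in the vertex or cross an edge -/
def Step (E : Set (It X ℕ)) (r : It X JN → It X JN → Prop) (η η' : It X JN) : Prop :=
  r η η' ∨ ∃ e ∈ E, η = en e false ∧ η' = en e true

/-- connectedness in the graph -/
def Conn (E : Set (It X ℕ)) (r : It X JN → It X JN → Prop) : It X JN → It X JN → Prop :=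
  Relation.EqvGen (Step E r)

theorem Conn.refl (E : Set (It X ℕ)) (r : It X JN → It X JN → Prop) (η : It X JN) :
    Conn E r η η := Relation.EqvGen.refl η

theorem Conn.symm {E : Set (It X ℕ)} {r : It X JN → It X JN → Prop} {η η' : It X JN}
    (h : Conn E r η η') : Conn E r η' η := Relation.EqvGen.symm _ _ h

theorem Conn.trans {E : Set (It X ℕ)} {r : It X JN → It X JN → Prop} {η η' η'' : It X JN}
    (h : Conn E r η η') (h' : Conn E r η' η'') : Conn E r η η'' := Relation.EqvGen.trans _ _ _ h h'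

theorem Conn.of_rel {E : Set (It X ℕ)} {r : It X JN → It X JN → Prop} {η η' : It X JN}
    (h : r η η') : Conn E r η η' := Relation.EqvGen.rel _ _ (Or.inl h)

theorem Conn.edge {E : Set (It X ℕ)} (r : It X JN → It X JN → Prop) {e : It X ℕ} (he : e ∈ E)
    (b b' : Bool) : Conn E r (en e b) (en e b') := by
  have h : Conn E r (en e false) (en e true) := Relation.EqvGen.rel _ _ (Or.inr ⟨e, he, rfl, rfl⟩)
  cases b <;> cases b'
  · exact Conn.refl _ _ _
  · exact h
  · exact h.symm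
  · exact Conn.refl _ _ _

/-- transfer of connectedness along a map of nodes -/
theorem Conn.map {E E' : Set (It X ℕ)} {r r' : It X JN → It X JN → Prop}
    (θ : It X JN → It X JN) (h1 : ∀ η η', r η η' → Conn E' r' (θ η) (θ η'))
    (h2 : ∀ e ∈ E, Conn E' r' (θ (en e false)) (θ (en e true))) {η η' : It X JN}
    (h : Conn E r η η') : Conn E' r' (θ η) (θ η') := by
  induction h with
  | rel x y h =>
    rcases h with h | ⟨e, he, rfl, rfl⟩
    · exact h1 _ _ h
    · exact h2 e he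
  | refl x => exact Conn.refl _ _ _
  | symm x y _ ih => exact ih.symm
  | trans x y z _ _ ih1 ih2 => exact ih1.trans ih2

/-- every cycle relative to the base is a combination of the chains `a s` and cell boundaries -/
def GenP {K : ℕ} (E : Set (It X ℕ)) (r : It X JN → It X JN → Prop) (C : Set (It X ℕ))
    (ed : It X ℕ → ZMod 100 → It X ℕ) (S : Set (It X (Fin K)))
    (a : It X (Fin K) → (It X ℕ →₀ ℤ)) : Prop :=
  ∀ ξ : It X ℕ →₀ ℤ, (∀ e, ξ e ≠ 0 → e ∈ E) → bd ξ ∈ Zs r →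
    ξ ∈ Submodule.span ℤ (a '' S) ⊔ Submodule.span ℤ (cbd ed '' C)

theorem GenP.transfer {K : ℕ} {E E' : Set (It X ℕ)} {r r' : It X JN → It X JN → Prop}
    {C C' : Set (It X ℕ)} {ed ed' : It X ℕ → ZMod 100 → It X ℕ} {S : Set (It X (Fin K))}
    {a : It X (Fin K) → (It X ℕ →₀ ℤ)} (h : GenP E r C ed S a)
    (Λ : (It X ℕ →₀ ℤ) →ₗ[ℤ] (It X ℕ →₀ ℤ))
    (h1 : ∀ c ∈ C, Λ (cbd ed c) ∈ Submodule.span ℤ (cbd ed' '' C'))
    (h2 : ∀ ξ' : It X ℕ →₀ ℤ, (∀ e, ξ' e ≠ 0 → e ∈ E') → bd ξ' ∈ Zs r' →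
      ∃ ξ : It X ℕ →₀ ℤ, (∀ e, ξ e ≠ 0 → e ∈ E) ∧ bd ξ ∈ Zs r ∧
        ξ' - Λ ξ ∈ Submodule.span ℤ (cbd ed' '' C')) :
    GenP E' r' C' ed' S (fun s => Λ (a s)) := by
  intro ξ' hs hz
  obtain ⟨ξ, g1, g2, g3⟩ := h2 ξ' hs hz
  have g4 : Λ ξ ∈ Submodule.span ℤ ((fun s => Λ (a s)) '' S) ⊔
      Submodule.span ℤ (cbd ed' '' C') := by
    have : Submodule.span ℤ (a '' S) ⊔ Submodule.span ℤ (cbd ed '' C) ≤
        (Submodule.span ℤ ((fun s => Λ (a s)) '' S) ⊔
          Submodule.span ℤ (cbd ed' '' C')).comap Λ := by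
      refine sup_le (Submodule.span_le.2 ?_) (Submodule.span_le.2 ?_)
      · rintro _ ⟨s, hs, rfl⟩
        exact Submodule.mem_sup_left (Submodule.subset_span ⟨s, hs, rfl⟩)
      · rintro _ ⟨c, hc, rfl⟩
        exact Submodule.mem_sup_right (h1 c hc)
    exact this (h ξ g1 g2)
  have : ξ' = Λ ξ + (ξ' - Λ ξ) := by abel
  rw [this]
  exact Submodule.add_mem _ g4 (Submodule.mem_sup_right g3)

/-- A measured graph with cells over the orbits of the action. -/
structure Str (H : Subgroup Γ) (v : ZMod 100 → Γ) {K : ℕ} (S : Set (It X (Fin K))) where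
  L : ℕ
  E : Set (It X ℕ)
  mE : MeasurableSet E
  bE : ∀ e ∈ E, e.ix < L
  r : It X JN → It X JN → Prop
  r_om : OM Γ r
  r_eqv : Equivalence r
  r_loc : ∀ η η', r η η' → ∃ h ∈ H, nloc v η' = h • nloc v η
  r_base : ∀ x, ∀ h ∈ H, r (bs x) (bs (h • x))
  C : Set (It X ℕ)
  mC : MeasurableSet C
  bC : ∀ c ∈ C, c.ix < L
  ed : It X ℕ → ZMod 100 → It X ℕ
  ed_om : ∀ k, OM Γ (fun c e => e = ed c k)
  ed_pt : ∀ c ∈ C, ∀ k, (ed c k).pt = v k • c.pt
  ed_mem : ∀ c ∈ C, ∀ k, ed c k ∈ E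
  corner : ∀ c ∈ C, ∀ k, r (en (ed c (k - 1)) true) (en (ed c k) false)
  ed_inj : ∀ c ∈ C, ∀ c' ∈ C, ∀ k, ed c k = ed c' k → c = c'
  conn : ∀ η η', Valid E η → Valid E η' → (∃ g : Γ, η'.pt = g • η.pt) → Conn E r η η'
  gen : ∃ a, MC Γ a ∧ GenP E r C ed S a

variable {H : Subgroup Γ} {v : ZMod 100 → Γ} {K : ℕ} {S : Set (It X (Fin K))}

/-- the potential -/
noncomputable def Str.pot (Y : Str H v S) (μ : Measure X) : ℝ :=
  (nu μ ℕ Y.E).toReal - (nu μ ℕ Y.C).toReal

/-- no two edges with the same image have equivalent ends of the same kind -/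
def Str.Folded (Y : Str H v S) : Prop :=
  ∀ e ∈ Y.E, ∀ e' ∈ Y.E, ∀ b, e.pt = e'.pt → Y.r (en e b) (en e' b) → e = e'

/-- maps of structures -/
def Str.Mor (Y Y' : Str H v S) : Prop :=
  ∃ f : It X ℕ → It X ℕ, (∀ e ∈ Y.E, f e ∈ Y'.E ∧ (f e).pt = e.pt ∧
    ∀ b, Y'.r (en e b) (en (f e) b)) ∧
    ∀ η η', Valid Y.E η → Valid Y.E η' → Y.r η η' → Y'.r η η'

/-- 99 consecutive edges of the cell with image `σ`; the edge in position `p` is missing -/
def Str.Arc (Y : Str H v S) (p : ZMod 100) (σ : X) (e : ZMod 100 → It X ℕ) : Prop :=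
  (∀ i, i ≠ p → e i ∈ Y.E ∧ (e i).pt = v i • σ) ∧
    ∀ i, i ≠ p → i - 1 ≠ p → Y.r (en (e (i - 1)) true) (en (e i) false)

/-- first edges of arcs that do not lie on a cell -/
def Str.Att (Y : Str H v S) (p : ZMod 100) : Set (It X ℕ) :=
  {e₁ | (∃ σ e, Y.Arc p σ e ∧ e (p + 1) = e₁) ∧ ¬ ∃ c ∈ Y.C, Y.ed c (p + 1) = e₁}

/-- the edge with image `x` is present between base vertices -/
def Str.Done (Y : Str H v S) (x : X) : Prop :=
  ∃ e ∈ Y.E, e.pt = x ∧ Y.r (bs x) (en e false) ∧ Y.r (en e true) (bs (av v 1 • x))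

theorem nu_lt_top_of_bound (μ : Measure X) [IsProbabilityMeasure μ] {W : Set (It X ℕ)} {L : ℕ}
    (h : ∀ e ∈ W, e.ix < L) : nu μ ℕ W < ⊤ := by
  have : W ⊆ ⋃ i : Fin L, {ω | ω.ix = i ∧ ω.pt ∈ (univ : Set X)} := fun e he =>
    mem_iUnion.2 ⟨⟨e.ix, h e he⟩, rfl, trivial⟩
  refine lt_of_le_of_lt ((measure_mono this).trans (measure_iUnion_fintype_le _ _)) ?_
  simp only [nu_layer μ MeasurableSet.univ]
  simp

theorem Str.nuE_ne_top (Y : Str H v S) (μ : Measure X) [IsProbabilityMeasure μ] :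
    nu μ ℕ Y.E ≠ ⊤ := (nu_lt_top_of_bound μ Y.bE).ne

theorem Str.nuC_ne_top (Y : Str H v S) (μ : Measure X) [IsProbabilityMeasure μ] :
    nu μ ℕ Y.C ≠ ⊤ := (nu_lt_top_of_bound μ Y.bC).ne

section
variable [Countable Γ] (μ : Measure X) [FPA Γ μ]

include μ in
theorem om_en (b : Bool) : OM Γ (fun (e : It X ℕ) η => η = en e b) := by
  simpa [en] using OM.shift (X := X) μ (1 : Γ) (fun i : ℕ => (some (i, b) : JN))

include μ in
theorem om_bs {J : Type} (g : Γ) : OM Γ (fun (ω : It X J) η => η = bs (g • ω.pt)) :=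
  OM.shift (X := X) μ g (fun _ => (none : JN))

include μ in
theorem mc_bd1 : MC Γ (bd1 : It X ℕ → _) :=
  (MC.single (om_en μ true) 1).sub (MC.single (om_en μ false) 1)

include μ in
theorem Str.mc_cbd (Y : Str H v S) : MC Γ (cbd Y.ed) :=
  MC.sum _ fun k _ => MC.single (Y.ed_om k) 1

include μ in
theorem measurableSet_valid {E : Set (It X ℕ)} (hE : MeasurableSet E) :
    MeasurableSet {η : It X JN | Valid E η} := by
  refine It.measurableSet_iff.2 fun j => ?_
  rcases j with _ | ⟨i, b⟩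
  · have : {x : X | (⟨x, none⟩ : It X JN) ∈ {η : It X JN | Valid E η}} = univ :=
      eq_univ_of_forall fun x => valid_bs E x
    rw [this]; exact MeasurableSet.univ
  · convert It.slice hE i using 1
    ext x
    exact valid_en (e := ⟨x, i⟩)

theorem Str.pot_nonneg [IsProbabilityMeasure μ] (Y : Str H v S) : 0 ≤ Y.pot μ := by
  have : nu μ ℕ Y.C ≤ nu μ ℕ Y.E :=
    nu_le_of_injOn μ (Y.ed_om 0) Y.mC Y.mE (fun c hc => Y.ed_mem c hc 0)
      fun c hc c' hc' e => Y.ed_inj c hc c' hc' 0 e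
  exact sub_nonneg.2 (ENNReal.toReal_mono (Y.nuE_ne_top μ) this)

end

end Crest.Agent.R191
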