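import Crest.Agent.R191.UpperAct
import Crest.Agent.R191.Section

/-! Row 191: free actions of `Gam` with cost arbitrarily close to one. -/

set_option autoImplicit false

namespace Crest.Agent.R191

open MeasureTheory

theorem upper {X : Type} [MeasurableSpace X] [StandardBorelSpace X] (μ : Measure X)
    [IsProbabilityMeasure μ] [MulAction Gam X] [FPA Gam μ] (M : ℕ) (hM : 100 < M) :
    ∃ (Y : Type) (_ : MeasurableSpace Y) (_ : StandardBorelSpace Y) (ν : Measure Y)
      (_ : IsProbabilityMeasure ν) (_ : MulAction Gam Y),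
      Crest.Dynamics.IsFreePMPAction Gam Y ν ∧
        Crest.Dynamics.actionCost Gam Y ν ≤ 1 + 99 / (M : ENNReal) := by
  obtain ⟨S, hSm, hS, hSμ⟩ := exists_orbit_section μ tt tt_zpow_inj (2 * M) (by omega)
  exact upper_of_section μ M hM S hSm hS hSμ

end Crest.Agent.R191
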