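import Crest.Agent.R191.UpperGen

/-! Row 191, upper bound: the action on `ZMod L × X`. -/

set_option autoImplicit false
set_option linter.unusedVariables false
set_option linter.unusedSectionVars false

namespace Crest.Agent.R191

open MeasureTheory Set
open scoped ENNReal

/-- the uniform probability measure on `ZMod L` -/
noncomputable def unifZ (L : ℕ) : Measure (ZMod L) := (L : ℝ≥0∞)⁻¹ • Measure.count

theorem unifZ_prob (L : ℕ) [NeZero L] : IsProbabilityMeasure (unifZ L) := by
  constructor
  have hL : (L : ℝ≥0∞) ≠ 0 := by exact_mod_cast NeZero.ne L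
  simp only [unifZ, Measure.smul_apply, smul_eq_mul]
  rw [Measure.count_univ, ENat.card_eq_coe_fintype_card, ZMod.card]
  simpa using ENNReal.inv_mul_cancel hL (ENNReal.natCast_ne_top L)

theorem unifZ_add (L : ℕ) [NeZero L] (c : ZMod L) :
    MeasurePreserving (fun z : ZMod L => z + c) (unifZ L) (unifZ L) := by
  refine ⟨measurable_from_top, ?_⟩
  refine Measure.ext_iff_singleton.2 fun z => ?_
  rw [Measure.map_apply measurable_from_top (MeasurableSet.singleton z)]
  have : (fun z : ZMod L => z + c) ⁻¹' {z} = {z - c} := by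
    ext w; rw [mem_preimage, mem_singleton_iff, mem_singleton_iff, eq_sub_iff_add_eq]
  rw [this]
  simp [unifZ]

theorem unifZ_low (L : ℕ) [NeZero L] :
    unifZ L {z | z.val ≤ 98} ≤ 99 / (L : ℝ≥0∞) := by
  classical
  have h1 : {z : ZMod L | z.val ≤ 98} ⊆ ((Finset.range 99).image (fun n : ℕ => (n : ZMod L)) :
      Finset (ZMod L)) := by
    intro z hz
    simp only [Finset.coe_image, Finset.coe_range, mem_image, mem_Iio]
    exact ⟨z.val, Nat.lt_succ_of_le hz, ZMod.natCast_zmod_val z⟩
  refine (measure_mono h1).trans ?_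
  simp only [unifZ, Measure.smul_apply, smul_eq_mul, Measure.count_apply_finset]
  rw [ENNReal.div_eq_inv_mul]
  gcongr
  have := (Finset.card_image_le (s := Finset.range 99) (f := fun n : ℕ => (n : ZMod L)))
  rw [Finset.card_range] at this
  exact_mod_cast this

/-- the skew action on `ZMod L × X` -/
@[reducible] def skewAct (L : ℕ) (X : Type) [MulAction Gam X] (φ : Gam →* Multiplicative ℤ) :
    MulAction Gam (ZMod L × X) where
  smul g p := (p.1 + ((Multiplicative.toAdd (φ g) : ℤ) : ZMod L), g • p.2)
  one_smul p := by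
    change (p.1 + ((Multiplicative.toAdd (φ 1) : ℤ) : ZMod L), (1 : Gam) • p.2) = p
    simp
  mul_smul g h p := by
    change (p.1 + ((Multiplicative.toAdd (φ (g * h)) : ℤ) : ZMod L), (g * h) • p.2) =
      (p.1 + ((Multiplicative.toAdd (φ h) : ℤ) : ZMod L) +
        ((Multiplicative.toAdd (φ g) : ℤ) : ZMod L), g • h • p.2)
    rw [map_mul, toAdd_mul, mul_smul, Int.cast_add]
    congr 1
    ring

theorem upper_of_section {X : Type} [MeasurableSpace X] [StandardBorelSpace X] (μ : Measure X)
    [IsProbabilityMeasure μ] [MulAction Gam X] [FPA Gam μ] (M : ℕ) (hM : 100 < M)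
    (S : Set X) (hSm : MeasurableSet S) (hS : ∀ x, ∃ k : ℤ, tt ^ k • x ∈ S)
    (hSμ : ((2 * M : ℕ) : ℝ≥0∞) * μ S ≤ 1) :
    ∃ (Y : Type) (_ : MeasurableSpace Y) (_ : StandardBorelSpace Y) (ν : Measure Y)
      (_ : IsProbabilityMeasure ν) (_ : MulAction Gam Y),
      Crest.Dynamics.IsFreePMPAction Gam Y ν ∧
        Crest.Dynamics.actionCost Gam Y ν ≤ 1 + 99 / (M : ENNReal) := by
  classical
  obtain ⟨φ, hφt, hφv⟩ := exists_level
  set L : ℕ := 2 * M with hL
  have : NeZero L := ⟨by omega⟩
  have := unifZ_prob L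
  let act : MulAction Gam (ZMod L × X) := skewAct L X φ
  have hsm : ∀ (g : Gam) (p : ZMod L × X),
      g • p = (p.1 + ((Multiplicative.toAdd (φ g) : ℤ) : ZMod L), g • p.2) := fun _ _ => rfl
  refine ⟨ZMod L × X, inferInstance, inferInstance, (unifZ L).prod μ, inferInstance, act,
    ⟨fun g => ?_, fun g hg => ?_⟩, ?_⟩
  · exact (unifZ_add L _).prod (FPA.mp (μ := μ) g)
  · have : {p : ZMod L × X | g • p = p} = ∅ := by
      ext p
      simp only [mem_ofPred_eq, mem_empty_iff_false, iff_false]
      intro h
      exact hg (FPA.free (μ := μ) g p.2 (congrArg Prod.snd h))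
    rw [this, measure_empty]
  · let γ : Option (ZMod 100) → Gam := fun o => match o with
      | none => tt
      | some i => if i = 1 then av vv 1 else av vv i * (av vv 1)⁻¹
    let A : Option (ZMod 100) → Set (ZMod L × X) := fun o => match o with
      | none => univ
      | some i => if i = 1 then {z : ZMod L | z.val ≤ 98} ×ˢ univ else univ ×ˢ S
    have hA : ∀ o, MeasurableSet (A o) := by
      rintro (_ | i)
      · exact MeasurableSet.univ
      · simp only [A]
        split_ifs
        · exact MeasurableSet.prod MeasurableSpace.measurableSet_top MeasurableSet.univ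
        · exact MeasurableSet.univ.prod hSm
    refine (actionCost_le_of_finite ((unifZ L).prod μ) γ A hA ?_).trans ?_
    · refine gen_of_levels _ (Relation.EqvGen.is_equivalence _) L Prod.fst ?_ (univ ×ˢ S) ?_ ?_ ?_ ?_
      · intro k p
        rw [hsm, hφv]
        simp
      · intro p
        obtain ⟨k, hk⟩ := hS p.2
        exact ⟨k, trivial, hk⟩
      · intro p
        exact Relation.EqvGen.rel _ _ ⟨none, trivial, rfl⟩
      · intro p hp i hi
        exact Relation.EqvGen.rel _ _ ⟨some i, by simpa [A, hi] using hp, by simp [γ, hi]⟩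
      · intro p hp
        exact Relation.EqvGen.rel _ _ ⟨some 1, by simpa [A] using hp, by simp [γ]⟩
    · have hL0 : (L : ℝ≥0∞) ≠ 0 := by exact_mod_cast NeZero.ne L
      have hS' : μ S ≤ 1 / (L : ℝ≥0∞) := by
        rw [ENNReal.le_div_iff_mul_le (Or.inl hL0) (Or.inl (ENNReal.natCast_ne_top L)), mul_comm]
        exact hSμ
      rw [Fintype.sum_option, ← Finset.add_sum_erase _ _ (Finset.mem_univ (1 : ZMod 100))]
      have e0 : (unifZ L).prod μ (A none) = 1 := measure_univ
      have e1 : (unifZ L).prod μ (A (some 1)) ≤ 99 / (L : ℝ≥0∞) := by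
        simp only [A, if_true, Measure.prod_prod, measure_univ, mul_one]
        exact unifZ_low L
      have e2 : ∑ i ∈ Finset.univ.erase (1 : ZMod 100), (unifZ L).prod μ (A (some i)) ≤
          99 / (L : ℝ≥0∞) := by
        have : ∀ i ∈ Finset.univ.erase (1 : ZMod 100),
            (unifZ L).prod μ (A (some i)) ≤ 1 / (L : ℝ≥0∞) := by
          intro i hi
          have hi' : i ≠ 1 := Finset.ne_of_mem_erase hi
          simp only [A, if_neg hi', Measure.prod_prod, measure_univ, one_mul]
          exact hS'
        refine (Finset.sum_le_card_nsmul _ _ _ this).trans ?_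
        rw [Finset.card_erase_of_mem (Finset.mem_univ _), Finset.card_univ, ZMod.card,
          nsmul_eq_mul, mul_one_div]
        norm_num
      rw [e0]
      gcongr
      refine (add_le_add e1 e2).trans (le_of_eq ?_)
      have hM0 : (M : ℝ≥0∞) ≠ 0 := by exact_mod_cast (by omega : M ≠ 0)
      rw [← two_mul, hL, Nat.cast_mul, Nat.cast_ofNat, ← mul_div_assoc,
        ENNReal.mul_div_mul_left _ _ (by norm_num) (by norm_num)]

end Crest.Agent.R191
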