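import Crest.Agent.R191.MT
import Crest.Agent.R191.Group

/-! Row 191, upper bound: finite graphings and the combinatorial generation argument. -/

set_option autoImplicit false
set_option linter.unusedVariables false
set_option linter.unusedSectionVars false

namespace Crest.Agent.R191

open MeasureTheory Set
open scoped ENNReal

/-- A finite family of partial translations generating every orbit bounds the cost. -/
theorem actionCost_le_of_finite {Γ Y : Type} [Group Γ] [MulAction Γ Y] [MeasurableSpace Y]
    (ν : Measure Y) {ι : Type} [Fintype ι] (γ : ι → Γ) (A : ι → Set Y)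
    (hA : ∀ i, MeasurableSet (A i))
    (hgen : ∀ (y : Y) (g : Γ),
      Relation.EqvGen (fun y z : Y => ∃ i, y ∈ A i ∧ z = γ i • y) y (g • y)) :
    Crest.Dynamics.actionCost Γ Y ν ≤ ∑ i, ν (A i) := by
  classical
  obtain ⟨e, he⟩ : ∃ e : ι → ℕ, Function.Injective e := exists_injective_nat ι
  let Φ : ℕ → Γ × Set Y := Function.extend e (fun i => (γ i, A i)) (fun _ => (1, ∅))
  have hΦ : ∀ i, Φ (e i) = (γ i, A i) := fun i => he.extend_apply _ _ i
  have hΦ' : ∀ n, (¬ ∃ i, e i = n) → Φ n = (1, ∅) := fun n hn => Function.extend_apply' _ _ n hn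
  refine sInf_le ⟨Φ, ⟨fun n => ?_, ∅, measure_empty, fun y _ g => ?_⟩, ?_⟩
  · by_cases hn : ∃ i, e i = n
    · obtain ⟨i, rfl⟩ := hn
      rw [hΦ]; exact hA i
    · rw [hΦ' n hn]; exact MeasurableSet.empty
  · refine Relation.EqvGen.mono ?_ _ _ (hgen y g)
    rintro a b ⟨i, hi, rfl⟩
    exact ⟨e i, by rw [hΦ]; exact hi, by rw [hΦ]⟩
  · unfold Crest.Dynamics.graphingCost
    rw [← he.tsum_eq (f := fun n => ν (Φ n).2)]
    · simp only [hΦ, tsum_fintype]
    · intro n hn
      by_contra h
      apply hn
      have : ¬ ∃ i, e i = n := h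
      simp only [hΦ' n this, measure_empty]

/-- The combinatorial generation argument. -/
theorem gen_of_levels {Y : Type} [MulAction Gam Y] (E : Y → Y → Prop) (hE : Equivalence E)
    (L : ℕ) [NeZero L] (lev : Y → ZMod L)
    (hlev : ∀ (k : ZMod 100) (y : Y), lev (vv k • y) = lev y + (k.val : ZMod L))
    (S : Set Y) (hS : ∀ y, ∃ k : ℤ, tt ^ k • y ∈ S)
    (ht : ∀ y, E y (tt • y))
    (hc : ∀ y ∈ S, ∀ i : ZMod 100, i ≠ 1 → E y ((av vv i * (av vv 1)⁻¹) • y))
    (h1 : ∀ y, (lev y).val ≤ 98 → E y (av vv 1 • y)) (y : Y) (g : Gam) : E y (g • y) := by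
  let K : Subgroup Gam :=
    { carrier := {g | ∀ y, E y (g • y)}
      one_mem' := fun y => by rw [one_smul]; exact hE.refl y
      mul_mem' := fun {a b} ha hb y => by
        rw [mul_smul]; exact hE.trans (hb y) (ha _)
      inv_mem' := fun {a} ha y => by
        have := ha (a⁻¹ • y)
        rw [smul_inv_smul] at this
        exact hE.symm this }
  have hK : ∀ {g : Gam}, g ∈ K ↔ ∀ y, E y (g • y) := Iff.rfl
  have htK : tt ∈ K := ht
  have hc1 : ∀ i : ZMod 100, av vv i * (av vv 1)⁻¹ ∈ K := by
    intro i
    by_cases hi : i = 1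
    · subst hi; rw [mul_inv_cancel]; exact K.one_mem
    · intro y
      obtain ⟨k, hk⟩ := hS y
      have e1 : E y (tt ^ k • y) := hK.1 (K.zpow_mem htK k) y
      have e2 := hc _ hk i hi
      have e3 : E ((av vv i * (av vv 1)⁻¹) • y) (tt ^ k • ((av vv i * (av vv 1)⁻¹) • y)) :=
        hK.1 (K.zpow_mem htK k) _
      have e4 : tt ^ k • ((av vv i * (av vv 1)⁻¹) • y) =
          (av vv i * (av vv 1)⁻¹) • (tt ^ k • y) := by
        rw [← mul_smul, ← mul_smul, ((tt_comm i 1).zpow_left k).eq]
      rw [e4] at e3
      exact hE.trans e1 (hE.trans e2 (hE.symm e3))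
  -- known points
  have hknown : ∀ y, E y (av vv 1 • y) → ∀ i, E y (av vv i • y) := by
    intro y hy i
    have := hK.1 (hc1 i) (av vv 1 • y)
    rw [← mul_smul, inv_mul_cancel_right] at this
    exact hE.trans hy this
  have hknown' : ∀ y i, E y (av vv i • y) → E y (av vv 1 • y) := by
    intro y i hy
    have := hK.1 (K.inv_mem (hc1 i)) (av vv i • y)
    rw [← mul_smul, mul_inv_rev, inv_inv, inv_mul_cancel_right] at this
    exact hE.trans hy this
  have hall : ∀ (n : ℕ) (y : Y), (lev y).val = n → E y (av vv 1 • y) := by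
    intro n
    induction n using Nat.strong_induction_on with
    | _ n ih =>
      intro y hy
      by_cases hn : n ≤ 98
      · exact h1 y (hy ▸ hn)
      · have hn' : 99 ≤ n := by omega
        have hnL : n < L := hy ▸ ZMod.val_lt (lev y)
        set σ : Y := (vv (99 : ℕ))⁻¹ • y with hσ
        have hyσ : y = vv (99 : ℕ) • σ := by rw [hσ, smul_inv_smul]
        have hval : ∀ k : ℕ, k ≤ 99 → ((k : ZMod 100)).val = k := fun k hk =>
          ZMod.val_cast_of_lt (by omega)
        have hlσ : lev σ = ((n - 99 : ℕ) : ZMod L) := by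
          have := hlev (99 : ℕ) σ
          rw [← hyσ, hval 99 le_rfl] at this
          have h2 : lev y = (n : ZMod L) := by rw [← hy, ZMod.natCast_zmod_val]
          rw [Nat.cast_sub hn', ← h2, this]
          ring
        have hchain : ∀ k : ℕ, k ≤ 99 → E σ (vv (k : ZMod 100) • σ) := by
          intro k
          induction k with
          | zero => intro _; rw [Nat.cast_zero, vv_zero, one_smul]; exact hE.refl σ
          | succ k ihk =>
            intro hk
            have hl : (lev (vv (k : ZMod 100) • σ)).val = n - 99 + k := by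
              rw [hlev, hval k (by omega), hlσ, ← Nat.cast_add]
              exact ZMod.val_cast_of_lt (by omega)
            have e1 := hknown _ (ih _ (by omega) _ hl) ((k + 1 : ℕ) : ZMod 100)
            have e2 : vv ((k + 1 : ℕ) : ZMod 100) = av vv ((k + 1 : ℕ) : ZMod 100) * vv k := by
              simp [av]
            rw [e2, mul_smul]
            exact hE.trans (ihk (by omega)) e1
        have e1 := hchain 99 le_rfl
        rw [← hyσ] at e1
        have e2 : av vv 0 • y = σ := by
          have : ((0 : ZMod 100) - 1) = ((99 : ℕ) : ZMod 100) := by decide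
          rw [av, vv_zero, one_mul, this]
        exact hknown' y 0 (by rw [e2]; exact hE.symm e1)
  have ha1 : av vv 1 ∈ K := fun y => hall _ y rfl
  have ha : ∀ i, av vv i ∈ K := fun i => by simpa using K.mul_mem (hc1 i) ha1
  have hn : ∀ n : ℕ, vv (n : ZMod 100) ∈ K := by
    intro n
    induction n with
    | zero => rw [Nat.cast_zero, vv_zero]; exact K.one_mem
    | succ n ih =>
      have : vv ((n + 1 : ℕ) : ZMod 100) = av vv ((n + 1 : ℕ) : ZMod 100) * vv n := by
        simp [av]
      rw [this]; exact K.mul_mem (ha _) ih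
  have htop : K = ⊤ := eq_top_of_mem K htK (fun k => by
    rw [← ZMod.natCast_zmod_val k]; exact hn _)
  exact hK.1 (htop ▸ Subgroup.mem_top g) y

end Crest.Agent.R191
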